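import Vale.Agent.Lib.P308.Count

namespace Vale.Agent.Lib.P308

open Finset

set_option linter.unusedSectionVars false
set_option linter.unusedVariables false

variable {V : Type*} [Fintype V] [DecidableEq V]

open Classical in
/-- the involution attached to a matching given as a subgraph -/
noncomputable def toFun {G : SimpleGraph V} (M : G.Subgraph) : V → V :=
  fun x => if h : ∃ w, M.Adj x w then Classical.choose h else x

variable {G : SimpleGraph V}

lemma toFun_adj {M : G.Subgraph} (hM : M.IsMatching) {x w : V} (h : M.Adj x w) :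
    toFun M x = w := by
  have hex : ∃ w, M.Adj x w := ⟨w, h⟩
  have h1 : toFun M x = Classical.choose hex := by
    unfold toFun
    rw [dif_pos hex]
  rw [h1]
  exact hM.eq_of_adj_left (Classical.choose_spec hex) h

lemma toFun_of_notMem {M : G.Subgraph} {x : V} (h : x ∉ M.verts) : toFun M x = x := by
  have hex : ¬ ∃ w, M.Adj x w := by
    rintro ⟨w, hw⟩
    exact h (M.edge_vert hw)
  unfold toFun
  rw [dif_neg hex]

lemma toFun_mem {M : G.Subgraph} (hM : M.IsMatching) {x : V} (h : x ∈ M.verts) :
    M.Adj x (toFun M x) := by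
  obtain ⟨w, hw, _⟩ := hM h
  rw [toFun_adj hM hw]
  exact hw

lemma toFun_isMat {M : G.Subgraph} (hM : M.IsMatching) : IsMat G (toFun M) := by
  constructor
  · intro x
    by_cases h : x ∈ M.verts
    · exact toFun_adj hM (toFun_mem hM h).symm
    · rw [toFun_of_notMem h, toFun_of_notMem h]
  · intro x hx
    by_cases h : x ∈ M.verts
    · exact M.adj_sub (toFun_mem hM h)
    · exact absurd (toFun_of_notMem h) hx

lemma toFun_eq_self_iff {M : G.Subgraph} (hM : M.IsMatching) {x : V} :
    toFun M x = x ↔ x ∉ M.verts := by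
  constructor
  · intro h hx
    have := toFun_mem hM hx
    rw [h] at this
    exact (M.adj_sub this).ne rfl
  · exact toFun_of_notMem

lemma holes_toFun {M : G.Subgraph} (hM : M.IsMatching) :
    ((holes (toFun M) : Finset V) : Set V) = M.vertsᶜ := by
  ext x
  simp only [Finset.mem_coe, mem_holes, Set.mem_compl_iff]
  exact toFun_eq_self_iff hM

lemma toFun_injOn : Set.InjOn (toFun (G := G)) {M : G.Subgraph | M.IsMatching} := by
  intro M hM M' hM' h
  simp only [Set.mem_ofPred_eq] at hM hM'
  have hv : M.verts = M'.verts := by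
    ext x
    have h1 := toFun_eq_self_iff hM (x := x)
    have h2 := toFun_eq_self_iff hM' (x := x)
    rw [h] at h1
    constructor
    · intro hx
      by_contra hc
      exact (h1.1 (h2.2 hc)) hx
    · intro hx
      by_contra hc
      exact (h2.1 (h1.2 hc)) hx
  have ha : ∀ x y, M.Adj x y ↔ M'.Adj x y := by
    intro x y
    constructor
    · intro hxy
      have e := toFun_adj hM hxy
      rw [h] at e
      have hx : x ∈ M'.verts := hv ▸ M.edge_vert hxy
      have := toFun_mem hM' hx
      rwa [e] at this
    · intro hxy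
      have e := toFun_adj hM' hxy
      rw [← h] at e
      have hx : x ∈ M.verts := hv ▸ M'.edge_vert hxy
      have := toFun_mem hM hx
      rwa [e] at this
  apply SimpleGraph.Subgraph.ext hv
  funext x y
  exact propext (ha x y)

/-- the spanning subgraph attached to a fixed-point-free involution -/
def ofFun (G : SimpleGraph V) (g : V → V) : G.Subgraph where
  verts := Set.univ
  Adj x y := g x = y ∧ g y = x ∧ G.Adj x y
  adj_sub := fun h => h.2.2
  edge_vert := fun _ => Set.mem_univ _
  symm := ⟨fun _ _ h => ⟨h.2.1, h.1, h.2.2.symm⟩⟩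

lemma ofFun_isPerfectMatching {g : V → V} (hg : IsMat G g) (hfix : ∀ x, g x ≠ x) :
    (ofFun G g).IsPerfectMatching := by
  rw [SimpleGraph.Subgraph.isPerfectMatching_iff]
  intro v
  refine ⟨g v, ⟨rfl, hg.1 v, hg.2 v (hfix v)⟩, ?_⟩
  intro w hw
  exact hw.1.symm

lemma ofFun_injOn : Set.InjOn (ofFun G) {g : V → V | IsMat G g ∧ ∀ x, g x ≠ x} := by
  intro g hg g' hg' h
  simp only [Set.mem_ofPred_eq] at hg hg'
  funext x
  have h1 : (ofFun G g).Adj x (g x) := ⟨rfl, hg.1.1 x, hg.1.2 x (hg.2 x)⟩
  rw [h] at h1
  exact h1.1.symm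

/-- the number of near-perfect matchings (subgraph form) is at most the number of
near-perfect involutions -/
theorem ncard_near_le (G : SimpleGraph V) :
    Set.ncard {M : G.Subgraph | M.IsMatching ∧ M.vertsᶜ.ncard = 2} ≤ (NearInv G).card := by
  classical
  rw [← Set.ncard_coe_finset (NearInv G)]
  apply Set.ncard_le_ncard_of_injOn (toFun (G := G))
  · intro M hM
    simp only [Set.mem_ofPred_eq] at hM
    simp only [NearInv, Finset.coe_filter, mem_univ, true_and, Set.mem_ofPred_eq]
    refine ⟨toFun_isMat hM.1, ?_⟩
    rw [← Set.ncard_coe_finset, holes_toFun hM.1]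
    exact hM.2
  · intro M hM M' hM' h
    exact toFun_injOn hM.1 hM'.1 h

/-- the number of fixed-point-free matching involutions is at most the number of perfect
matchings (subgraph form) -/
theorem card_pmInv_le (G : SimpleGraph V) :
    (PMinv G).card ≤ Set.ncard {M : G.Subgraph | M.IsPerfectMatching} := by
  classical
  rw [← Set.ncard_coe_finset (PMinv G)]
  apply Set.ncard_le_ncard_of_injOn (ofFun G)
  · intro g hg
    simp only [PMinv, Finset.coe_filter, mem_univ, true_and, Set.mem_ofPred_eq] at hg
    exact ofFun_isPerfectMatching hg.1 hg.2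
  · intro g hg g' hg' h
    simp only [PMinv, Finset.coe_filter, mem_univ, true_and, Set.mem_ofPred_eq] at hg hg'
    exact ofFun_injOn hg hg' h

end Vale.Agent.Lib.P308
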