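import Vale.Agent.Lib.P308.Main

namespace Vale.Agent.Lib.P308

open Finset

set_option linter.unusedSectionVars false
set_option linter.unusedVariables false

variable {V : Type*} [Fintype V] [DecidableEq V]

/-- regular graphs whose nontrivial spectrum is at most an eighth of the degree -/
theorem near_le_of_eighth (G : SimpleGraph V) [DecidableRel G.Adj] (d : ℕ) (hd : 0 < d)
    (hreg : G.IsRegularOfDegree d) (lam : ℝ) (hlam : 0 ≤ lam) (h8 : 8 * lam ≤ d)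
    (hspec : ∀ x : V → ℝ, ∑ v, x v = 0 →
      ∑ v, ((G.adjMatrix ℝ).mulVec x v) ^ 2 ≤ lam ^ 2 * ∑ v, x v ^ 2) :
    Set.ncard {M : G.Subgraph | M.IsMatching ∧ Set.ncard (M.verts)ᶜ = 2} ≤
      Fintype.card V * (2 * d + 1) ^ (2 * Nat.log 2 (Fintype.card V)) *
        Set.ncard {M : G.Subgraph | M.IsPerfectMatching} := by
  set N := Fintype.card V with hN
  set j := Nat.log 2 (N / 4) with hj
  have hd' : (0 : ℝ) < (d : ℝ) := by exact_mod_cast hd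
  have h64 : 64 * lam ^ 2 ≤ (d : ℝ) ^ 2 := by nlinarith
  have hNlt : N < 8 * 2 ^ j := by
    have := Nat.lt_pow_succ_log_self (b := 2) (by norm_num) (N / 4)
    rw [← hj, pow_succ] at this
    omega
  have hmain := near_le_of_spectral_schedule G d hreg lam hspec (fun i => 2 ^ i) j (by simp)
    (fun i => Nat.pow_le_pow_right (by norm_num) (Nat.le_succ i)) ?_ ?_
  · refine hmain.trans ?_
    apply Nat.mul_le_mul_right
    apply Nat.mul_le_mul_left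
    apply Nat.pow_le_pow_right (by omega)
    apply Nat.mul_le_mul_left
    exact Nat.log_mono_right (Nat.div_le_self N 4)
  · intro i hi
    have hjpos : 0 < j := by omega
    have hN4 : N / 4 ≠ 0 := by
      intro h0
      rw [hj, h0] at hjpos
      simp at hjpos
    have h2j : 2 ^ j ≤ N / 4 := Nat.pow_log_le_self 2 hN4
    have h2i : 2 ^ (i + 1) ≤ 2 ^ j := Nat.pow_le_pow_right (by norm_num) hi
    have h8i : 8 * 2 ^ i ≤ N := by
      rw [pow_succ] at h2i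
      omega
    have h8i' : 8 * (2 : ℝ) ^ i ≤ (N : ℝ) := by exact_mod_cast h8i
    have hs : (0 : ℝ) < (2 : ℝ) ^ i := by positivity
    have hN0 : (0 : ℝ) ≤ (N : ℝ) := by positivity
    push_cast
    have e : (3 * (2 : ℝ) ^ (i + 1) + 2 ^ i) = 7 * 2 ^ i := by rw [pow_succ]; ring
    rw [e]
    have h1 : lam ^ 2 * (N : ℝ) + ((d : ℝ) ^ 2 - lam ^ 2) * 2 ^ i
        ≤ (d : ℝ) ^ 2 * (N : ℝ) / 64 + (d : ℝ) ^ 2 * (N : ℝ) / 8 := by
      have a1 : lam ^ 2 * (N : ℝ) ≤ (d : ℝ) ^ 2 * (N : ℝ) / 64 := by nlinarith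
      have a2 : ((d : ℝ) ^ 2 - lam ^ 2) * 2 ^ i ≤ (d : ℝ) ^ 2 * (N : ℝ) / 8 := by
        have : ((d : ℝ) ^ 2 - lam ^ 2) * 2 ^ i ≤ (d : ℝ) ^ 2 * 2 ^ i := by nlinarith [sq_nonneg lam]
        have : (d : ℝ) ^ 2 * 2 ^ i ≤ (d : ℝ) ^ 2 * ((N : ℝ) / 8) := by
          apply mul_le_mul_of_nonneg_left _ (sq_nonneg _)
          linarith
        linarith
      linarith
    calc 7 * (2 : ℝ) ^ i * (lam ^ 2 * (N : ℝ) + ((d : ℝ) ^ 2 - lam ^ 2) * 2 ^ i)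
        ≤ 7 * (2 : ℝ) ^ i * ((d : ℝ) ^ 2 * (N : ℝ) / 64 + (d : ℝ) ^ 2 * (N : ℝ) / 8) :=
          mul_le_mul_of_nonneg_left h1 (by positivity)
      _ = (63 / 64) * ((d : ℝ) ^ 2 * 2 ^ i * (N : ℝ)) := by ring
      _ ≤ (d : ℝ) ^ 2 * 2 ^ i * (N : ℝ) := by
          have : 0 ≤ (d : ℝ) ^ 2 * 2 ^ i * (N : ℝ) := by positivity
          linarith
  · have hN' : (N : ℝ) < 8 * (2 : ℝ) ^ j := by exact_mod_cast hNlt
    have hN0 : (0 : ℝ) ≤ (N : ℝ) := by positivity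
    have hp : (0 : ℝ) < (2 : ℝ) ^ j := by positivity
    push_cast
    have h1 : (N : ℝ) ^ 2 < 64 * ((2 : ℝ) ^ j * 2 ^ j) := by nlinarith
    have h2 : lam ^ 2 * (N : ℝ) ^ 2 ≤ (d : ℝ) ^ 2 / 64 * (N : ℝ) ^ 2 := by
      apply mul_le_mul_of_nonneg_right _ (sq_nonneg _)
      linarith
    have h3 : (d : ℝ) ^ 2 / 64 * (N : ℝ) ^ 2 < (d : ℝ) ^ 2 / 64 * (64 * ((2 : ℝ) ^ j * 2 ^ j)) := by
      apply mul_lt_mul_of_pos_left h1
      positivity
    calc lam ^ 2 * (N : ℝ) ^ 2 ≤ (d : ℝ) ^ 2 / 64 * (N : ℝ) ^ 2 := h2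
      _ < (d : ℝ) ^ 2 / 64 * (64 * ((2 : ℝ) ^ j * 2 ^ j)) := h3
      _ = (d : ℝ) ^ 2 * 2 ^ j * 2 ^ j := by ring

end Vale.Agent.Lib.P308
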