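import Vale.Agent.Lib.P308.Grow

namespace Vale.Agent.Lib.P308

open Finset

set_option linter.unusedSectionVars false
set_option linter.unusedVariables false

variable {V : Type*} [Fintype V] [DecidableEq V]

/-- Matchings (as involutions) with exactly two uncovered vertices. -/
def Good (G : SimpleGraph V) (f : V → V) : Prop := IsMat G f ∧ (holes f).card = 2

/-- The matchings reachable from `h` by one hole move. -/
def nbrs (G : SimpleGraph V) [DecidableRel G.Adj] (h : V → V) : Finset (V → V) :=
  (holes h).biUnion (fun x =>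
    ((G.neighborFinset x).filter (fun w => h w ≠ w)).image (fun w => mv h x w))

/-- The matchings reachable from `T` by at most `k` hole moves. -/
def ball (G : SimpleGraph V) [DecidableRel G.Adj] (T : Finset (V → V)) : ℕ → Finset (V → V)
  | 0 => T
  | (k + 1) => ball G T k ∪ (ball G T k).biUnion (nbrs G)

variable {G : SimpleGraph V}

lemma good_of_step {h g : V → V} (hg : Good G h) (hs : Step G h g) : Good G g := by
  obtain ⟨x, w, hx, hxw, hw, rfl⟩ := hs
  refine ⟨mv_isMat hg.1 hx hxw hw, ?_⟩
  rw [holes_mv hg.1 hx hxw hw]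
  have hxh : x ∈ holes h := mem_holes.2 hx
  have hnot : h w ∉ (holes h).erase x := by
    intro hc
    have := mem_holes.1 (mem_of_mem_erase hc)
    rw [hg.1.1 w] at this
    exact hw this.symm
  rw [Finset.card_insert_of_notMem hnot, Finset.card_erase_of_mem hxh, hg.2]

lemma mem_nbrs_iff [DecidableRel G.Adj] {h g : V → V} : g ∈ nbrs G h ↔ Step G h g := by
  unfold nbrs Step
  simp only [mem_biUnion, mem_image, mem_filter, SimpleGraph.mem_neighborFinset, mem_holes]
  constructor
  · rintro ⟨x, hx, w, ⟨hxw, hw⟩, rfl⟩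
    exact ⟨x, w, hx, hxw, hw, rfl⟩
  · rintro ⟨x, w, hx, hxw, hw, rfl⟩
    exact ⟨x, hx, w, ⟨hxw, hw⟩, rfl⟩

lemma card_nbrs_le [DecidableRel G.Adj] {h : V → V} (hg : Good G h) (d : ℕ)
    (hdeg : ∀ v, G.degree v ≤ d) : (nbrs G h).card ≤ 2 * d := by
  unfold nbrs
  refine (Finset.card_biUnion_le).trans ?_
  have : ∀ x ∈ holes h,
      (((G.neighborFinset x).filter (fun w => h w ≠ w)).image (fun w => mv h x w)).card ≤ d := by
    intro x _
    refine (Finset.card_image_le).trans ?_
    refine (Finset.card_filter_le _ _).trans ?_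
    rw [SimpleGraph.card_neighborFinset_eq_degree]
    exact hdeg x
  calc ∑ x ∈ holes h,
        (((G.neighborFinset x).filter (fun w => h w ≠ w)).image (fun w => mv h x w)).card
      ≤ ∑ x ∈ holes h, d := Finset.sum_le_sum this
    _ = 2 * d := by rw [Finset.sum_const, hg.2]; rfl

lemma ball_good [DecidableRel G.Adj] {T : Finset (V → V)} (hT : ∀ t ∈ T, Good G t) (k : ℕ) :
    ∀ g ∈ ball G T k, Good G g := by
  induction k with
  | zero => exact hT
  | succ k ih =>
    intro g hg
    rcases mem_union.1 hg with hg | hg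
    · exact ih g hg
    · obtain ⟨h, hh, hgh⟩ := mem_biUnion.1 hg
      exact good_of_step (ih h hh) (mem_nbrs_iff.1 hgh)

lemma card_ball_le [DecidableRel G.Adj] {T : Finset (V → V)} (hT : ∀ t ∈ T, Good G t) (d : ℕ)
    (hdeg : ∀ v, G.degree v ≤ d) (k : ℕ) : (ball G T k).card ≤ T.card * (2 * d + 1) ^ k := by
  induction k with
  | zero => simp [ball]
  | succ k ih =>
    have h1 : ((ball G T k).biUnion (nbrs G)).card ≤ (ball G T k).card * (2 * d) := by
      refine (Finset.card_biUnion_le).trans ?_
      calc ∑ h ∈ ball G T k, (nbrs G h).card ≤ ∑ h ∈ ball G T k, 2 * d :=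
            Finset.sum_le_sum (fun h hh => card_nbrs_le (ball_good hT k h hh) d hdeg)
        _ = (ball G T k).card * (2 * d) := by rw [Finset.sum_const]; rfl
    calc (ball G T (k + 1)).card ≤ (ball G T k).card + ((ball G T k).biUnion (nbrs G)).card :=
          Finset.card_union_le _ _
      _ ≤ (ball G T k).card + (ball G T k).card * (2 * d) := Nat.add_le_add_left h1 _
      _ = (ball G T k).card * (2 * d + 1) := by ring
      _ ≤ T.card * (2 * d + 1) ^ k * (2 * d + 1) := Nat.mul_le_mul_right _ ih
      _ = T.card * (2 * d + 1) ^ (k + 1) := by ring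

lemma mem_ball_of_reachIn [DecidableRel G.Adj] {T : Finset (V → V)} {t : V → V} (ht : t ∈ T)
    (k : ℕ) : ∀ g, ReachIn G k t g → g ∈ ball G T k := by
  induction k with
  | zero =>
    intro g hg
    have : t = g := hg
    subst this
    exact ht
  | succ k ih =>
    intro g hg
    rcases hg with hg | ⟨h, hh, hs⟩
    · exact mem_union_left _ (ih g hg)
    · exact mem_union_right _ (mem_biUnion.2 ⟨h, ih h hh, mem_nbrs_iff.2 hs⟩)

/-- close a pair of uncovered vertices -/
def cls (f : V → V) (p q : V) : V → V :=
  fun z => if z = p then q else if z = q then p else f z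

/-- uncover the vertex `p` and its partner -/
def opn (g : V → V) (p : V) : V → V :=
  fun z => if z = p ∨ z = g p then z else g z

lemma cls_isMat {f : V → V} {p q : V} (hf : IsMat G f) (hh : holes f = {p, q})
    (hpq : G.Adj p q) : IsMat G (cls f p q) ∧ (∀ x, cls f p q x ≠ x) ∧ opn (cls f p q) p = f := by
  have hne : p ≠ q := hpq.ne
  have hp : f p = p := by
    have : p ∈ holes f := by rw [hh]; simp
    exact mem_holes.1 this
  have hq : f q = q := by
    have : q ∈ holes f := by rw [hh]; simp
    exact mem_holes.1 this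
  have hother : ∀ z, z ≠ p → z ≠ q → f z ≠ z ∧ f z ≠ p ∧ f z ≠ q := by
    intro z h1 h2
    refine ⟨?_, ?_, ?_⟩
    · intro hc
      have : z ∈ holes f := mem_holes.2 hc
      rw [hh] at this
      simp only [mem_insert, mem_singleton] at this
      rcases this with h | h
      · exact h1 h
      · exact h2 h
    · intro hc
      have := hf.1 z; rw [hc, hp] at this; exact h1 this.symm
    · intro hc
      have := hf.1 z; rw [hc, hq] at this; exact h2 this.symm
  have c1 : cls f p q p = q := by simp [cls]
  have c2 : cls f p q q = p := by simp [cls, hne.symm]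
  have c3 : ∀ z, z ≠ p → z ≠ q → cls f p q z = f z := by
    intro z h1 h2; simp [cls, h1, h2]
  refine ⟨⟨?_, ?_⟩, ?_, ?_⟩
  · intro z
    by_cases h1 : z = p
    · subst h1; rw [c1, c2]
    by_cases h2 : z = q
    · subst h2; rw [c2, c1]
    obtain ⟨a1, a2, a3⟩ := hother z h1 h2
    rw [c3 z h1 h2, c3 (f z) a2 a3, hf.1]
  · intro z hz
    by_cases h1 : z = p
    · subst h1; rw [c1]; exact hpq
    by_cases h2 : z = q
    · subst h2; rw [c2]; exact hpq.symm
    obtain ⟨a1, a2, a3⟩ := hother z h1 h2
    rw [c3 z h1 h2]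
    exact hf.2 z a1
  · intro z
    by_cases h1 : z = p
    · subst h1; rw [c1]; exact hne.symm
    by_cases h2 : z = q
    · subst h2; rw [c2]; exact hne
    obtain ⟨a1, a2, a3⟩ := hother z h1 h2
    rw [c3 z h1 h2]; exact a1
  · funext z
    unfold opn
    rw [c1]
    by_cases h1 : z = p
    · subst h1; simp [hp]
    by_cases h2 : z = q
    · subst h2; simp [hq]
    simp [h1, h2, c3 z h1 h2]

open Classical in
/-- perfect matchings as fixed-point-free involutions -/
noncomputable def PMinv (G : SimpleGraph V) : Finset (V → V) :=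
  univ.filter (fun g => IsMat G g ∧ ∀ x, g x ≠ x)

open Classical in
/-- near-perfect matchings as involutions with exactly two fixed points -/
noncomputable def NearInv (G : SimpleGraph V) : Finset (V → V) :=
  univ.filter (fun f => Good G f)

open Classical in
/-- near-perfect matchings whose two uncovered vertices are adjacent -/
noncomputable def AdjT (G : SimpleGraph V) : Finset (V → V) :=
  univ.filter (fun f => IsMat G f ∧ ∃ p q, holes f = {p, q} ∧ G.Adj p q)

lemma card_adjT_le (G : SimpleGraph V) : (AdjT G).card ≤ (PMinv G).card * Fintype.card V := by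
  classical
  have hsub : AdjT G ⊆ ((PMinv G) ×ˢ (univ : Finset V)).image (fun p => opn p.1 p.2) := by
    intro f hf
    simp only [AdjT, mem_filter, mem_univ, true_and] at hf
    obtain ⟨hfm, p, q, hh, hpq⟩ := hf
    obtain ⟨h1, h2, h3⟩ := cls_isMat hfm hh hpq
    refine mem_image.2 ⟨(cls f p q, p), ?_, h3⟩
    simp only [mem_product, mem_univ, and_true, PMinv, mem_filter, true_and]
    exact ⟨h1, h2⟩
  calc (AdjT G).card ≤ (((PMinv G) ×ˢ (univ : Finset V)).image (fun p => opn p.1 p.2)).card :=
        Finset.card_le_card hsub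
    _ ≤ ((PMinv G) ×ˢ (univ : Finset V)).card := Finset.card_image_le
    _ = (PMinv G).card * Fintype.card V := by rw [Finset.card_product, Finset.card_univ]

lemma adjT_good (G : SimpleGraph V) : ∀ t ∈ AdjT G, Good G t := by
  classical
  intro t ht
  simp only [AdjT, mem_filter, mem_univ, true_and] at ht
  obtain ⟨hfm, p, q, hh, hpq⟩ := ht
  exact ⟨hfm, by rw [hh, Finset.card_pair hpq.ne]⟩

/-- counting: if every near-perfect matching is within `k` hole moves of one with adjacent
holes, then there are few near-perfect matchings compared to perfect ones -/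
theorem card_nearInv_le [DecidableRel G.Adj] (d k : ℕ) (hdeg : ∀ v, G.degree v ≤ d)
    (hreach : ∀ f, Good G f → ∃ (f' : V → V) (p q : V), IsMat G f' ∧ holes f' = {p, q} ∧
      G.Adj p q ∧ ReachIn G k f' f) :
    (NearInv G).card ≤ Fintype.card V * (2 * d + 1) ^ k * (PMinv G).card := by
  classical
  have hsub : NearInv G ⊆ ball G (AdjT G) k := by
    intro f hf
    simp only [NearInv, mem_filter, mem_univ, true_and] at hf
    obtain ⟨f', p, q, h1, h2, h3, h4⟩ := hreach f hf
    have ht : f' ∈ AdjT G := by
      simp only [AdjT, mem_filter, mem_univ, true_and]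
      exact ⟨h1, p, q, h2, h3⟩
    exact mem_ball_of_reachIn ht k f h4
  calc (NearInv G).card ≤ (ball G (AdjT G) k).card := Finset.card_le_card hsub
    _ ≤ (AdjT G).card * (2 * d + 1) ^ k := card_ball_le (adjT_good G) d hdeg k
    _ ≤ ((PMinv G).card * Fintype.card V) * (2 * d + 1) ^ k :=
        Nat.mul_le_mul_right _ (card_adjT_le G)
    _ = Fintype.card V * (2 * d + 1) ^ k * (PMinv G).card := by ring

end Vale.Agent.Lib.P308
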