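import Vale.Agent.Lib.P308.Moves

namespace Vale.Agent.Lib.P308

open Finset

set_option linter.unusedSectionVars false
set_option linter.unusedVariables false

variable {V : Type*} [Fintype V] [DecidableEq V]

/-- The invariant of the balanced growth of two disjoint families of hole positions. -/
structure Inv (G : SimpleGraph V) (f : V → V) (k : ℕ) (F A B : Finset V) : Prop where
  subA : A ⊆ F
  subB : B ⊆ F
  disj : Disjoint A B
  closed : ∀ x, x ∉ F → f x ∉ F ∧ f x ≠ x
  states : ∀ a ∈ A, ∀ b ∈ B, ∃ f' : V → V, IsMat G f' ∧ holes f' = {a, b} ∧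
    ReachIn G k f' f ∧ ∀ x, x ∉ F → f' x = f x

variable {G : SimpleGraph V} {f : V → V}

lemma Inv.init [DecidableRel G.Adj] {u v : V} (hf : IsMat G f) (huv : u ≠ v)
    (hh : holes f = {u, v}) : Inv G f 0 {u, v} {u} {v} := by
  have hu : f u = u := by
    have : u ∈ holes f := by rw [hh]; simp
    exact mem_holes.1 this
  have hv : f v = v := by
    have : v ∈ holes f := by rw [hh]; simp
    exact mem_holes.1 this
  refine ⟨by simp, by simp, by simpa using huv, ?_, ?_⟩
  · intro x hx
    have hx' : x ∉ holes f := by rw [hh]; exact hx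
    have hfx : f x ≠ x := fun h => hx' (mem_holes.2 h)
    refine ⟨?_, hfx⟩
    intro h
    simp only [mem_insert, mem_singleton] at h hx
    rcases h with h | h
    · have := hf.1 x; rw [h, hu] at this; exact hx (Or.inl this.symm)
    · have := hf.1 x; rw [h, hv] at this; exact hx (Or.inr this.symm)
  · intro a ha b hb
    simp only [mem_singleton] at ha hb
    subst ha; subst hb
    exact ⟨f, hf, hh, rfl, fun _ _ => rfl⟩

lemma Inv.symm {k : ℕ} {F A B : Finset V} (h : Inv G f k F A B) : Inv G f k F B A := by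
  refine ⟨h.subB, h.subA, h.disj.symm, h.closed, ?_⟩
  intro b hb a ha
  obtain ⟨f', h1, h2, h3, h4⟩ := h.states a ha b hb
  exact ⟨f', h1, by rw [h2, Finset.pair_comm], h3, h4⟩

lemma Inv.grow {k : ℕ} {F A B : Finset V} (hf : IsMat G f) (h : Inv G f k F A B)
    (W : Finset V) (hW : ∀ w ∈ W, w ∉ F ∧ ∃ a ∈ A, G.Adj a w) :
    Inv G f (k + 1) (F ∪ W ∪ W.image f) (A ∪ W.image f) B ∧
      (A ∪ W.image f).card = A.card + W.card ∧
      (F ∪ W ∪ W.image f).card ≤ F.card + 2 * W.card := by
  have hinj : Function.Injective f := by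
    intro x y hxy
    have := congrArg f hxy
    rwa [hf.1, hf.1] at this
  have himgF : ∀ y ∈ W.image f, y ∉ F := by
    intro y hy
    obtain ⟨w, hw, rfl⟩ := mem_image.1 hy
    exact (h.closed w (hW w hw).1).1
  have hdisjA : Disjoint A (W.image f) := by
    rw [Finset.disjoint_left]
    intro y hyA hy
    exact himgF y hy (h.subA hyA)
  refine ⟨⟨?_, ?_, ?_, ?_, ?_⟩, ?_, ?_⟩
  · intro y hy
    rcases mem_union.1 hy with hy | hy
    · exact mem_union_left _ (mem_union_left _ (h.subA hy))
    · exact mem_union_right _ hy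
  · intro y hy
    exact mem_union_left _ (mem_union_left _ (h.subB hy))
  · rw [Finset.disjoint_left]
    intro y hy hyB
    rcases mem_union.1 hy with hy | hy
    · exact (Finset.disjoint_left.1 h.disj) hy hyB
    · exact himgF y hy (h.subB hyB)
  · intro x hx
    have hxF : x ∉ F := fun hc => hx (mem_union_left _ (mem_union_left _ hc))
    have hxW : x ∉ W := fun hc => hx (mem_union_left _ (mem_union_right _ hc))
    have hxI : x ∉ W.image f := fun hc => hx (mem_union_right _ hc)
    obtain ⟨c1, c2⟩ := h.closed x hxF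
    refine ⟨?_, c2⟩
    intro hc
    rcases mem_union.1 hc with hc | hc
    · rcases mem_union.1 hc with hc | hc
      · exact c1 hc
      · apply hxI
        exact mem_image.2 ⟨f x, hc, hf.1 x⟩
    · obtain ⟨w, hw, hwx⟩ := mem_image.1 hc
      have := hinj hwx
      subst this
      exact hxW hw
  · intro a ha b hb
    rcases mem_union.1 ha with ha | ha
    · obtain ⟨f', h1, h2, h3, h4⟩ := h.states a ha b hb
      refine ⟨f', h1, h2, Or.inl h3, ?_⟩
      intro x hx
      exact h4 x (fun hc => hx (mem_union_left _ (mem_union_left _ hc)))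
    · obtain ⟨w, hw, rfl⟩ := mem_image.1 ha
      obtain ⟨hwF, o, ho, hadj⟩ := hW w hw
      obtain ⟨f0, h1, h2, h3, h4⟩ := h.states o ho b hb
      have hfw : f0 w = f w := h4 w hwF
      have hfw' : f0 w ≠ w := by rw [hfw]; exact (h.closed w hwF).2
      have ho0 : f0 o = o := by
        have : o ∈ holes f0 := by rw [h2]; simp
        exact mem_holes.1 this
      have hob : o ≠ b := fun hc => (Finset.disjoint_left.1 h.disj) ho (hc ▸ hb)
      refine ⟨mv f0 o w, mv_isMat h1 ho0 hadj hfw', ?_, ?_, ?_⟩
      · rw [holes_mv h1 ho0 hadj hfw', h2, hfw]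
        ext z
        simp only [mem_insert, mem_erase, mem_singleton]
        constructor
        · rintro (hz | ⟨hz1, hz2 | hz2⟩)
          · exact Or.inl hz
          · exact absurd hz2 hz1
          · exact Or.inr hz2
        · rintro (hz | hz)
          · exact Or.inl hz
          · exact Or.inr ⟨by rw [hz]; exact hob.symm, Or.inr hz⟩
      · have hs : Step G f0 (mv f0 o w) := ⟨o, w, ho0, hadj, hfw', rfl⟩
        exact reachIn_prepend (step_symm h1 hs) h3
      · intro x hx
        have hxF : x ∉ F := fun hc => hx (mem_union_left _ (mem_union_left _ hc))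
        have hxW : x ∉ W := fun hc => hx (mem_union_left _ (mem_union_right _ hc))
        have hxI : x ∉ W.image f := fun hc => hx (mem_union_right _ hc)
        have e1 : x ≠ o := fun hc => hxF (hc ▸ h.subA ho)
        have e2 : x ≠ w := fun hc => hxW (hc ▸ hw)
        have e3 : x ≠ f0 w := by
          rw [hfw]
          intro hc
          exact hxI (mem_image.2 ⟨w, hw, hc.symm⟩)
        rw [mv_apply_of_ne e1 e2 e3]
        exact h4 x hxF
  · rw [Finset.card_union_of_disjoint hdisjA, Finset.card_image_of_injective _ hinj]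
  · calc (F ∪ W ∪ W.image f).card ≤ (F ∪ W).card + (W.image f).card := Finset.card_union_le _ _
      _ ≤ (F.card + W.card) + W.card :=
          Nat.add_le_add (Finset.card_union_le _ _) Finset.card_image_le
      _ = F.card + 2 * W.card := by ring

/-- one layer: given enough fresh neighbours, enlarge `A` to a prescribed size -/
lemma Inv.layer [DecidableRel G.Adj] {k : ℕ} {F A B : Finset V} (hf : IsMat G f)
    (h : Inv G f k F A B) (m : ℕ)
    (hm : F.card + m ≤ (A.biUnion (fun x => G.neighborFinset x)).card) :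
    ∃ F' A', Inv G f (k + 1) F' A' B ∧ A'.card = A.card + m ∧ F'.card ≤ F.card + 2 * m := by
  have hc : m ≤ ((A.biUnion (fun x => G.neighborFinset x)) \ F).card := by
    have := Finset.le_card_sdiff F (A.biUnion (fun x => G.neighborFinset x))
    omega
  obtain ⟨W, hWsub, hWcard⟩ := Finset.exists_subset_card_eq hc
  have hW : ∀ w ∈ W, w ∉ F ∧ ∃ a ∈ A, G.Adj a w := by
    intro w hw
    have := hWsub hw
    rw [mem_sdiff, mem_biUnion] at this
    obtain ⟨⟨a, ha, haw⟩, hwF⟩ := this
    exact ⟨hwF, a, ha, by simpa using haw⟩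
  obtain ⟨h1, h2, h3⟩ := h.grow hf W hW
  exact ⟨_, _, h1, by rw [h2, hWcard], by rw [hWcard] at h3; exact h3⟩

/-- The main combinatorial statement: in a graph whose vertex sets of the scheduled sizes
expand, every matching with exactly two uncovered vertices is within `2 * j` hole moves of
a matching whose two uncovered vertices are adjacent. -/
theorem exists_adj_state [DecidableRel G.Adj] {u v : V} (hf : IsMat G f) (huv : u ≠ v)
    (hh : holes f = {u, v}) (a : ℕ → ℕ) (j : ℕ) (ha0 : a 0 = 1)
    (hmono : ∀ i, a i ≤ a (i + 1))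
    (hexp : ∀ i, i < j → ∀ S : Finset V, S.card = a i →
      3 * a (i + 1) + a i ≤ (S.biUnion (fun x => G.neighborFinset x)).card + 2)
    (hmix : ∀ S T : Finset V, Disjoint S T → S.card = a j → T.card = a j →
      ∃ s ∈ S, ∃ t ∈ T, G.Adj s t) :
    ∃ (f' : V → V) (p q : V), IsMat G f' ∧ holes f' = {p, q} ∧ G.Adj p q ∧
      ReachIn G (2 * j) f' f := by
  have key : ∀ i, i ≤ j → ∃ F A B, Inv G f (2 * i) F A B ∧ A.card = a i ∧ B.card = a i ∧
      F.card + 2 ≤ 4 * a i := by
    intro i
    induction i with
    | zero =>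
      intro _
      refine ⟨{u, v}, {u}, {v}, Inv.init hf huv hh, by simp [ha0], by simp [ha0], ?_⟩
      rw [Finset.card_pair huv, ha0]
    | succ i ih =>
      intro hi
      obtain ⟨F, A, B, hinv, hA, hB, hF⟩ := ih (by omega)
      have hi' : i < j := by omega
      have e1 := hexp i hi' A hA
      have e2 := hexp i hi' B hB
      have hm := hmono i
      obtain ⟨F1, A1, hinv1, hA1, hF1⟩ := hinv.layer hf (a (i + 1) - a i) (by omega)
      obtain ⟨F2, B2, hinv2, hB2, hF2⟩ := hinv1.symm.layer hf (a (i + 1) - a i) (by omega)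
      refine ⟨F2, A1, B2, ?_, by omega, by omega, by omega⟩
      have : 2 * (i + 1) = 2 * i + 1 + 1 := by ring
      rw [this]
      exact hinv2.symm
  obtain ⟨F, A, B, hinv, hA, hB, hF⟩ := key j le_rfl
  obtain ⟨p, hp, q, hq, hpq⟩ := hmix A B hinv.disj hA hB
  obtain ⟨f', h1, h2, h3, h4⟩ := hinv.states p hp q hq
  exact ⟨f', p, q, h1, h2, hpq, h3⟩

end Vale.Agent.Lib.P308
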