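import Mathlib

namespace Vale.Agent.Lib.P308

open Finset

set_option linter.unusedSectionVars false
set_option linter.unusedVariables false

variable {V : Type*} [Fintype V] [DecidableEq V]

/-- the number of neighbours of `v` inside `S`, as a real number -/
noncomputable def nb (G : SimpleGraph V) [DecidableRel G.Adj] (S : Finset V) (v : V) : ℝ :=
  ∑ u ∈ G.neighborFinset v, (if u ∈ S then (1 : ℝ) else 0)

variable (G : SimpleGraph V) [DecidableRel G.Adj]

lemma nb_nonneg (S : Finset V) (v : V) : 0 ≤ nb G S v := by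
  unfold nb
  exact Finset.sum_nonneg (fun u _ => by split_ifs <;> norm_num)

lemma nb_eq_zero (S : Finset V) (v : V) (h : ∀ s ∈ S, ¬ G.Adj s v) : nb G S v = 0 := by
  unfold nb
  apply Finset.sum_eq_zero
  intro u hu
  rw [SimpleGraph.mem_neighborFinset] at hu
  have : u ∉ S := fun hc => h u hc hu.symm
  simp [this]

lemma sum_ind (S : Finset V) : ∑ v : V, (if v ∈ S then (1 : ℝ) else 0) = S.card := by
  rw [Finset.sum_ite_mem, Finset.univ_inter]
  simp

lemma sum_nb {d : ℕ} (hreg : G.IsRegularOfDegree d) (S : Finset V) :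
    ∑ v, nb G S v = d * S.card := by
  unfold nb
  have h1 : ∀ v : V, ∑ u ∈ G.neighborFinset v, (if u ∈ S then (1 : ℝ) else 0)
      = ∑ u : V, (if G.Adj v u then (if u ∈ S then (1 : ℝ) else 0) else 0) := by
    intro v
    rw [SimpleGraph.neighborFinset_eq_filter, Finset.sum_filter]
  simp_rw [h1]
  rw [Finset.sum_comm]
  have h2 : ∀ u : V, ∑ v : V, (if G.Adj v u then (if u ∈ S then (1 : ℝ) else 0) else 0)
      = (if u ∈ S then (1 : ℝ) else 0) * d := by
    intro u
    have : ∑ v : V, (if G.Adj v u then (if u ∈ S then (1 : ℝ) else 0) else 0)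
        = ∑ v ∈ G.neighborFinset u, (if u ∈ S then (1 : ℝ) else 0) := by
      rw [SimpleGraph.neighborFinset_eq_filter, Finset.sum_filter]
      apply Finset.sum_congr rfl
      intro v _
      simp only [SimpleGraph.adj_comm]
    rw [this, Finset.sum_const, SimpleGraph.card_neighborFinset_eq_degree, hreg.degree_eq]
    simp [mul_comm]
  simp_rw [h2]
  rw [← Finset.sum_mul, sum_ind]
  ring

/-- the basic spectral inequality for indicator vectors -/
lemma spectral_ind {d : ℕ} (hreg : G.IsRegularOfDegree d) (lam : ℝ)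
    (hspec : ∀ x : V → ℝ, ∑ v, x v = 0 →
      ∑ v, ((G.adjMatrix ℝ).mulVec x v) ^ 2 ≤ lam ^ 2 * ∑ v, x v ^ 2)
    (hN : 0 < Fintype.card V) (S : Finset V) :
    ∑ v, (nb G S v - (S.card : ℝ) / (Fintype.card V : ℝ) * d) ^ 2
      ≤ lam ^ 2 * ((S.card : ℝ) - (S.card : ℝ) ^ 2 / (Fintype.card V : ℝ)) := by
  have hN' : (0 : ℝ) < (Fintype.card V : ℝ) := by exact_mod_cast hN
  set c : ℝ := (S.card : ℝ) / (Fintype.card V : ℝ) with hc
  set z : V → ℝ := fun v => (if v ∈ S then (1 : ℝ) else 0) - c with hz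
  have hz0 : ∑ v, z v = 0 := by
    simp only [hz]
    rw [Finset.sum_sub_distrib, sum_ind, Finset.sum_const, Finset.card_univ, hc]
    simp only [nsmul_eq_mul]
    field_simp
    ring
  have hmul : ∀ v, (G.adjMatrix ℝ).mulVec z v = nb G S v - c * d := by
    intro v
    rw [SimpleGraph.adjMatrix_mulVec_apply]
    simp only [hz]
    rw [Finset.sum_sub_distrib, Finset.sum_const, SimpleGraph.card_neighborFinset_eq_degree,
      hreg.degree_eq]
    simp only [nsmul_eq_mul, nb]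
    ring
  have hzsq : ∑ v, z v ^ 2 = (S.card : ℝ) - (S.card : ℝ) ^ 2 / (Fintype.card V : ℝ) := by
    have h1 : ∀ v : V, z v ^ 2 = (if v ∈ S then (1 : ℝ) else 0) * (1 - 2 * c) + c ^ 2 := by
      intro v
      simp only [hz]
      split_ifs <;> ring
    simp_rw [h1]
    rw [Finset.sum_add_distrib, ← Finset.sum_mul, sum_ind, Finset.sum_const, Finset.card_univ, hc]
    simp only [nsmul_eq_mul]
    field_simp
    ring
  have := hspec z hz0
  simp_rw [hmul] at this
  rw [hzsq] at this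
  exact this

/-- expander mixing, in the form : a large pair of sets spans an edge -/
lemma exists_adj_of_spectral {d : ℕ} (hreg : G.IsRegularOfDegree d) (lam : ℝ)
    (hspec : ∀ x : V → ℝ, ∑ v, x v = 0 →
      ∑ v, ((G.adjMatrix ℝ).mulVec x v) ^ 2 ≤ lam ^ 2 * ∑ v, x v ^ 2)
    (S T : Finset V)
    (hST : lam ^ 2 * (Fintype.card V : ℝ) ^ 2 < (d : ℝ) ^ 2 * S.card * T.card) :
    ∃ s ∈ S, ∃ t ∈ T, G.Adj s t := by
  by_contra hcon
  simp only [not_exists, not_and] at hcon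
  have hSne : 0 < S.card := by
    rcases Nat.eq_zero_or_pos S.card with h | h
    · rw [h] at hST
      simp only [Nat.cast_zero, mul_zero, zero_mul] at hST
      have : 0 ≤ lam ^ 2 * (Fintype.card V : ℝ) ^ 2 := by positivity
      linarith
    · exact h
  have hN : 0 < Fintype.card V := by
    obtain ⟨s, hs⟩ := Finset.card_pos.1 hSne
    exact Fintype.card_pos_iff.2 ⟨s⟩
  have hN' : (0 : ℝ) < (Fintype.card V : ℝ) := by exact_mod_cast hN
  have hS' : (0 : ℝ) < (S.card : ℝ) := by exact_mod_cast hSne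
  have hmain := spectral_ind G hreg lam hspec hN S
  set c : ℝ := (S.card : ℝ) / (Fintype.card V : ℝ) with hc
  have hT : ∑ v ∈ T, (nb G S v - c * d) ^ 2 = T.card * (c * d) ^ 2 := by
    have : ∀ v ∈ T, (nb G S v - c * d) ^ 2 = (c * d) ^ 2 := by
      intro v hv
      rw [nb_eq_zero G S v (fun s hs => hcon s hs v hv)]
      ring
    rw [Finset.sum_congr rfl this, Finset.sum_const]
    simp
  have hle : ∑ v ∈ T, (nb G S v - c * d) ^ 2 ≤ ∑ v, (nb G S v - c * d) ^ 2 :=
    Finset.sum_le_sum_of_subset_of_nonneg (Finset.subset_univ T) (fun v _ _ => sq_nonneg _)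
  have h1 : (T.card : ℝ) * (c * d) ^ 2 ≤ lam ^ 2 * (S.card : ℝ) := by
    have h2 : lam ^ 2 * ((S.card : ℝ) - (S.card : ℝ) ^ 2 / (Fintype.card V : ℝ))
        ≤ lam ^ 2 * (S.card : ℝ) := by
      apply mul_le_mul_of_nonneg_left _ (sq_nonneg lam)
      have : 0 ≤ (S.card : ℝ) ^ 2 / (Fintype.card V : ℝ) := by positivity
      linarith
    linarith
  have h3 : (T.card : ℝ) * (c * d) ^ 2 * ((Fintype.card V : ℝ) ^ 2 / (S.card : ℝ))
      ≤ lam ^ 2 * (S.card : ℝ) * ((Fintype.card V : ℝ) ^ 2 / (S.card : ℝ)) :=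
    mul_le_mul_of_nonneg_right h1 (by positivity)
  have e1 : (T.card : ℝ) * (c * d) ^ 2 * ((Fintype.card V : ℝ) ^ 2 / (S.card : ℝ))
      = (d : ℝ) ^ 2 * S.card * T.card := by
    rw [hc]; field_simp
  have e2 : lam ^ 2 * (S.card : ℝ) * ((Fintype.card V : ℝ) ^ 2 / (S.card : ℝ))
      = lam ^ 2 * (Fintype.card V : ℝ) ^ 2 := by
    field_simp
  rw [e1, e2] at h3
  linarith

/-- vertex expansion (Tanner's bound) -/
lemma tanner {d : ℕ} (hreg : G.IsRegularOfDegree d) (lam : ℝ)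
    (hspec : ∀ x : V → ℝ, ∑ v, x v = 0 →
      ∑ v, ((G.adjMatrix ℝ).mulVec x v) ^ 2 ≤ lam ^ 2 * ∑ v, x v ^ 2)
    (S : Finset V) :
    (d : ℝ) ^ 2 * S.card * (Fintype.card V : ℝ) ≤
      ((S.biUnion (fun x => G.neighborFinset x)).card : ℝ) *
        (lam ^ 2 * (Fintype.card V : ℝ) + ((d : ℝ) ^ 2 - lam ^ 2) * S.card) := by
  rcases Nat.eq_zero_or_pos S.card with h0 | hSne
  · have : S = ∅ := Finset.card_eq_zero.1 h0
    subst this
    simp
  have hN : 0 < Fintype.card V := by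
    obtain ⟨s, hs⟩ := Finset.card_pos.1 hSne
    exact Fintype.card_pos_iff.2 ⟨s⟩
  have hN' : (0 : ℝ) < (Fintype.card V : ℝ) := by exact_mod_cast hN
  have hS' : (0 : ℝ) < (S.card : ℝ) := by exact_mod_cast hSne
  have hmain := spectral_ind G hreg lam hspec hN S
  set c : ℝ := (S.card : ℝ) / (Fintype.card V : ℝ) with hc
  set NS := S.biUnion (fun x => G.neighborFinset x) with hNS
  have hsum := sum_nb G hreg S
  -- expand the square
  have hexpand : ∑ v, (nb G S v - c * d) ^ 2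
      = ∑ v, nb G S v ^ 2 - (d : ℝ) ^ 2 * (S.card : ℝ) ^ 2 / (Fintype.card V : ℝ) := by
    have h1 : ∀ v : V, (nb G S v - c * d) ^ 2
        = nb G S v ^ 2 - 2 * (c * d) * nb G S v + (c * d) ^ 2 := by
      intro v; ring
    simp_rw [h1]
    rw [Finset.sum_add_distrib, Finset.sum_sub_distrib, ← Finset.mul_sum, hsum,
      Finset.sum_const, Finset.card_univ, hc]
    simp only [nsmul_eq_mul]
    field_simp
    ring
  have hsq : ∑ v, nb G S v ^ 2 ≤ (d : ℝ) ^ 2 * (S.card : ℝ) ^ 2 / (Fintype.card V : ℝ)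
      + lam ^ 2 * ((S.card : ℝ) - (S.card : ℝ) ^ 2 / (Fintype.card V : ℝ)) := by
    rw [hexpand] at hmain
    linarith
  -- support
  have hsupp : ∀ v, v ∉ NS → nb G S v = 0 := by
    intro v hv
    apply nb_eq_zero
    intro s hs hadj
    apply hv
    rw [hNS, Finset.mem_biUnion]
    exact ⟨s, hs, by simpa using hadj⟩
  have hsum' : ∑ v ∈ NS, nb G S v = d * S.card := by
    rw [← hsum]
    apply Finset.sum_subset (Finset.subset_univ NS)
    intro v _ hv
    exact hsupp v hv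
  have hcs : (∑ v ∈ NS, nb G S v) ^ 2 ≤ (NS.card : ℝ) * ∑ v ∈ NS, nb G S v ^ 2 :=
    sq_sum_le_card_mul_sum_sq
  have hle : ∑ v ∈ NS, nb G S v ^ 2 ≤ ∑ v, nb G S v ^ 2 :=
    Finset.sum_le_sum_of_subset_of_nonneg (Finset.subset_univ NS) (fun v _ _ => sq_nonneg _)
  rw [hsum'] at hcs
  have hfin : ((d : ℝ) * S.card) ^ 2 ≤ (NS.card : ℝ) *
      ((d : ℝ) ^ 2 * (S.card : ℝ) ^ 2 / (Fintype.card V : ℝ)
      + lam ^ 2 * ((S.card : ℝ) - (S.card : ℝ) ^ 2 / (Fintype.card V : ℝ))) := by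
    refine hcs.trans ?_
    apply mul_le_mul_of_nonneg_left (hle.trans hsq)
    positivity
  have h3 := mul_le_mul_of_nonneg_right hfin (show (0:ℝ) ≤ (Fintype.card V : ℝ) / (S.card : ℝ) by positivity)
  have e1 : ((d : ℝ) * S.card) ^ 2 * ((Fintype.card V : ℝ) / (S.card : ℝ))
      = (d : ℝ) ^ 2 * S.card * (Fintype.card V : ℝ) := by
    field_simp
  have e2 : (NS.card : ℝ) *
      ((d : ℝ) ^ 2 * (S.card : ℝ) ^ 2 / (Fintype.card V : ℝ)
      + lam ^ 2 * ((S.card : ℝ) - (S.card : ℝ) ^ 2 / (Fintype.card V : ℝ)))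
      * ((Fintype.card V : ℝ) / (S.card : ℝ))
      = (NS.card : ℝ) * (lam ^ 2 * (Fintype.card V : ℝ) + ((d : ℝ) ^ 2 - lam ^ 2) * S.card) := by
    field_simp
    ring
  rw [e1, e2] at h3
  exact h3

end Vale.Agent.Lib.P308
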