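import Vale.Agent.Lib.P308.Bridge
import Vale.Agent.Lib.P308.Spectral

namespace Vale.Agent.Lib.P308

open Finset

set_option linter.unusedSectionVars false
set_option linter.unusedVariables false

variable {V : Type*} [Fintype V] [DecidableEq V]

/-- Combinatorial form : bounded degree, scheduled vertex expansion and an edge between any two
sets of the final size give a polynomial bound for near-perfect against perfect matchings. -/
theorem near_le_of_schedule (G : SimpleGraph V) [DecidableRel G.Adj] (d : ℕ)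
    (hdeg : ∀ v, G.degree v ≤ d) (a : ℕ → ℕ) (j : ℕ) (ha0 : a 0 = 1)
    (hmono : ∀ i, a i ≤ a (i + 1))
    (hexp : ∀ i, i < j → ∀ S : Finset V, S.card = a i →
      3 * a (i + 1) + a i ≤ (S.biUnion (fun x => G.neighborFinset x)).card + 2)
    (hmix : ∀ S T : Finset V, Disjoint S T → S.card = a j → T.card = a j →
      ∃ s ∈ S, ∃ t ∈ T, G.Adj s t) :
    Set.ncard {M : G.Subgraph | M.IsMatching ∧ Set.ncard (M.verts)ᶜ = 2} ≤
      Fintype.card V * (2 * d + 1) ^ (2 * j) *
        Set.ncard {M : G.Subgraph | M.IsPerfectMatching} := by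
  have hreach : ∀ f, Good G f → ∃ (f' : V → V) (p q : V), IsMat G f' ∧ holes f' = {p, q} ∧
      G.Adj p q ∧ ReachIn G (2 * j) f' f := by
    intro f hf
    obtain ⟨u, v, huv, hh⟩ := Finset.card_eq_two.1 hf.2
    exact exists_adj_state hf.1 huv hh a j ha0 hmono hexp hmix
  calc Set.ncard {M : G.Subgraph | M.IsMatching ∧ Set.ncard (M.verts)ᶜ = 2}
      ≤ (NearInv G).card := ncard_near_le G
    _ ≤ Fintype.card V * (2 * d + 1) ^ (2 * j) * (PMinv G).card :=
        card_nearInv_le d (2 * j) hdeg hreach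
    _ ≤ Fintype.card V * (2 * d + 1) ^ (2 * j) *
        Set.ncard {M : G.Subgraph | M.IsPerfectMatching} :=
        Nat.mul_le_mul_left _ (card_pmInv_le G)

/-- Spectral form with a general schedule. -/
theorem near_le_of_spectral_schedule (G : SimpleGraph V) [DecidableRel G.Adj] (d : ℕ)
    (hreg : G.IsRegularOfDegree d) (lam : ℝ)
    (hspec : ∀ x : V → ℝ, ∑ v, x v = 0 →
      ∑ v, ((G.adjMatrix ℝ).mulVec x v) ^ 2 ≤ lam ^ 2 * ∑ v, x v ^ 2)
    (a : ℕ → ℕ) (j : ℕ) (ha0 : a 0 = 1) (hmono : ∀ i, a i ≤ a (i + 1))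
    (hexp : ∀ i, i < j → ((3 * a (i + 1) + a i : ℕ) : ℝ) *
      (lam ^ 2 * (Fintype.card V : ℝ) + ((d : ℝ) ^ 2 - lam ^ 2) * (a i : ℝ))
        ≤ (d : ℝ) ^ 2 * (a i : ℝ) * (Fintype.card V : ℝ))
    (hmix : lam ^ 2 * (Fintype.card V : ℝ) ^ 2 < (d : ℝ) ^ 2 * (a j : ℝ) * (a j : ℝ)) :
    Set.ncard {M : G.Subgraph | M.IsMatching ∧ Set.ncard (M.verts)ᶜ = 2} ≤
      Fintype.card V * (2 * d + 1) ^ (2 * j) *
        Set.ncard {M : G.Subgraph | M.IsPerfectMatching} := by
  have hd : 0 < d := by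
    rcases Nat.eq_zero_or_pos d with h | h
    · subst h
      have : 0 ≤ lam ^ 2 * (Fintype.card V : ℝ) ^ 2 := by positivity
      simp only [Nat.cast_zero, ne_eq, OfNat.ofNat_ne_zero, not_false_eq_true, zero_pow,
        zero_mul] at hmix
      linarith
    · exact h
  have hd' : (0 : ℝ) < (d : ℝ) := by exact_mod_cast hd
  have hapos : ∀ i, 1 ≤ a i := by
    intro i
    induction i with
    | zero => rw [ha0]
    | succ i ih => exact ih.trans (hmono i)
  apply near_le_of_schedule G d (fun v => (hreg.degree_eq v).le) a j ha0 hmono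
  · intro i hi S hS
    have ht := tanner G hreg lam hspec S
    have he := hexp i hi
    rw [hS] at ht
    have hSN : (a i : ℝ) ≤ (Fintype.card V : ℝ) := by
      have : S.card ≤ Fintype.card V := Finset.card_le_univ S
      rw [hS] at this
      exact_mod_cast this
    have hai : (1 : ℝ) ≤ (a i : ℝ) := by exact_mod_cast hapos i
    have hD : 0 < lam ^ 2 * (Fintype.card V : ℝ) + ((d : ℝ) ^ 2 - lam ^ 2) * (a i : ℝ) := by
      have e : lam ^ 2 * (Fintype.card V : ℝ) + ((d : ℝ) ^ 2 - lam ^ 2) * (a i : ℝ)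
          = lam ^ 2 * ((Fintype.card V : ℝ) - (a i : ℝ)) + (d : ℝ) ^ 2 * (a i : ℝ) := by ring
      rw [e]
      have h1 : 0 ≤ lam ^ 2 * ((Fintype.card V : ℝ) - (a i : ℝ)) :=
        mul_nonneg (sq_nonneg _) (by linarith)
      have h2 : 0 < (d : ℝ) ^ 2 * (a i : ℝ) := by positivity
      linarith
    have hle : ((3 * a (i + 1) + a i : ℕ) : ℝ) ≤
        ((S.biUnion (fun x => G.neighborFinset x)).card : ℝ) :=
      le_of_mul_le_mul_right (he.trans ht) hD
    have : 3 * a (i + 1) + a i ≤ (S.biUnion (fun x => G.neighborFinset x)).card := by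
      exact_mod_cast hle
    omega
  · intro S T _ hS hT
    apply exists_adj_of_spectral G hreg lam hspec S T
    rw [hS, hT]
    exact hmix

/-- Combinatorial form with geometric schedule `g ^ i`. -/
theorem near_le_of_expansion (G : SimpleGraph V) [DecidableRel G.Adj] (d g j : ℕ) (hg : 1 ≤ g)
    (hdeg : ∀ v, G.degree v ≤ d)
    (hexp : ∀ S : Finset V, g * S.card ≤ g ^ j →
      (3 * g + 1) * S.card ≤ (S.biUnion (fun x => G.neighborFinset x)).card)
    (hmix : ∀ S T : Finset V, Disjoint S T → S.card = g ^ j → T.card = g ^ j →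
      ∃ s ∈ S, ∃ t ∈ T, G.Adj s t) :
    Set.ncard {M : G.Subgraph | M.IsMatching ∧ Set.ncard (M.verts)ᶜ = 2} ≤
      Fintype.card V * (2 * d + 1) ^ (2 * j) *
        Set.ncard {M : G.Subgraph | M.IsPerfectMatching} := by
  apply near_le_of_schedule G d hdeg (fun i => g ^ i) j (by simp)
    (fun i => Nat.pow_le_pow_right hg (Nat.le_succ i)) _ hmix
  intro i hi S hS
  have h1 : g * S.card ≤ g ^ j := by
    rw [hS, ← pow_succ']
    exact Nat.pow_le_pow_right hg hi
  have h2 := hexp S h1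
  rw [hS] at h2
  have : 3 * g ^ (i + 1) + g ^ i = (3 * g + 1) * g ^ i := by rw [pow_succ]; ring
  omega

/-- Dense regular graphs with a spectral gap : a uniform bound. -/
theorem near_le_of_dense (G : SimpleGraph V) [DecidableRel G.Adj] (d : ℕ)
    (hreg : G.IsRegularOfDegree d) (lam : ℝ) (hlam : 0 ≤ lam)
    (hspec : ∀ x : V → ℝ, ∑ v, x v = 0 →
      ∑ v, ((G.adjMatrix ℝ).mulVec x v) ^ 2 ≤ lam ^ 2 * ∑ v, x v ^ 2)
    (hdense : 3 * lam * (Fintype.card V : ℝ) < (d : ℝ) * ((d : ℝ) - 3)) :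
    Set.ncard {M : G.Subgraph | M.IsMatching ∧ Set.ncard (M.verts)ᶜ = 2} ≤
      Fintype.card V * (2 * d + 1) ^ 2 *
        Set.ncard {M : G.Subgraph | M.IsPerfectMatching} := by
  have hN0 : (0 : ℝ) ≤ (Fintype.card V : ℝ) := by positivity
  have hd4 : 4 ≤ d := by
    by_contra hc
    have hd3 : (d : ℝ) ≤ 3 := by
      have : d ≤ 3 := by omega
      exact_mod_cast this
    have hd0 : (0 : ℝ) ≤ (d : ℝ) := by positivity
    have h1 : (d : ℝ) * ((d : ℝ) - 3) ≤ 0 := by nlinarith
    have h2 : 0 ≤ 3 * lam * (Fintype.card V : ℝ) := by positivity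
    linarith
  set g := (d - 1) / 3 with hgdef
  have hg1 : 1 ≤ g := by omega
  have hg2 : 3 * g + 1 ≤ d := by omega
  have hg3 : d ≤ 3 * g + 3 := by omega
  have h := near_le_of_expansion G d g 1 hg1 (fun v => (hreg.degree_eq v).le) ?_ ?_
  · simpa using h
  · intro S hS
    rw [pow_one] at hS
    have hS1 : S.card ≤ 1 := by
      by_contra hc
      have : 2 ≤ S.card := by omega
      nlinarith
    rcases Nat.eq_zero_or_pos S.card with h0 | hpos
    · rw [h0]; simp
    · have h1 : S.card = 1 := by omega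
      obtain ⟨v, rfl⟩ := Finset.card_eq_one.1 h1
      simp only [Finset.card_singleton, mul_one, Finset.singleton_biUnion]
      rw [SimpleGraph.card_neighborFinset_eq_degree, hreg.degree_eq]
      exact hg2
  · intro S T _ hS hT
    apply exists_adj_of_spectral G hreg lam hspec S T
    rw [hS, hT, pow_one]
    have hgR : (d : ℝ) - 3 ≤ 3 * (g : ℝ) := by
      have : (d : ℝ) ≤ 3 * (g : ℝ) + 3 := by exact_mod_cast hg3
      linarith
    have hd0 : (0 : ℝ) < (d : ℝ) := by
      have : 0 < d := by omega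
      exact_mod_cast this
    have hg0 : (0 : ℝ) < (g : ℝ) := by exact_mod_cast hg1
    have h1 : lam * (Fintype.card V : ℝ) < (d : ℝ) * (g : ℝ) := by nlinarith
    have h2 : 0 ≤ lam * (Fintype.card V : ℝ) := by positivity
    have h3 : (lam * (Fintype.card V : ℝ)) ^ 2 < ((d : ℝ) * (g : ℝ)) ^ 2 :=
      pow_lt_pow_left₀ h1 h2 (by norm_num)
    calc lam ^ 2 * (Fintype.card V : ℝ) ^ 2 = (lam * (Fintype.card V : ℝ)) ^ 2 := by ring
      _ < ((d : ℝ) * (g : ℝ)) ^ 2 := h3
      _ = (d : ℝ) ^ 2 * (g : ℝ) * (g : ℝ) := by ring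

end Vale.Agent.Lib.P308
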