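import Mathlib

namespace Vale.Agent.Lib.P308

open Finset

set_option linter.unusedSectionVars false
set_option linter.unusedVariables false

variable {V : Type*} [Fintype V] [DecidableEq V]

/-- A matching of `G` encoded as an involution of the vertex set; the fixed points are the
uncovered vertices. -/
def IsMat (G : SimpleGraph V) (f : V → V) : Prop :=
  (∀ x, f (f x) = x) ∧ ∀ x, f x ≠ x → G.Adj x (f x)

/-- The uncovered vertices of a matching given as an involution. -/
def holes (f : V → V) : Finset V := univ.filter (fun x => f x = x)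

lemma mem_holes {f : V → V} {x : V} : x ∈ holes f ↔ f x = x := by simp [holes]

/-- Move the hole `x` through its neighbour `w` : afterwards `x` is matched to `w`
and the old partner of `w` is uncovered. -/
def mv (f : V → V) (x w : V) : V → V :=
  fun z => if z = x then w else if z = w then x else if z = f w then z else f z

section mvlemmas

variable {G : SimpleGraph V} {f : V → V} {x w : V}

lemma mv_aux (hf : IsMat G f) (hx : f x = x) (hxw : G.Adj x w) (hw : f w ≠ w) :
    w ≠ x ∧ f w ≠ x ∧ f (f w) = w := by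
  refine ⟨hxw.ne', ?_, hf.1 w⟩
  intro h
  have h2 := hf.1 w
  rw [h, hx] at h2
  exact hxw.ne h2

lemma mv_apply_of_ne {z : V} (h1 : z ≠ x) (h2 : z ≠ w) (h3 : z ≠ f w) :
    mv f x w z = f z := by
  simp [mv, h1, h2, h3]

lemma mv_self (f : V → V) (x w : V) : mv f x w x = w := by simp [mv]

lemma mv_pivot (hwx : w ≠ x) : mv f x w w = x := by simp [mv, hwx]

lemma mv_partner (h1 : f w ≠ x) (h2 : f w ≠ w) : mv f x w (f w) = f w := by
  simp [mv, h1, h2]

lemma mv_isMat (hf : IsMat G f) (hx : f x = x) (hxw : G.Adj x w) (hw : f w ≠ w) :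
    IsMat G (mv f x w) := by
  obtain ⟨hwx, hyx, hfy⟩ := mv_aux hf hx hxw hw
  constructor
  · intro z
    by_cases h1 : z = x
    · subst h1; rw [mv_self, mv_pivot hwx]
    by_cases h2 : z = w
    · subst h2; rw [mv_pivot hwx, mv_self]
    by_cases h3 : z = f w
    · subst h3; rw [mv_partner hyx hw, mv_partner hyx hw]
    rw [mv_apply_of_ne h1 h2 h3]
    have a1 : f z ≠ x := by
      intro h; apply h1; have := hf.1 z; rw [h, hx] at this; exact this.symm
    have a2 : f z ≠ w := by
      intro h; apply h3; have := hf.1 z; rw [h] at this; exact this.symm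
    have a3 : f z ≠ f w := by
      intro h; apply h2; have := hf.1 z; rw [h, hf.1 w] at this; exact this.symm
    rw [mv_apply_of_ne a1 a2 a3, hf.1 z]
  · intro z hz
    by_cases h1 : z = x
    · subst h1; rw [mv_self]; exact hxw
    by_cases h2 : z = w
    · subst h2; rw [mv_pivot hwx]; exact hxw.symm
    by_cases h3 : z = f w
    · subst h3; rw [mv_partner hyx hw] at hz; exact absurd rfl hz
    rw [mv_apply_of_ne h1 h2 h3] at hz ⊢
    exact hf.2 z hz

lemma holes_mv (hf : IsMat G f) (hx : f x = x) (hxw : G.Adj x w) (hw : f w ≠ w) :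
    holes (mv f x w) = insert (f w) ((holes f).erase x) := by
  obtain ⟨hwx, hyx, hfy⟩ := mv_aux hf hx hxw hw
  ext z
  simp only [mem_holes, mem_insert, mem_erase]
  by_cases h1 : z = x
  · subst h1; rw [mv_self]
    constructor
    · intro h; exact absurd h hwx
    · rintro (h | ⟨h, _⟩)
      · exact absurd h.symm hyx
      · exact absurd rfl h
  by_cases h2 : z = w
  · subst h2; rw [mv_pivot hwx]
    constructor
    · intro h; exact absurd h.symm hwx
    · rintro (h | ⟨_, h⟩)
      · exact absurd h.symm hw
      · exact absurd h hw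
  by_cases h3 : z = f w
  · subst h3; rw [mv_partner hyx hw]; simp
  rw [mv_apply_of_ne h1 h2 h3]
  constructor
  · intro h; exact Or.inr ⟨h1, h⟩
  · rintro (h | ⟨_, h⟩)
    · exact absurd h h3
    · exact h

lemma mv_mv (hf : IsMat G f) (hx : f x = x) (hxw : G.Adj x w) (hw : f w ≠ w) :
    mv (mv f x w) (f w) w = f := by
  obtain ⟨hwx, hyx, hfy⟩ := mv_aux hf hx hxw hw
  funext z
  have hpw : mv f x w w = x := mv_pivot hwx
  by_cases h3 : z = f w
  · subst h3; rw [mv_self, hfy]
  by_cases h2 : z = w
  · subst h2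
    rw [mv_pivot (fun h => hw h.symm)]
  by_cases h1 : z = x
  · subst h1
    have e : mv (mv f z w) (f w) w z = z := by
      have := mv_partner (f := mv f z w) (x := f w) (w := w) (by rw [hpw]; exact fun h => h3 h)
        (by rw [hpw]; exact fun h => h2 h)
      rw [hpw] at this
      exact this
    rw [e, hx]
  have : mv (mv f x w) (f w) w z = mv f x w z := by
    apply mv_apply_of_ne h3 h2
    rw [hpw]; exact h1
  rw [this, mv_apply_of_ne h1 h2 h3]

end mvlemmas

/-- One hole move. -/
def Step (G : SimpleGraph V) (f g : V → V) : Prop :=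
  ∃ x w, f x = x ∧ G.Adj x w ∧ f w ≠ w ∧ g = mv f x w

/-- `g` is reachable from `f` by at most `k` hole moves. -/
def ReachIn (G : SimpleGraph V) : ℕ → (V → V) → (V → V) → Prop
  | 0, f, g => f = g
  | (k + 1), f, g => ReachIn G k f g ∨ ∃ h, ReachIn G k f h ∧ Step G h g

lemma reachIn_refl (G : SimpleGraph V) (k : ℕ) (f : V → V) : ReachIn G k f f := by
  induction k with
  | zero => rfl
  | succ k ih => exact Or.inl ih

lemma reachIn_prepend {G : SimpleGraph V} {k : ℕ} {f g h : V → V} (hs : Step G f g)
    (hr : ReachIn G k g h) : ReachIn G (k + 1) f h := by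
  induction k generalizing h with
  | zero =>
    have : g = h := hr
    subst this
    exact Or.inr ⟨f, rfl, hs⟩
  | succ k ih =>
    rcases hr with hr | ⟨m, hm, hms⟩
    · exact Or.inl (ih hr)
    · exact Or.inr ⟨m, ih hm, hms⟩

lemma step_symm {G : SimpleGraph V} {f g : V → V} (hf : IsMat G f) (hs : Step G f g) :
    Step G g f := by
  obtain ⟨x, w, hx, hxw, hw, rfl⟩ := hs
  obtain ⟨hwx, hyx, hfy⟩ := mv_aux hf hx hxw hw
  refine ⟨f w, w, mv_partner hyx hw, ?_, ?_, (mv_mv hf hx hxw hw).symm⟩
  · have := hf.2 w hw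
    exact this.symm
  · rw [mv_pivot hwx]; exact hwx.symm

end Vale.Agent.Lib.P308
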