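import Mathlib

namespace Vale.Agent.Lib.P308

open Finset

set_option linter.unusedSectionVars false
set_option linter.unusedVariables false

/-- a chain of one-step comparisons -/
lemma chain_from (a : ℕ → ℝ) (ρ : ℝ) (hρ : 0 ≤ ρ) (j n : ℕ)
    (h : ∀ i, j ≤ i → i < j + n → a i ≤ ρ * a (i + 1)) : a j ≤ ρ ^ n * a (j + n) := by
  induction n with
  | zero => simp
  | succ n ih =>
    have h1 := ih (fun i hi hi' => h i hi (by omega))
    have h2 := h (j + n) (by omega) (by omega)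
    calc a j ≤ ρ ^ n * a (j + n) := h1
      _ ≤ ρ ^ n * (ρ * a (j + n + 1)) := mul_le_mul_of_nonneg_left h2 (pow_nonneg hρ n)
      _ = ρ ^ (n + 1) * a (j + (n + 1)) := by rw [pow_succ, ← add_assoc]; ring

lemma pow_chain (a : ℕ → ℝ) (ρ : ℝ) (hρ : 0 ≤ ρ) (k : ℕ)
    (h : ∀ i, i < k → a i ≤ ρ * a (i + 1)) : a 0 ≤ ρ ^ k * a k := by
  have := chain_from a ρ hρ 0 k (fun i _ hi => h i (by omega))
  simpa using this

/-- weighted geometric sums along a chain -/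
lemma geo_sum (a : ℕ → ℝ) (β ε ρ : ℝ) (hβ : 0 ≤ β) (hε : 0 ≤ ε) (hρ : 2 ≤ ρ)
    (hρε : 2 * ρ * ε ≤ 1) (ha : ∀ i, 0 ≤ a i) (k : ℕ)
    (hstep : ∀ i, i < k → a i ≤ ρ * a (i + 1)) (r : ℕ) :
    ∑ i ∈ range k, a (i + 1) * (β + ε ^ (k - (i + 1) + r))
      ≤ a k * (β * (ρ ^ k - 1) + 2 * ε ^ r) := by
  induction k generalizing r with
  | zero =>
    simp only [range_zero, sum_empty, pow_zero, sub_self, mul_zero, zero_add]
    exact mul_nonneg (ha 0) (by positivity)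
  | succ k ih =>
    rw [Finset.sum_range_succ]
    have h1 := ih (fun i hi => hstep i (Nat.lt_succ_of_lt hi)) (r + 1)
    have e : ∑ i ∈ range k, a (i + 1) * (β + ε ^ (k + 1 - (i + 1) + r))
        = ∑ i ∈ range k, a (i + 1) * (β + ε ^ (k - (i + 1) + (r + 1))) := by
      apply Finset.sum_congr rfl
      intro i hi
      have : k + 1 - (i + 1) + r = k - (i + 1) + (r + 1) := by
        have := Finset.mem_range.1 hi
        omega
      rw [this]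
    rw [e]
    have e2 : k + 1 - (k + 1) + r = r := by omega
    rw [e2]
    have h2 := hstep k (Nat.lt_succ_self k)
    have hρk : 1 ≤ ρ ^ k := one_le_pow₀ (by linarith)
    have hεr : 0 ≤ ε ^ r := pow_nonneg hε r
    have h3 : 0 ≤ β * (ρ ^ k - 1) + 2 * ε ^ (r + 1) := by
      have h31 : 0 ≤ β * (ρ ^ k - 1) := mul_nonneg hβ (by linarith)
      have h32 : 0 ≤ ε ^ (r + 1) := pow_nonneg hε _
      linarith
    have h4 : a k * (β * (ρ ^ k - 1) + 2 * ε ^ (r + 1))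
        ≤ ρ * a (k + 1) * (β * (ρ ^ k - 1) + 2 * ε ^ (r + 1)) :=
      mul_le_mul_of_nonneg_right h2 h3
    have e3 : ρ * a (k + 1) * (β * (ρ ^ k - 1) + 2 * ε ^ (r + 1)) + a (k + 1) * (β + ε ^ r)
        = a (k + 1) * (β * (ρ ^ (k + 1) - 1) + 2 * ε ^ r)
          - a (k + 1) * (β * (ρ - 2) + ε ^ r * (1 - 2 * ρ * ε)) := by ring
    have h5 : 0 ≤ a (k + 1) * (β * (ρ - 2) + ε ^ r * (1 - 2 * ρ * ε)) := by
      apply mul_nonneg (ha _)
      have h51 := mul_nonneg hβ (by linarith : (0:ℝ) ≤ ρ - 2)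
      have h52 := mul_nonneg hεr (by linarith : (0:ℝ) ≤ 1 - 2 * ρ * ε)
      linarith
    linarith

/-- the survival weights of the first phase decay at most geometrically -/
lemma num1 (a : ℕ → ℝ) (β ε : ℝ) (k : ℕ) (h0 : a 0 = 1) (ha : ∀ i, 0 ≤ a i) (hβ : 0 ≤ β)
    (hε : 0 ≤ ε) (hnum : 14 * β * 2 ^ k + 22 * ε ≤ 1 / 2)
    (hrec : ∀ t, a t * (1 - 2 * (β + ε ^ 1)) - 4 * (β + ε ^ (t + 1))
        - 8 * ∑ i ∈ range t, a (i + 1) * (β + ε ^ (t - (i + 1) + 1)) ≤ a (t + 1)) :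
    ∀ t, t < k → a t ≤ 2 * a (t + 1) := by
  intro t
  induction t using Nat.strong_induction_on with
  | _ t ih =>
    intro ht
    have hch : ∀ i, i < t → a i ≤ 2 * a (i + 1) := fun i hi => ih i hi (lt_trans hi ht)
    have h1 := pow_chain a 2 (by norm_num) t hch
    rw [h0] at h1
    have hk0 : (0:ℝ) ≤ 14 * β * 2 ^ k := by positivity
    have hε2 : 2 * 2 * ε ≤ 1 := by linarith
    have h2 := geo_sum a β ε 2 hβ hε (le_refl 2) hε2 ha t hch 1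
    have h3 := hrec t
    have hpow : (2:ℝ) ^ t ≤ 2 ^ k := pow_le_pow_right₀ (by norm_num) ht.le
    have hεt : (2 * ε) ^ t ≤ 1 := pow_le_one₀ (by positivity) (by linarith)
    have h4 : 4 * (β + ε ^ (t + 1)) ≤ a t * (4 * β * 2 ^ k + 4 * ε) := by
      have e : 4 * (β + ε ^ (t + 1)) * (2 ^ t * a t)
          = a t * (4 * β * 2 ^ t + 4 * ε * (2 * ε) ^ t) := by
        rw [mul_pow]; ring
      have h5 : 4 * (β + ε ^ (t + 1)) ≤ 4 * (β + ε ^ (t + 1)) * (2 ^ t * a t) := by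
        have h51 : 0 ≤ 4 * (β + ε ^ (t + 1)) := by positivity
        nlinarith
      rw [e] at h5
      refine h5.trans (mul_le_mul_of_nonneg_left ?_ (ha t))
      have h52 : 4 * ε * (2 * ε) ^ t ≤ 4 * ε * 1 :=
        mul_le_mul_of_nonneg_left hεt (by positivity)
      have h53 : 4 * β * 2 ^ t ≤ 4 * β * 2 ^ k :=
        mul_le_mul_of_nonneg_left hpow (by positivity)
      linarith
    have h6 : ∑ i ∈ range t, a (i + 1) * (β + ε ^ (t - (i + 1) + 1))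
        ≤ a t * (β * 2 ^ k + 2 * ε) := by
      refine h2.trans (mul_le_mul_of_nonneg_left ?_ (ha t))
      have h61 : β * (2 ^ t - 1) ≤ β * 2 ^ k := by
        apply mul_le_mul_of_nonneg_left _ hβ; linarith
      simp only [pow_one]
      linarith
    have h7 : a t * (14 * β * 2 ^ k + 22 * ε) ≤ a t * (1 / 2) :=
      mul_le_mul_of_nonneg_left hnum (ha t)
    have h8 : β ≤ β * 2 ^ k := by
      have h81 : (1:ℝ) ≤ 2 ^ k := one_le_pow₀ (by norm_num)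
      nlinarith
    have h9 : a t * β ≤ a t * (β * 2 ^ k) := mul_le_mul_of_nonneg_left h8 (ha t)
    simp only [pow_one] at h3
    nlinarith

/-- L2 bound for the marginals of the first phase -/
lemma num1b (a M : ℕ → ℝ) (Nr ε : ℝ) (k : ℕ) (ha : ∀ i, 0 ≤ a i) (h0 : a 0 = 1)
    (hM0 : M 0 ≤ Nr) (hNr : 0 ≤ Nr) (hε : 20 * ε ^ 2 ≤ 1)
    (hstep : ∀ t, t < k → a t ≤ 2 * a (t + 1))
    (hrec : ∀ t, M (t + 1) ≤ a t ^ 2 + ε ^ 2 * M t) :
    ∀ t, t ≤ k → M t ≤ a t ^ 2 * (5 + Nr * (4 * ε ^ 2) ^ t) := by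
  intro t
  induction t with
  | zero => intro _; rw [h0]; simp; linarith
  | succ t ih =>
    intro ht
    have h1 := ih (by omega)
    have h2 := hstep t (by omega)
    have h3 := hrec t
    have h4 : a t ^ 2 ≤ 4 * a (t + 1) ^ 2 := by nlinarith [ha t, ha (t + 1)]
    have h5 : ε ^ 2 * M t ≤ ε ^ 2 * (a t ^ 2 * (5 + Nr * (4 * ε ^ 2) ^ t)) :=
      mul_le_mul_of_nonneg_left h1 (sq_nonneg _)
    have h6 : 0 ≤ 1 + ε ^ 2 * (5 + Nr * (4 * ε ^ 2) ^ t) := by positivity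
    have h7 : a t ^ 2 * (1 + ε ^ 2 * (5 + Nr * (4 * ε ^ 2) ^ t))
        ≤ 4 * a (t + 1) ^ 2 * (1 + ε ^ 2 * (5 + Nr * (4 * ε ^ 2) ^ t)) :=
      mul_le_mul_of_nonneg_right h4 h6
    have e : 4 * a (t + 1) ^ 2 * (1 + ε ^ 2 * (5 + Nr * (4 * ε ^ 2) ^ t))
        = a (t + 1) ^ 2 * (4 + 20 * ε ^ 2 + Nr * (4 * ε ^ 2) ^ (t + 1)) := by ring
    have h8 : a (t + 1) ^ 2 * (20 * ε ^ 2) ≤ a (t + 1) ^ 2 * 1 :=
      mul_le_mul_of_nonneg_left hε (sq_nonneg _)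
    nlinarith

lemma half_sum (m : ℕ) : ∑ j ∈ range m, (1 / 2 : ℝ) ^ (m - j) ≤ 1 := by
  induction m with
  | zero => simp
  | succ m ih =>
    rw [Finset.sum_range_succ]
    have e : ∑ j ∈ range m, (1 / 2 : ℝ) ^ (m + 1 - j)
        = (1 / 2) * ∑ j ∈ range m, (1 / 2 : ℝ) ^ (m - j) := by
      rw [Finset.mul_sum]
      apply Finset.sum_congr rfl
      intro j hj
      have h1 : m + 1 - j = (m - j) + 1 := by
        have := Finset.mem_range.1 hj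
        omega
      rw [h1, pow_succ]; ring
    rw [e]
    have h2 : m + 1 - m = 1 := by omega
    rw [h2]
    norm_num
    linarith

/-- one step of the second phase -/
lemma num2_step (Γ : ℕ → ℝ) (Aj Bj SAj SBj XAj XBj β ε κ pq : ℝ) (m j : ℕ)
    (hΓ : ∀ j, 0 ≤ Γ j) (hβ : 0 ≤ β) (hε : 0 ≤ ε) (hκ : 0 ≤ κ)
    (hSA : SAj ^ 2 ≤ Aj * ε ^ 2 / 4) (hSB : SBj ^ 2 ≤ Bj * ε ^ 2 / 4)
    (hXA : XAj ≤ Γ 0 * (κ + 10 * ε ^ (j + 1))
        + ∑ i ∈ range j, Γ (i + 1) * (2 * (β + ε ^ (j - i))))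
    (hXB : XBj ≤ Γ 0 * (κ + 10 * ε ^ (j + 1))
        + ∑ i ∈ range j, Γ (i + 1) * (2 * (β + ε ^ (j - i))))
    (hstep : pq * Γ j - SAj - SBj - XAj - XBj ≤ Γ (j + 1))
    (hpq : 3 / 16 ≤ pq)
    (hnum : 38 * ε + 2 * κ * 8 ^ m + 4 * β * 8 ^ m ≤ 1 / 16)
    (hj : j < m) (hch : ∀ i, i < j → Γ i ≤ 8 * Γ (i + 1))
    (hA : Aj ≤ 65 * Γ j ^ 2) (hB : Bj ≤ 65 * Γ j ^ 2) :
    Γ j ≤ 8 * Γ (j + 1) := by
  have h8m : (0:ℝ) ≤ 8 ^ m := by positivity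
  have hk1 : 0 ≤ 2 * κ * 8 ^ m := by positivity
  have hk2 : 0 ≤ 4 * β * 8 ^ m := by positivity
  have hε1 : 38 * ε ≤ 1 / 16 := by linarith
  have hG := hΓ j
  have sqb : ∀ (x y : ℝ), x ^ 2 ≤ y * ε ^ 2 / 4 → y ≤ 65 * Γ j ^ 2 → x ≤ 5 * ε * Γ j := by
    intro x y h1 h2
    have h3 : x ^ 2 ≤ (5 * ε * Γ j) ^ 2 := by
      have h4 : y * ε ^ 2 / 4 ≤ 65 * Γ j ^ 2 * ε ^ 2 / 4 := by
        have := mul_le_mul_of_nonneg_right h2 (sq_nonneg ε)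
        linarith
      have h5 : 0 ≤ Γ j ^ 2 * ε ^ 2 := by positivity
      nlinarith
    have h6 : 0 ≤ 5 * ε * Γ j := by positivity
    exact (abs_le_of_sq_le_sq' h3 h6).2
  have hSA' := sqb SAj Aj hSA hA
  have hSB' := sqb SBj Bj hSB hB
  have h1 := pow_chain Γ 8 (by norm_num) j hch
  have hε8 : 2 * 8 * ε ≤ 1 := by linarith
  have h2 := geo_sum Γ β ε 8 hβ hε (by norm_num) hε8 hΓ j hch 1
  have e : ∑ i ∈ range j, Γ (i + 1) * (2 * (β + ε ^ (j - i)))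
      = 2 * ∑ i ∈ range j, Γ (i + 1) * (β + ε ^ (j - (i + 1) + 1)) := by
    rw [Finset.mul_sum]
    apply Finset.sum_congr rfl
    intro i hi
    have h3 : j - (i + 1) + 1 = j - i := by
      have := Finset.mem_range.1 hi
      omega
    rw [h3]; ring
  rw [e] at hXA hXB
  have hpow : (8:ℝ) ^ j ≤ 8 ^ m := pow_le_pow_right₀ (by norm_num) hj.le
  have hεt : (8 * ε) ^ j ≤ 1 := pow_le_one₀ (by positivity) (by linarith)
  have h4 : Γ 0 * (κ + 10 * ε ^ (j + 1)) ≤ Γ j * (κ * 8 ^ m + 10 * ε) := by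
    have h41 : Γ 0 * (κ + 10 * ε ^ (j + 1)) ≤ 8 ^ j * Γ j * (κ + 10 * ε ^ (j + 1)) :=
      mul_le_mul_of_nonneg_right h1 (by positivity)
    have e2 : 8 ^ j * Γ j * (κ + 10 * ε ^ (j + 1))
        = Γ j * (κ * 8 ^ j + 10 * ε * (8 * ε) ^ j) := by
      rw [mul_pow]; ring
    rw [e2] at h41
    refine h41.trans (mul_le_mul_of_nonneg_left ?_ hG)
    have h42 : 10 * ε * (8 * ε) ^ j ≤ 10 * ε * 1 :=
      mul_le_mul_of_nonneg_left hεt (by positivity)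
    have h43 : κ * 8 ^ j ≤ κ * 8 ^ m := mul_le_mul_of_nonneg_left hpow hκ
    linarith
  have h5 : ∑ i ∈ range j, Γ (i + 1) * (β + ε ^ (j - (i + 1) + 1))
      ≤ Γ j * (β * 8 ^ m + 2 * ε) := by
    refine h2.trans (mul_le_mul_of_nonneg_left ?_ hG)
    have h51 : β * (8 ^ j - 1) ≤ β * 8 ^ m := by
      apply mul_le_mul_of_nonneg_left _ hβ; linarith
    simp only [pow_one]
    linarith
  have h6 : Γ j * (38 * ε + 2 * κ * 8 ^ m + 4 * β * 8 ^ m) ≤ Γ j * (1 / 16) :=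
    mul_le_mul_of_nonneg_left hnum hG
  have h7 : (3 / 16) * Γ j ≤ pq * Γ j := mul_le_mul_of_nonneg_right hpq hG
  nlinarith

/-- the survival weights of the second phase decay at most geometrically -/
lemma num2 (Γ A B SA SB XA XB : ℕ → ℝ) (β ε κ pq : ℝ) (m : ℕ)
    (hΓ : ∀ j, 0 ≤ Γ j) (hβ : 0 ≤ β) (hε : 0 ≤ ε) (hκ : 0 ≤ κ)
    (hA : ∀ j, A (j + 1) ≤ Γ j ^ 2 + ε ^ 2 * A j)
    (hB : ∀ j, B (j + 1) ≤ Γ j ^ 2 + ε ^ 2 * B j)
    (hSA : ∀ j, SA j ^ 2 ≤ A j * ε ^ 2 / 4)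
    (hSB : ∀ j, SB j ^ 2 ≤ B j * ε ^ 2 / 4)
    (hXA : ∀ j, XA j ≤ Γ 0 * (κ + 10 * ε ^ (j + 1))
        + ∑ i ∈ range j, Γ (i + 1) * (2 * (β + ε ^ (j - i))))
    (hXB : ∀ j, XB j ≤ Γ 0 * (κ + 10 * ε ^ (j + 1))
        + ∑ i ∈ range j, Γ (i + 1) * (2 * (β + ε ^ (j - i))))
    (hstep : ∀ j, pq * Γ j - SA j - SB j - XA j - XB j ≤ Γ (j + 1))
    (hA0 : A 0 ≤ 6 * Γ 0 ^ 2) (hB0 : B 0 ≤ 6 * Γ 0 ^ 2) (hpq : 3 / 16 ≤ pq)
    (hnum : 38 * ε + 2 * κ * 8 ^ m + 4 * β * 8 ^ m ≤ 1 / 16) :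
    ∀ j, j < m → Γ j ≤ 8 * Γ (j + 1) := by
  have h8m : (0:ℝ) ≤ 8 ^ m := by positivity
  have hk1 : 0 ≤ 2 * κ * 8 ^ m := by positivity
  have hk2 : 0 ≤ 4 * β * 8 ^ m := by positivity
  have hε1 : 38 * ε ≤ 1 / 16 := by linarith
  have hε2 : 64 * 65 * ε ^ 2 ≤ 1 := by nlinarith
  have key : ∀ j, j ≤ m → (∀ i, i < j → Γ i ≤ 8 * Γ (i + 1)) ∧ A j ≤ 65 * Γ j ^ 2
      ∧ B j ≤ 65 * Γ j ^ 2 := by
    intro j
    induction j with
    | zero =>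
      intro _
      have := sq_nonneg (Γ 0)
      exact ⟨fun i hi => absurd hi (Nat.not_lt_zero i), by linarith, by linarith⟩
    | succ j ih =>
      intro hj
      obtain ⟨hch, hAj, hBj⟩ := ih (by omega)
      have hs := num2_step Γ (A j) (B j) (SA j) (SB j) (XA j) (XB j) β ε κ pq m j hΓ hβ hε hκ
        (hSA j) (hSB j) (hXA j) (hXB j) (hstep j) hpq hnum (by omega) hch hAj hBj
      have hG := hΓ j
      have hG1 := hΓ (j + 1)
      have hsq : Γ j ^ 2 ≤ 64 * Γ (j + 1) ^ 2 := by nlinarith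
      have hbd : ∀ (x y : ℝ), y ≤ Γ j ^ 2 + ε ^ 2 * x → x ≤ 65 * Γ j ^ 2 →
          y ≤ 65 * Γ (j + 1) ^ 2 := by
        intro x y h1 h2
        have h3 : ε ^ 2 * x ≤ ε ^ 2 * (65 * Γ j ^ 2) :=
          mul_le_mul_of_nonneg_left h2 (sq_nonneg _)
        have h4 : Γ j ^ 2 * (1 + 65 * ε ^ 2) ≤ 64 * Γ (j + 1) ^ 2 * (1 + 65 * ε ^ 2) :=
          mul_le_mul_of_nonneg_right hsq (by positivity)
        have h5 : Γ (j + 1) ^ 2 * (64 * 65 * ε ^ 2) ≤ Γ (j + 1) ^ 2 * 1 :=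
          mul_le_mul_of_nonneg_left hε2 (sq_nonneg _)
        nlinarith
      refine ⟨?_, hbd _ _ (hA j) hAj, hbd _ _ (hB j) hBj⟩
      intro i hi
      rcases Nat.lt_succ_iff_lt_or_eq.1 hi with h | h
      · exact hch i h
      · rw [h]; exact hs
  intro j hj
  exact (key (j + 1) (by omega)).1 j (Nat.lt_succ_self j)

/-- product of two lower bounds -/
lemma prod_lower (T1' T2' P1 P2 X1 X2 T1 T2 D1 D2 p1 p2 : ℝ) (h1 : 0 ≤ T1') (h2 : 0 ≤ T2')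
    (h3 : P1 - X1 ≤ T1') (h4 : P2 - X2 ≤ T2') (hX1 : 0 ≤ X1) (hX2 : 0 ≤ X2)
    (hP1 : 0 ≤ P1) (hP2 : 0 ≤ P2) (hPT1 : P1 ≤ T1) (hPT2 : P2 ≤ T2)
    (hD1 : p1 * T1 - D1 ≤ P1) (hD2 : p2 * T2 - D2 ≤ P2) (hD10 : 0 ≤ D1) (hD20 : 0 ≤ D2)
    (hp1 : 0 ≤ p1) (hp1' : p1 ≤ 1) (hp2 : 0 ≤ p2) (hp2' : p2 ≤ 1) :
    p1 * p2 * (T1 * T2) - D1 * T2 - T1 * D2 - X1 * T2 - T1 * X2 ≤ T1' * T2' := by
  have hT1 : 0 ≤ T1 := hP1.trans hPT1
  have hT2 : 0 ≤ T2 := hP2.trans hPT2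
  have hTT : 0 ≤ T1' * T2' := mul_nonneg h1 h2
  have A : P1 * P2 - X1 * T2 - X2 * T1 ≤ T1' * T2' := by
    by_cases c1 : X1 ≤ P1
    · by_cases c2 : X2 ≤ P2
      · have h5 : (P1 - X1) * (P2 - X2) ≤ T1' * T2' :=
          mul_le_mul h3 h4 (by linarith) h1
        have h6 := mul_nonneg hX1 hX2
        have h7 := mul_nonneg hX1 (sub_nonneg.2 hPT2)
        have h8 := mul_nonneg hX2 (sub_nonneg.2 hPT1)
        nlinarith
      · have h6 := mul_nonneg hX1 hT2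
        have h7 := mul_nonneg hX2 (sub_nonneg.2 hPT1)
        have h8 := mul_nonneg hP1 (le_of_lt (sub_pos.2 (not_le.1 c2)))
        nlinarith
    · have h6 := mul_nonneg hX2 hT1
      have h7 := mul_nonneg hX1 (sub_nonneg.2 hPT2)
      have h8 := mul_nonneg hP2 (le_of_lt (sub_pos.2 (not_le.1 c1)))
      nlinarith
  have B : p1 * p2 * (T1 * T2) - D1 * T2 - T1 * D2 ≤ P1 * P2 := by
    have hPP : 0 ≤ P1 * P2 := mul_nonneg hP1 hP2
    have hq1 : 0 ≤ 1 - p1 := by linarith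
    have hq2 : 0 ≤ 1 - p2 := by linarith
    by_cases c1 : D1 ≤ p1 * T1
    · by_cases c2 : D2 ≤ p2 * T2
      · have h5 : (p1 * T1 - D1) * (p2 * T2 - D2) ≤ P1 * P2 :=
          mul_le_mul hD1 hD2 (by linarith) hP1
        have h6 := mul_nonneg hD10 hD20
        have h7 := mul_nonneg (mul_nonneg hD10 hT2) hq2
        have h8 := mul_nonneg (mul_nonneg hT1 hD20) hq1
        nlinarith
      · have h6 := mul_nonneg hD10 hT2
        have h7 : 0 ≤ (D2 - p2 * T2) * T1 := mul_nonneg (le_of_lt (sub_pos.2 (not_le.1 c2))) hT1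
        have h8 := mul_nonneg (mul_nonneg (mul_nonneg hp2 hT2) hT1) hq1
        nlinarith
    · have h6 := mul_nonneg hT1 hD20
      have h7 : 0 ≤ (D1 - p1 * T1) * T2 := mul_nonneg (le_of_lt (sub_pos.2 (not_le.1 c1))) hT2
      have h8 := mul_nonneg (mul_nonneg (mul_nonneg hp1 hT1) hT2) hq2
      nlinarith
  linarith

end Vale.Agent.Lib.P308
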