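import Vale.Agent.Lib.P308.USingle
import Vale.Agent.Lib.P308.UNum

namespace Vale.Agent.Lib.P308

open Finset

set_option linter.unusedSectionVars false
set_option linter.unusedVariables false

variable {V : Type*} [Fintype V] [DecidableEq V]

/-- aggregated survival weight of the two confined walks -/
noncomputable def Gam (G : SimpleGraph V) [DecidableRel G.Adj] (g : V → V) (d : ℕ)
    (E : (Finset V → V → V → ℝ) → ℝ) (O1 O2 : Finset V) (j : ℕ) : ℝ :=
  E (fun F a b => ptot G g d O1 j F a * ptot G g d O2 j F b)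

/-- aggregated position weights of the first confined walk -/
noncomputable def sa (G : SimpleGraph V) [DecidableRel G.Adj] (g : V → V) (d : ℕ)
    (E : (Finset V → V → V → ℝ) → ℝ) (O1 O2 : Finset V) (j : ℕ) (w : V) : ℝ :=
  E (fun F a b => pc G g d O1 j F a w * ptot G g d O2 j F b)

/-- aggregated loss of the first confined walk -/
noncomputable def XA (G : SimpleGraph V) [DecidableRel G.Adj] (g : V → V) (d : ℕ)
    (E : (Finset V → V → V → ℝ) → ℝ) (O1 O2 : Finset V) (j : ℕ) : ℝ :=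
  E (fun F a b => XX G g d O1 j F a * ptot G g d O2 j F b)

/-- the functional with the two walkers exchanged -/
def swapE (E : (Finset V → V → V → ℝ) → ℝ) : (Finset V → V → V → ℝ) → ℝ :=
  fun φ => E (fun F a b => φ F b a)

lemma swapE_plf {E : (Finset V → V → V → ℝ) → ℝ} (hE : PLF E) : PLF (swapE E) := by
  refine ⟨?_, ?_, ?_⟩
  · intro φ ψ h
    exact hE.mono (fun F a b => h F b a)
  · intro φ ψ
    exact hE.add (fun F a b => φ F b a) (fun F a b => ψ F b a)
  · intro r φ
    exact hE.smul r (fun F a b => φ F b a)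

variable {G : SimpleGraph V} [DecidableRel G.Adj] {g : V → V} {d : ℕ} {lam : ℝ}
variable {E : (Finset V → V → V → ℝ) → ℝ} {O1 O2 : Finset V}

lemma Gam_swap (j : ℕ) : Gam G g d (swapE E) O2 O1 j = Gam G g d E O1 O2 j := by
  unfold Gam swapE
  congr 1
  funext F a b
  ring

lemma Gam_nonneg (hE : PLF E) (j : ℕ) : 0 ≤ Gam G g d E O1 O2 j :=
  hE.nonneg (fun F a b => mul_nonneg (ptot_nonneg _ _ _) (ptot_nonneg _ _ _))

lemma sa_nonneg (hE : PLF E) (j : ℕ) (w : V) : 0 ≤ sa G g d E O1 O2 j w :=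
  hE.nonneg (fun F a b => mul_nonneg (pc_nonneg _ _ _ _) (ptot_nonneg _ _ _))

lemma sa_sum (hE : PLF E) (j : ℕ) : ∑ w, sa G g d E O1 O2 j w = Gam G g d E O1 O2 j := by
  unfold sa Gam
  rw [← hE.sum univ (fun w F a b => pc G g d O1 j F a w * ptot G g d O2 j F b)]
  congr 1
  funext F a b
  rw [← Finset.sum_mul]
  rfl

namespace Ctx

variable (c : Ctx G g d lam)
include c

lemma sa_step (hE : PLF E) (j : ℕ) (w : V) :
    sa G g d E O1 O2 (j + 1) w ≤ ∑ z, sa G g d E O1 O2 j z * pw1 G g d z w := by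
  unfold sa
  have h1 : ∀ (F : Finset V) (a b : V),
      pc G g d O1 (j + 1) F a w * ptot G g d O2 (j + 1) F b
        ≤ ∑ z, (pc G g d O1 j F a z * ptot G g d O2 j F b) * pw1 G g d z w := by
    intro F a b
    have h2 := pc_step (G := G) (g := g) (d := d) (Om := O1) j F a w
    have h3 := c.ptot_succ_le (Om := O2) j F b
    have h4 : pc G g d O1 (j + 1) F a w * ptot G g d O2 (j + 1) F b
        ≤ (∑ z, pc G g d O1 j F a z * pw1 G g d z w) * ptot G g d O2 j F b :=
      mul_le_mul h2 h3 (ptot_nonneg _ _ _)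
        (Finset.sum_nonneg (fun z _ => mul_nonneg (pc_nonneg _ _ _ _) (pw1_nonneg _ _)))
    refine h4.trans (le_of_eq ?_)
    rw [Finset.sum_mul]
    apply Finset.sum_congr rfl
    intro z _
    ring
  refine (hE.mono h1).trans (le_of_eq ?_)
  rw [hE.sum univ (fun z (F : Finset V) (a b : V) =>
    (pc G g d O1 j F a z * ptot G g d O2 j F b) * pw1 G g d z w)]
  apply Finset.sum_congr rfl
  intro z _
  rw [hE.smul_right]

lemma sa_sq (hE : PLF E) (j : ℕ) :
    ∑ w, sa G g d E O1 O2 (j + 1) w ^ 2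
      ≤ (Gam G g d E O1 O2 j) ^ 2 / (Fintype.card V : ℝ)
        + (lam / d) ^ 2 * ∑ w, sa G g d E O1 O2 j w ^ 2 := by
  have h1 := c.tnorm (fun z => sa G g d E O1 O2 j z)
  rw [sa_sum hE] at h1
  refine le_trans ?_ h1
  apply Finset.sum_le_sum
  intro w _
  exact pow_le_pow_left₀ (sa_nonneg hE _ _) (c.sa_step hE j w) 2

/-- the aggregated loss of the first walker -/
lemma XA_le (hE : PLF E) (j : ℕ) :
    XA G g d E O1 O2 j ≤ E (fun F a _ => ∑ q ∈ F, pw G g d (j + 1) a q)
      + ∑ i ∈ range j, Gam G g d E O1 O2 (i + 1) * (2 * c.bb (j - i)) := by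
  unfold XA
  have h1 : ∀ (F : Finset V) (a b : V),
      XX G g d O1 j F a * ptot G g d O2 j F b
        ≤ ∑ q ∈ F, pw G g d (j + 1) a q
          + ∑ i ∈ range j, (ptot G g d O1 (i + 1) F a * ptot G g d O2 (i + 1) F b)
              * (2 * c.bb (j - i)) := by
    intro F a b
    have h2 := c.XX_le (Om := O1) j F a
    have hT := ptot_nonneg (G := G) (g := g) (d := d) (Om := O2) j F b
    have hT1 := c.ptot_le_one (Om := O2) j F b
    have h3 := mul_le_mul_of_nonneg_right h2 hT
    refine h3.trans ?_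
    rw [add_mul]
    apply add_le_add
    · have h4 : 0 ≤ ∑ q ∈ F, pw G g d (j + 1) a q :=
        Finset.sum_nonneg (fun q _ => pw_nonneg _ _ _)
      exact mul_le_of_le_one_right h4 hT1
    · rw [Finset.sum_mul]
      apply Finset.sum_le_sum
      intro i hi
      have hi' : i + 1 ≤ j := by
        have := Finset.mem_range.1 hi
        omega
      have h5 := c.ptot_anti (Om := O2) hi' F b
      have h6 := ptot_nonneg (G := G) (g := g) (d := d) (Om := O1) (i + 1) F a
      have h7 := c.bb_nonneg (j - i)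
      have h8 : ptot G g d O1 (i + 1) F a * ptot G g d O2 j F b
          ≤ ptot G g d O1 (i + 1) F a * ptot G g d O2 (i + 1) F b :=
        mul_le_mul_of_nonneg_left h5 h6
      nlinarith
  refine (hE.mono h1).trans (le_of_eq ?_)
  rw [hE.add (fun (F : Finset V) (a _ : V) => ∑ q ∈ F, pw G g d (j + 1) a q)
    (fun (F : Finset V) (a b : V) => ∑ i ∈ range j,
      (ptot G g d O1 (i + 1) F a * ptot G g d O2 (i + 1) F b) * (2 * c.bb (j - i)))]
  congr 1
  rw [hE.sum (range j) (fun i (F : Finset V) (a b : V) =>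
      (ptot G g d O1 (i + 1) F a * ptot G g d O2 (i + 1) F b) * (2 * c.bb (j - i)))]
  apply Finset.sum_congr rfl
  intro i _
  rw [hE.smul_right]
  rfl

/-- the chance to step into a side is close to its density -/
lemma sOm_dev (O : Finset V) :
    ∑ z, (sOm G g d O z - (O.card : ℝ) / (Fintype.card V : ℝ)) ^ 2
      ≤ (lam / d) ^ 2 * ((Fintype.card V : ℝ) / 4) := by
  rcases isEmpty_or_nonempty V with hV | hV
  · simp
  have hN : (0 : ℝ) < (Fintype.card V : ℝ) := by exact_mod_cast Fintype.card_pos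
  have h1 := c.lcontr (fun w => if w ∈ O then (1 : ℝ) else 0)
  have e1 : ∑ w : V, (if w ∈ O then (1 : ℝ) else 0) = (O.card : ℝ) := by
    rw [Finset.sum_ite_mem, Finset.univ_inter]
    simp
  have e2 : ∀ z, ∑ w, pw1 G g d z w * (if w ∈ O then (1 : ℝ) else 0) = sOm G g d O z := by
    intro z
    rw [c.sum_mul_ind]
    rfl
  simp_rw [e2] at h1
  rw [e1] at h1
  refine h1.trans (mul_le_mul_of_nonneg_left ?_ (sq_nonneg _))
  have e3 := c.sum_sq_sub (fun w => if w ∈ O then (1 : ℝ) else 0)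
  rw [e1] at e3
  rw [e3]
  have e4 : ∑ z : V, (if z ∈ O then (1 : ℝ) else 0) ^ 2 = (O.card : ℝ) := by
    rw [← e1]
    apply Finset.sum_congr rfl
    intro z _
    split_ifs <;> norm_num
  rw [e4]
  have h5 : 0 ≤ ((O.card : ℝ) - (Fintype.card V : ℝ) / 2) ^ 2 / (Fintype.card V : ℝ) := by
    positivity
  have e6 : ((O.card : ℝ) - (Fintype.card V : ℝ) / 2) ^ 2 / (Fintype.card V : ℝ)
      = (Fintype.card V : ℝ) / 4 - ((O.card : ℝ) - (O.card : ℝ) ^ 2 / (Fintype.card V : ℝ)) := by
    field_simp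
    ring
  linarith

lemma sOm_le_one (O : Finset V) (z : V) : sOm G g d O z ≤ 1 := by
  unfold sOm
  calc ∑ w ∈ O, pw1 G g d z w ≤ ∑ w, pw1 G g d z w :=
        Finset.sum_le_sum_of_subset_of_nonneg (Finset.subset_univ _)
          (fun w _ _ => pw1_nonneg _ _)
    _ = 1 := c.pw1_row z

lemma PP_le (Om : Finset V) (j : ℕ) (F : Finset V) (y : V) :
    ∑ z, pc G g d Om j F y z * sOm G g d Om z ≤ ptot G g d Om j F y := by
  unfold ptot
  apply Finset.sum_le_sum
  intro z _
  exact mul_le_of_le_one_right (pc_nonneg _ _ _ _) (c.sOm_le_one Om z)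

lemma PP_nonneg (Om : Finset V) (j : ℕ) (F : Finset V) (y : V) :
    0 ≤ ∑ z, pc G g d Om j F y z * sOm G g d Om z :=
  Finset.sum_nonneg (fun z _ => mul_nonneg (pc_nonneg _ _ _ _) (sOm_nonneg _))

lemma PP_lower (Om : Finset V) (p : ℝ) (j : ℕ) (F : Finset V) (y : V) :
    p * ptot G g d Om j F y - ∑ z, pc G g d Om j F y z * |sOm G g d Om z - p|
      ≤ ∑ z, pc G g d Om j F y z * sOm G g d Om z := by
  unfold ptot
  rw [Finset.mul_sum, ← Finset.sum_sub_distrib]
  apply Finset.sum_le_sum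
  intro z _
  have h1 := pc_nonneg (G := G) (g := g) (d := d) (Om := Om) j F y z
  have h2 : p - |sOm G g d Om z - p| ≤ sOm G g d Om z := by
    have := neg_abs_le (sOm G g d Om z - p)
    linarith
  have h3 := mul_le_mul_of_nonneg_left h2 h1
  linarith

lemma DD_nonneg (Om : Finset V) (p : ℝ) (j : ℕ) (F : Finset V) (y : V) :
    0 ≤ ∑ z, pc G g d Om j F y z * |sOm G g d Om z - p| :=
  Finset.sum_nonneg (fun z _ => mul_nonneg (pc_nonneg _ _ _ _) (abs_nonneg _))

/-- the main recursion of the second phase -/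
lemma Gam_step (hE : PLF E) (j : ℕ) (p1 p2 : ℝ) (hp1 : 0 ≤ p1) (hp1' : p1 ≤ 1)
    (hp2 : 0 ≤ p2) (hp2' : p2 ≤ 1) :
    p1 * p2 * Gam G g d E O1 O2 j
      - ∑ z, sa G g d E O1 O2 j z * |sOm G g d O1 z - p1|
      - ∑ z, sa G g d (swapE E) O2 O1 j z * |sOm G g d O2 z - p2|
      - XA G g d E O1 O2 j - XA G g d (swapE E) O2 O1 j
    ≤ Gam G g d E O1 O2 (j + 1) := by
  have hpt : ∀ (F : Finset V) (a b : V),
      p1 * p2 * (ptot G g d O1 j F a * ptot G g d O2 j F b)
        - ∑ z, (pc G g d O1 j F a z * ptot G g d O2 j F b) * |sOm G g d O1 z - p1|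
        - ∑ z, (pc G g d O2 j F b z * ptot G g d O1 j F a) * |sOm G g d O2 z - p2|
        - XX G g d O1 j F a * ptot G g d O2 j F b
        - XX G g d O2 j F b * ptot G g d O1 j F a
      ≤ ptot G g d O1 (j + 1) F a * ptot G g d O2 (j + 1) F b := by
    intro F a b
    have hl1 := c.ptot_lower (Om := O1) j F a
    have hl2 := c.ptot_lower (Om := O2) j F b
    have key := prod_lower (ptot G g d O1 (j + 1) F a) (ptot G g d O2 (j + 1) F b)
      (∑ z, pc G g d O1 j F a z * sOm G g d O1 z) (∑ z, pc G g d O2 j F b z * sOm G g d O2 z)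
      (XX G g d O1 j F a) (XX G g d O2 j F b) (ptot G g d O1 j F a) (ptot G g d O2 j F b)
      (∑ z, pc G g d O1 j F a z * |sOm G g d O1 z - p1|)
      (∑ z, pc G g d O2 j F b z * |sOm G g d O2 z - p2|) p1 p2
      (ptot_nonneg _ _ _) (ptot_nonneg _ _ _) hl1 hl2 (XX_nonneg _ _ _) (XX_nonneg _ _ _)
      (c.PP_nonneg O1 j F a) (c.PP_nonneg O2 j F b) (c.PP_le O1 j F a) (c.PP_le O2 j F b)
      (c.PP_lower O1 p1 j F a) (c.PP_lower O2 p2 j F b)
      (c.DD_nonneg O1 p1 j F a) (c.DD_nonneg O2 p2 j F b) hp1 hp1' hp2 hp2'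
    have hD1 : ∑ z, (pc G g d O1 j F a z * ptot G g d O2 j F b) * |sOm G g d O1 z - p1|
        = (∑ z, pc G g d O1 j F a z * |sOm G g d O1 z - p1|) * ptot G g d O2 j F b := by
      rw [Finset.sum_mul]
      apply Finset.sum_congr rfl
      intro z _
      ring
    have hD2 : ∑ z, (pc G g d O2 j F b z * ptot G g d O1 j F a) * |sOm G g d O2 z - p2|
        = ptot G g d O1 j F a * (∑ z, pc G g d O2 j F b z * |sOm G g d O2 z - p2|) := by
      rw [Finset.mul_sum]
      apply Finset.sum_congr rfl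
      intro z _
      ring
    rw [hD1, hD2]
    linarith
  unfold Gam
  refine le_trans (le_of_eq ?_) (hE.mono hpt)
  rw [hE.sub (fun F a b => p1 * p2 * (ptot G g d O1 j F a * ptot G g d O2 j F b)
        - ∑ z, (pc G g d O1 j F a z * ptot G g d O2 j F b) * |sOm G g d O1 z - p1|
        - ∑ z, (pc G g d O2 j F b z * ptot G g d O1 j F a) * |sOm G g d O2 z - p2|
        - XX G g d O1 j F a * ptot G g d O2 j F b)
      (fun F a b => XX G g d O2 j F b * ptot G g d O1 j F a),
    hE.sub (fun F a b => p1 * p2 * (ptot G g d O1 j F a * ptot G g d O2 j F b)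
        - ∑ z, (pc G g d O1 j F a z * ptot G g d O2 j F b) * |sOm G g d O1 z - p1|
        - ∑ z, (pc G g d O2 j F b z * ptot G g d O1 j F a) * |sOm G g d O2 z - p2|)
      (fun F a b => XX G g d O1 j F a * ptot G g d O2 j F b),
    hE.sub (fun F a b => p1 * p2 * (ptot G g d O1 j F a * ptot G g d O2 j F b)
        - ∑ z, (pc G g d O1 j F a z * ptot G g d O2 j F b) * |sOm G g d O1 z - p1|)
      (fun F a b => ∑ z, (pc G g d O2 j F b z * ptot G g d O1 j F a) * |sOm G g d O2 z - p2|),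
    hE.sub (fun F a b => p1 * p2 * (ptot G g d O1 j F a * ptot G g d O2 j F b))
      (fun F a b => ∑ z, (pc G g d O1 j F a z * ptot G g d O2 j F b) * |sOm G g d O1 z - p1|),
    hE.smul (p1 * p2) (fun F a b => ptot G g d O1 j F a * ptot G g d O2 j F b),
    hE.sum univ (fun z F a b =>
      (pc G g d O1 j F a z * ptot G g d O2 j F b) * |sOm G g d O1 z - p1|),
    hE.sum univ (fun z F a b =>
      (pc G g d O2 j F b z * ptot G g d O1 j F a) * |sOm G g d O2 z - p2|)]
  have e1 : ∀ z, E (fun F a b =>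
        (pc G g d O1 j F a z * ptot G g d O2 j F b) * |sOm G g d O1 z - p1|)
      = sa G g d E O1 O2 j z * |sOm G g d O1 z - p1| := fun z => hE.smul_right _ _
  have e2 : ∀ z, E (fun F a b =>
        (pc G g d O2 j F b z * ptot G g d O1 j F a) * |sOm G g d O2 z - p2|)
      = sa G g d (swapE E) O2 O1 j z * |sOm G g d O2 z - p2| := fun z => hE.smul_right _ _
  rw [Finset.sum_congr rfl (fun z _ => e1 z), Finset.sum_congr rfl (fun z _ => e2 z)]
  rfl

/-- Cauchy-Schwarz for the deviation terms -/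
lemma sa_dev (hE : PLF E) (j : ℕ) (p : ℝ) (hp : p = (O1.card : ℝ) / (Fintype.card V : ℝ)) :
    (∑ z, sa G g d E O1 O2 j z * |sOm G g d O1 z - p|) ^ 2
      ≤ ((Fintype.card V : ℝ) * ∑ z, sa G g d E O1 O2 j z ^ 2) * (lam / d) ^ 2 / 4 := by
  have h1 := Finset.sum_mul_sq_le_sq_mul_sq univ (fun z => sa G g d E O1 O2 j z)
    (fun z => |sOm G g d O1 z - p|)
  have h2 : ∑ z, |sOm G g d O1 z - p| ^ 2 ≤ (lam / d) ^ 2 * ((Fintype.card V : ℝ) / 4) := by
    have := c.sOm_dev O1
    rw [← hp] at this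
    simp_rw [sq_abs]
    exact this
  have h3 : 0 ≤ ∑ z, sa G g d E O1 O2 j z ^ 2 := Finset.sum_nonneg (fun z _ => sq_nonneg _)
  refine h1.trans ?_
  have h4 := mul_le_mul_of_nonneg_left h2 h3
  refine h4.trans (le_of_eq ?_)
  ring

lemma bad_le (Oa Ob : Finset V) (m : ℕ) (F : Finset V) (x y : V)
    (h : ¬ ∀ j k, j + k = m → ptot G g d Oa j F x ≤ 4 * 16 ^ k * ptot G g d Oa m F x) :
    ptot G g d Oa m F x * ptot G g d Ob m F y
      ≤ ∑ j ∈ range m, (ptot G g d Oa j F x * ptot G g d Ob j F y) * (1 / (4 * 16 ^ (m - j))) := by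
  push Not at h
  obtain ⟨j, k, hjk, hlt⟩ := h
  have hTa := ptot_nonneg (G := G) (g := g) (d := d) (Om := Oa) m F x
  have hTb := ptot_nonneg (G := G) (g := g) (d := d) (Om := Ob) m F y
  have hk : k ≠ 0 := by
    intro hk
    subst hk
    have : j = m := by omega
    subst this
    simp only [pow_zero, mul_one] at hlt
    linarith
  have hj : j < m := by omega
  have hkm : m - j = k := by omega
  have hb := c.ptot_anti (Om := Ob) hj.le F y
  have h16 : (0:ℝ) < 4 * 16 ^ k := by positivity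
  have hterm : ptot G g d Oa m F x * ptot G g d Ob m F y
      ≤ (ptot G g d Oa j F x * ptot G g d Ob j F y) * (1 / (4 * 16 ^ (m - j))) := by
    rw [hkm, mul_one_div, le_div_iff₀ h16]
    have h1 : ptot G g d Oa m F x * (4 * 16 ^ k) ≤ ptot G g d Oa j F x := by linarith
    calc ptot G g d Oa m F x * ptot G g d Ob m F y * (4 * 16 ^ k)
        = (ptot G g d Oa m F x * (4 * 16 ^ k)) * ptot G g d Ob m F y := by ring
      _ ≤ ptot G g d Oa j F x * ptot G g d Ob j F y :=
          mul_le_mul h1 hb hTb (ptot_nonneg _ _ _)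
  refine hterm.trans ?_
  exact Finset.single_le_sum (f := fun j => (ptot G g d Oa j F x * ptot G g d Ob j F y)
      * (1 / (4 * 16 ^ (m - j))))
    (fun i _ => mul_nonneg (mul_nonneg (ptot_nonneg _ _ _) (ptot_nonneg _ _ _)) (by positivity))
    (Finset.mem_range.2 hj)

/-- the expected weight of the junction edge -/
lemma junction_E (hV : Nonempty V) (hE : PLF E) (m : ℕ)
    (hch : ∀ j, j < m → Gam G g d E O1 O2 j ≤ 8 * Gam G g d E O1 O2 (j + 1))
    (he : 17 * 256 * (lam / d) ^ 2 ≤ 1)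
    (hm : (Fintype.card V : ℝ) * (256 * (lam / d) ^ 2) ^ m ≤ 1)
    (hl : lam * 8736 ≤ d) :
    (d : ℝ) / (4 * (Fintype.card V : ℝ)) * Gam G g d E O1 O2 m
      ≤ E (fun F a b => ∑ z, ∑ z', pc G g d O1 m F a z * pc G g d O2 m F b z'
          * (if G.Adj z z' then (1 : ℝ) else 0)) := by
  classical
  have hN : (0 : ℝ) < (Fintype.card V : ℝ) := by exact_mod_cast Fintype.card_pos
  have hd := c.dpos'
  have hcoef : 0 ≤ (d : ℝ) / (Fintype.card V : ℝ) := by positivity
  have hpt : ∀ (F : Finset V) (a b : V),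
      (d : ℝ) / (2 * (Fintype.card V : ℝ)) * (ptot G g d O1 m F a * ptot G g d O2 m F b)
        - (d : ℝ) / (Fintype.card V : ℝ) * ∑ j ∈ range m,
            (ptot G g d O1 j F a * ptot G g d O2 j F b) * (1 / (4 * 16 ^ (m - j)))
      ≤ ∑ z, ∑ z', pc G g d O1 m F a z * pc G g d O2 m F b z'
          * (if G.Adj z z' then (1 : ℝ) else 0) := by
    intro F a b
    have hT1n := ptot_nonneg (G := G) (g := g) (d := d) (Om := O1) m F a
    have hT2n := ptot_nonneg (G := G) (g := g) (d := d) (Om := O2) m F b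
    have hJn : 0 ≤ ∑ z, ∑ z', pc G g d O1 m F a z * pc G g d O2 m F b z'
        * (if G.Adj z z' then (1 : ℝ) else 0) :=
      Finset.sum_nonneg (fun z _ => Finset.sum_nonneg (fun z' _ =>
        mul_nonneg (mul_nonneg (pc_nonneg _ _ _ _) (pc_nonneg _ _ _ _))
          (by split_ifs <;> norm_num)))
    have hRn : 0 ≤ ∑ j ∈ range m,
        (ptot G g d O1 j F a * ptot G g d O2 j F b) * (1 / (4 * 16 ^ (m - j))) :=
      Finset.sum_nonneg (fun j _ => mul_nonneg
        (mul_nonneg (ptot_nonneg _ _ _) (ptot_nonneg _ _ _)) (by positivity))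
    have hbadcase : ptot G g d O1 m F a * ptot G g d O2 m F b
          ≤ ∑ j ∈ range m,
            (ptot G g d O1 j F a * ptot G g d O2 j F b) * (1 / (4 * 16 ^ (m - j))) →
        (d : ℝ) / (2 * (Fintype.card V : ℝ)) * (ptot G g d O1 m F a * ptot G g d O2 m F b)
          - (d : ℝ) / (Fintype.card V : ℝ) * ∑ j ∈ range m,
              (ptot G g d O1 j F a * ptot G g d O2 j F b) * (1 / (4 * 16 ^ (m - j))) ≤ 0 := by
      intro hle
      have e : (d : ℝ) / (2 * (Fintype.card V : ℝ))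
          = (d : ℝ) / (Fintype.card V : ℝ) * (1 / 2) := by field_simp
      rw [e]
      have h1 := mul_le_mul_of_nonneg_left hle hcoef
      have h2 := mul_nonneg hcoef (mul_nonneg hT1n hT2n)
      nlinarith
    by_cases h1 : ∀ j k, j + k = m → ptot G g d O1 j F a ≤ 4 * 16 ^ k * ptot G g d O1 m F a
    · by_cases h2 : ∀ j k, j + k = m → ptot G g d O2 j F b ≤ 4 * 16 ^ k * ptot G g d O2 m F b
      · have hA := c.nice_sq (Om := O1) m F a h1 he hm
        have hB := c.nice_sq (Om := O2) m F b h2 he hm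
        have hj := c.junction (fun z => pc G g d O1 m F a z) (fun z => pc G g d O2 m F b z)
          (fun z => pc_nonneg _ _ _ _) (fun z => pc_nonneg _ _ _ _) 4368 (by norm_num) hA hB
        refine le_trans ?_ hj
        have h3 : (d : ℝ) / 2 ≤ (d : ℝ) - lam * 4368 := by linarith
        have h4 : 0 ≤ ptot G g d O1 m F a * ptot G g d O2 m F b := mul_nonneg hT1n hT2n
        have h5 : (d : ℝ) / 2 * (ptot G g d O1 m F a * ptot G g d O2 m F b)
              / (Fintype.card V : ℝ)
            ≤ ((d : ℝ) - lam * 4368) * (ptot G g d O1 m F a * ptot G g d O2 m F b)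
              / (Fintype.card V : ℝ) :=
          div_le_div_of_nonneg_right (mul_le_mul_of_nonneg_right h3 h4) hN.le
        have e : (d : ℝ) / (2 * (Fintype.card V : ℝ))
              * (ptot G g d O1 m F a * ptot G g d O2 m F b)
            = (d : ℝ) / 2 * (ptot G g d O1 m F a * ptot G g d O2 m F b)
              / (Fintype.card V : ℝ) := by field_simp
        have h6 := mul_nonneg hcoef hRn
        rw [e]
        refine le_trans ?_ h5
        linarith
      · have hb := c.bad_le O2 O1 m F b a h2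
        have e : ∑ j ∈ range m,
              (ptot G g d O2 j F b * ptot G g d O1 j F a) * (1 / (4 * 16 ^ (m - j)))
            = ∑ j ∈ range m,
              (ptot G g d O1 j F a * ptot G g d O2 j F b) * (1 / (4 * 16 ^ (m - j))) :=
          Finset.sum_congr rfl (fun j _ => by ring)
        rw [e, mul_comm] at hb
        exact (hbadcase hb).trans hJn
    · exact (hbadcase (c.bad_le O1 O2 m F a b h1)).trans hJn
  refine le_trans ?_ (hE.mono hpt)
  rw [hE.sub (fun F a b => (d : ℝ) / (2 * (Fintype.card V : ℝ))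
        * (ptot G g d O1 m F a * ptot G g d O2 m F b))
      (fun F a b => (d : ℝ) / (Fintype.card V : ℝ) * ∑ j ∈ range m,
            (ptot G g d O1 j F a * ptot G g d O2 j F b) * (1 / (4 * 16 ^ (m - j)))),
    hE.smul ((d : ℝ) / (2 * (Fintype.card V : ℝ)))
      (fun F a b => ptot G g d O1 m F a * ptot G g d O2 m F b),
    hE.smul ((d : ℝ) / (Fintype.card V : ℝ)) (fun F a b => ∑ j ∈ range m,
            (ptot G g d O1 j F a * ptot G g d O2 j F b) * (1 / (4 * 16 ^ (m - j)))),
    hE.sum (range m) (fun j F a b =>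
      (ptot G g d O1 j F a * ptot G g d O2 j F b) * (1 / (4 * 16 ^ (m - j))))]
  have e1 : ∀ j, E (fun F a b =>
        (ptot G g d O1 j F a * ptot G g d O2 j F b) * (1 / (4 * 16 ^ (m - j))))
      = Gam G g d E O1 O2 j * (1 / (4 * 16 ^ (m - j))) := fun j => hE.smul_right _ _
  rw [Finset.sum_congr rfl (fun j _ => e1 j)]
  change _ ≤ (d : ℝ) / (2 * (Fintype.card V : ℝ)) * Gam G g d E O1 O2 m
    - (d : ℝ) / (Fintype.card V : ℝ)
      * ∑ j ∈ range m, Gam G g d E O1 O2 j * (1 / (4 * 16 ^ (m - j)))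
  have hGm := Gam_nonneg (G := G) (g := g) (d := d) (O1 := O1) (O2 := O2) hE m
  have hsum : ∑ j ∈ range m, Gam G g d E O1 O2 j * (1 / (4 * 16 ^ (m - j)))
      ≤ Gam G g d E O1 O2 m / 4 := by
    have hterm : ∀ j ∈ range m, Gam G g d E O1 O2 j * (1 / (4 * 16 ^ (m - j)))
        ≤ Gam G g d E O1 O2 m / 4 * (1 / 2) ^ (m - j) := by
      intro j hj
      have hjm : j < m := Finset.mem_range.1 hj
      have h1 := chain_from (fun i => Gam G g d E O1 O2 i) 8 (by norm_num) j (m - j)
        (fun i _ hi => hch i (by omega))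
      have hjm' : j + (m - j) = m := by omega
      simp only [hjm'] at h1
      have e : (8 : ℝ) ^ (m - j) * (1 / (4 * 16 ^ (m - j))) = 1 / 4 * (1 / 2) ^ (m - j) := by
        have h16 : (16 : ℝ) ^ (m - j) = 8 ^ (m - j) * 2 ^ (m - j) := by
          rw [← mul_pow]; norm_num
        rw [h16, one_div_pow]
        field_simp
      have h2 : (0:ℝ) ≤ 1 / (4 * 16 ^ (m - j)) := by positivity
      calc Gam G g d E O1 O2 j * (1 / (4 * 16 ^ (m - j)))
          ≤ (8 ^ (m - j) * Gam G g d E O1 O2 m) * (1 / (4 * 16 ^ (m - j))) :=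
            mul_le_mul_of_nonneg_right h1 h2
        _ = Gam G g d E O1 O2 m * ((8 : ℝ) ^ (m - j) * (1 / (4 * 16 ^ (m - j)))) := by ring
        _ = Gam G g d E O1 O2 m / 4 * (1 / 2) ^ (m - j) := by rw [e]; ring
    refine (Finset.sum_le_sum hterm).trans ?_
    rw [← Finset.mul_sum]
    have h3 := half_sum m
    have h4 : 0 ≤ Gam G g d E O1 O2 m / 4 := by positivity
    nlinarith
  have h5 := mul_le_mul_of_nonneg_left hsum hcoef
  have e2 : (d : ℝ) / (4 * (Fintype.card V : ℝ)) * Gam G g d E O1 O2 m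
      = (d : ℝ) / (2 * (Fintype.card V : ℝ)) * Gam G g d E O1 O2 m
        - (d : ℝ) / (Fintype.card V : ℝ) * (Gam G g d E O1 O2 m / 4) := by
    field_simp
    ring
  rw [e2]
  linarith

end Ctx

end Vale.Agent.Lib.P308
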