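import Vale.Agent.Lib.P308.UClaim
import Vale.Agent.Lib.P308.UPhase

namespace Vale.Agent.Lib.P308

open Finset

set_option linter.unusedSectionVars false
set_option linter.unusedVariables false

variable {V : Type*} [Fintype V] [DecidableEq V]
variable {G : SimpleGraph V} [DecidableRel G.Adj] {g : V → V} {d : ℕ} {lam : ℝ}

namespace Ctx

variable (c : Ctx G g d lam)
include c

lemma sum_F_le (F₀ : Finset V) (hF : F₀.card ≤ 2) (n : ℕ) (y : V) :
    ∑ q ∈ F₀, pw G g d n y q ≤ 2 * c.bb n := by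
  have h1 : ∑ q ∈ F₀, pw G g d n y q ≤ F₀.card • c.bb n :=
    Finset.sum_le_card_nsmul _ _ _ (fun q _ => c.pw_le_bb n y q)
  rw [nsmul_eq_mul] at h1
  have h2 : (F₀.card : ℝ) ≤ 2 := by exact_mod_cast hF
  have h3 := c.bb_nonneg n
  nlinarith

lemma gg_rec (F₀ : Finset V) (hF : F₀.card ≤ 2) (y y' : V) (t : ℕ) :
    S G g d t F₀ y y' (fun _ _ _ => 1)
        * (1 - 2 * (1 / (Fintype.card V : ℝ) + (lam / d) ^ 1))
      - 4 * (1 / (Fintype.card V : ℝ) + (lam / d) ^ (t + 1))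
      - 8 * ∑ i ∈ range t, S G g d (i + 1) F₀ y y' (fun _ _ _ => 1)
          * (1 / (Fintype.card V : ℝ) + (lam / d) ^ (t - (i + 1) + 1))
    ≤ S G g d (t + 1) F₀ y y' (fun _ _ _ => 1) := by
  have h := c.surv_raw t F₀ y y'
  have h1 := c.sum_F_le F₀ hF (t + 1) y
  have h2 := c.sum_F_le F₀ hF (t + 1) y'
  unfold Ctx.bb at h h1 h2
  linarith

lemma gg_step (F₀ : Finset V) (hF : F₀.card ≤ 2) (y y' : V) (k₁ : ℕ)
    (hnum : 14 * (1 / (Fintype.card V : ℝ)) * 2 ^ k₁ + 22 * (lam / d) ≤ 1 / 2) :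
    ∀ t, t < k₁ → S G g d t F₀ y y' (fun _ _ _ => 1)
      ≤ 2 * S G g d (t + 1) F₀ y y' (fun _ _ _ => 1) :=
  num1 (fun t => S G g d t F₀ y y' (fun _ _ _ => 1)) (1 / (Fintype.card V : ℝ)) (lam / d) k₁
    rfl (fun t => c.S_one_nonneg t F₀ y y') (by positivity) c.ep_nonneg hnum
    (fun t => c.gg_rec F₀ hF y y' t)

lemma mg_bound (hV : Nonempty V) (F₀ : Finset V) (y y' : V) (k₁ : ℕ)
    (hstep : ∀ t, t < k₁ → S G g d t F₀ y y' (fun _ _ _ => 1)
      ≤ 2 * S G g d (t + 1) F₀ y y' (fun _ _ _ => 1))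
    (hε : 20 * (lam / d) ^ 2 ≤ 1)
    (hk1 : (Fintype.card V : ℝ) * (4 * (lam / d) ^ 2) ^ k₁ ≤ 1) :
    (Fintype.card V : ℝ) * ∑ w, mg1 G g d k₁ F₀ y y' w ^ 2
      ≤ 6 * (S G g d k₁ F₀ y y' (fun _ _ _ => 1)) ^ 2 := by
  have hN : (0 : ℝ) < (Fintype.card V : ℝ) := by exact_mod_cast Fintype.card_pos
  have hM0 : (Fintype.card V : ℝ) * ∑ w, mg1 G g d 0 F₀ y y' w ^ 2 ≤ (Fintype.card V : ℝ) := by
    have e : ∑ w, mg1 G g d 0 F₀ y y' w ^ 2 = 1 := by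
      unfold mg1
      simp only [S_zero]
      rw [Finset.sum_eq_single y]
      · simp
      · intro b _ hb; simp [Ne.symm hb]
      · intro h; exact absurd (Finset.mem_univ y) h
    rw [e, mul_one]
  have hrec : ∀ t, (Fintype.card V : ℝ) * ∑ w, mg1 G g d (t + 1) F₀ y y' w ^ 2
      ≤ (S G g d t F₀ y y' (fun _ _ _ => 1)) ^ 2
        + (lam / d) ^ 2 * ((Fintype.card V : ℝ) * ∑ w, mg1 G g d t F₀ y y' w ^ 2) := by
    intro t
    have h1 := c.mg1_sq t F₀ y y'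
    have h2 := mul_le_mul_of_nonneg_left h1 hN.le
    rw [mul_add, mul_div_cancel₀ _ hN.ne'] at h2
    linarith
  have h := num1b (fun t => S G g d t F₀ y y' (fun _ _ _ => 1))
    (fun t => (Fintype.card V : ℝ) * ∑ w, mg1 G g d t F₀ y y' w ^ 2) (Fintype.card V : ℝ)
    (lam / d) k₁ (fun t => c.S_one_nonneg t F₀ y y') rfl hM0 hN.le hε hstep hrec k₁ (le_refl _)
  have h3 : (S G g d k₁ F₀ y y' (fun _ _ _ => 1)) ^ 2
        * (5 + (Fintype.card V : ℝ) * (4 * (lam / d) ^ 2) ^ k₁)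
      ≤ (S G g d k₁ F₀ y y' (fun _ _ _ => 1)) ^ 2 * 6 :=
    mul_le_mul_of_nonneg_left (by linarith) (sq_nonneg _)
  linarith

lemma loss_bound (F₀ : Finset V) (hF : F₀.card ≤ 2) (y y' : V) (k₁ j : ℕ)
    (hstep : ∀ t, t < k₁ → S G g d t F₀ y y' (fun _ _ _ => 1)
      ≤ 2 * S G g d (t + 1) F₀ y y' (fun _ _ _ => 1))
    (hε : 4 * (lam / d) ≤ 1) :
    S G g d k₁ F₀ y y' (fun F a _ => ∑ q ∈ F, pw G g d (j + 1) a q)
      ≤ S G g d k₁ F₀ y y' (fun _ _ _ => 1)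
        * (6 * (1 / (Fintype.card V : ℝ)) * 2 ^ k₁ + 10 * (lam / d) ^ (j + 1)) := by
  have hε0 := c.ep_nonneg
  have hβ : (0 : ℝ) ≤ 1 / (Fintype.card V : ℝ) := by positivity
  have h1 := c.Lam1 (j + 1) k₁ F₀ y y'
  have h2 := c.sum_F_le F₀ hF (k₁ + (j + 1)) y
  have h3 := geo_sum (fun t => S G g d t F₀ y y' (fun _ _ _ => 1)) (1 / (Fintype.card V : ℝ))
    (lam / d) 2 hβ hε0 (le_refl 2) (by linarith) (fun t => c.S_one_nonneg t F₀ y y') k₁ hstep
    (j + 1)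
  have h4 := pow_chain (fun t => S G g d t F₀ y y' (fun _ _ _ => 1)) 2 (by norm_num) k₁ hstep
  have h40 : (1 : ℝ) ≤ 2 ^ k₁ * S G g d k₁ F₀ y y' (fun _ _ _ => 1) := h4
  have ha := c.S_one_nonneg k₁ F₀ y y'
  have e : ∑ i ∈ range k₁, S G g d (i + 1) F₀ y y' (fun _ _ _ => 1)
        * (4 * c.bb (k₁ - (i + 1) + (j + 1)))
      = 4 * ∑ i ∈ range k₁, S G g d (i + 1) F₀ y y' (fun _ _ _ => 1)
        * (1 / (Fintype.card V : ℝ) + (lam / d) ^ (k₁ - (i + 1) + (j + 1))) := by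
    rw [Finset.mul_sum]
    apply Finset.sum_congr rfl
    intro i _
    unfold Ctx.bb
    ring
  rw [e] at h1
  unfold Ctx.bb at h2
  have hεt : (2 * (lam / d)) ^ k₁ ≤ 1 := pow_le_one₀ (by positivity) (by linarith)
  have hεj : (0 : ℝ) ≤ (lam / d) ^ (j + 1) := pow_nonneg hε0 _
  have h5 : 2 * (1 / (Fintype.card V : ℝ) + (lam / d) ^ (k₁ + (j + 1)))
      ≤ S G g d k₁ F₀ y y' (fun _ _ _ => 1)
        * (2 * (1 / (Fintype.card V : ℝ)) * 2 ^ k₁ + 2 * (lam / d) ^ (j + 1)) := by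
    have e2 : 2 * (1 / (Fintype.card V : ℝ) + (lam / d) ^ (k₁ + (j + 1)))
          * (2 ^ k₁ * S G g d k₁ F₀ y y' (fun _ _ _ => 1))
        = S G g d k₁ F₀ y y' (fun _ _ _ => 1)
          * (2 * (1 / (Fintype.card V : ℝ)) * 2 ^ k₁
            + 2 * (lam / d) ^ (j + 1) * (2 * (lam / d)) ^ k₁) := by
      rw [mul_pow, pow_add]; ring
    have h6 : 2 * (1 / (Fintype.card V : ℝ) + (lam / d) ^ (k₁ + (j + 1)))
        ≤ 2 * (1 / (Fintype.card V : ℝ) + (lam / d) ^ (k₁ + (j + 1)))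
          * (2 ^ k₁ * S G g d k₁ F₀ y y' (fun _ _ _ => 1)) := by
      have h61 : 0 ≤ 2 * (1 / (Fintype.card V : ℝ) + (lam / d) ^ (k₁ + (j + 1))) := by
        have := pow_nonneg hε0 (k₁ + (j + 1))
        linarith
      nlinarith
    rw [e2] at h6
    refine h6.trans (mul_le_mul_of_nonneg_left ?_ ha)
    have h62 : 2 * (lam / d) ^ (j + 1) * (2 * (lam / d)) ^ k₁ ≤ 2 * (lam / d) ^ (j + 1) * 1 :=
      mul_le_mul_of_nonneg_left hεt (by positivity)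
    linarith
  have h7 : S G g d k₁ F₀ y y' (fun _ _ _ => 1)
        * (1 / (Fintype.card V : ℝ) * (2 ^ k₁ - 1) + 2 * (lam / d) ^ (j + 1))
      ≤ S G g d k₁ F₀ y y' (fun _ _ _ => 1)
        * (1 / (Fintype.card V : ℝ) * 2 ^ k₁ + 2 * (lam / d) ^ (j + 1)) := by
    apply mul_le_mul_of_nonneg_left _ ha
    nlinarith
  nlinarith

/-- the chain of comparisons of the second phase, for an abstract first phase -/
lemma phase2_chain {E : (Finset V → V → V → ℝ) → ℝ} {O1 O2 : Finset V} (hE : PLF E) (m : ℕ)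
    (κ : ℝ) (hκ : 0 ≤ κ)
    (hLA : ∀ j, E (fun F a _ => ∑ q ∈ F, pw G g d (j + 1) a q)
      ≤ Gam G g d E O1 O2 0 * (κ + 10 * (lam / d) ^ (j + 1)))
    (hLB : ∀ j, E (fun F _ b => ∑ q ∈ F, pw G g d (j + 1) b q)
      ≤ Gam G g d E O1 O2 0 * (κ + 10 * (lam / d) ^ (j + 1)))
    (hA0 : (Fintype.card V : ℝ) * ∑ w, sa G g d E O1 O2 0 w ^ 2
      ≤ 6 * Gam G g d E O1 O2 0 ^ 2)
    (hB0 : (Fintype.card V : ℝ) * ∑ w, sa G g d (swapE E) O2 O1 0 w ^ 2
      ≤ 6 * Gam G g d E O1 O2 0 ^ 2)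
    (hpq : 3 / 16 ≤ ((O1.card : ℝ) / (Fintype.card V : ℝ))
      * ((O2.card : ℝ) / (Fintype.card V : ℝ)))
    (hnum : 38 * (lam / d) + 2 * κ * 8 ^ m + 4 * (1 / (Fintype.card V : ℝ)) * 8 ^ m ≤ 1 / 16) :
    ∀ j, j < m → Gam G g d E O1 O2 j ≤ 8 * Gam G g d E O1 O2 (j + 1) := by
  rcases isEmpty_or_nonempty V with hV | hV
  · exfalso
    simp at hpq
    linarith
  have hN : (0 : ℝ) < (Fintype.card V : ℝ) := by exact_mod_cast Fintype.card_pos
  have hE' := swapE_plf hE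
  have hp : ∀ O : Finset V, 0 ≤ (O.card : ℝ) / (Fintype.card V : ℝ)
      ∧ (O.card : ℝ) / (Fintype.card V : ℝ) ≤ 1 := by
    intro O
    refine ⟨by positivity, ?_⟩
    rw [div_le_one hN]
    exact_mod_cast Finset.card_le_univ O
  have hsq : ∀ (E' : (Finset V → V → V → ℝ) → ℝ) (Oa Ob : Finset V), PLF E' → ∀ j,
      (Fintype.card V : ℝ) * ∑ w, sa G g d E' Oa Ob (j + 1) w ^ 2
        ≤ Gam G g d E' Oa Ob j ^ 2
          + (lam / d) ^ 2 * ((Fintype.card V : ℝ) * ∑ w, sa G g d E' Oa Ob j w ^ 2) := by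
    intro E' Oa Ob hE'' j
    have h1 := c.sa_sq (O1 := Oa) (O2 := Ob) hE'' j
    have h2 := mul_le_mul_of_nonneg_left h1 hN.le
    rw [mul_add, mul_div_cancel₀ _ hN.ne'] at h2
    linarith
  apply num2 (fun j => Gam G g d E O1 O2 j)
    (fun j => (Fintype.card V : ℝ) * ∑ w, sa G g d E O1 O2 j w ^ 2)
    (fun j => (Fintype.card V : ℝ) * ∑ w, sa G g d (swapE E) O2 O1 j w ^ 2)
    (fun j => ∑ z, sa G g d E O1 O2 j z
      * |sOm G g d O1 z - (O1.card : ℝ) / (Fintype.card V : ℝ)|)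
    (fun j => ∑ z, sa G g d (swapE E) O2 O1 j z
      * |sOm G g d O2 z - (O2.card : ℝ) / (Fintype.card V : ℝ)|)
    (fun j => XA G g d E O1 O2 j) (fun j => XA G g d (swapE E) O2 O1 j)
    (1 / (Fintype.card V : ℝ)) (lam / d) κ
    (((O1.card : ℝ) / (Fintype.card V : ℝ)) * ((O2.card : ℝ) / (Fintype.card V : ℝ))) m
  · exact fun j => Gam_nonneg hE j
  · positivity
  · exact c.ep_nonneg
  · exact hκ
  · exact fun j => hsq E O1 O2 hE j
  · intro j
    have := hsq (swapE E) O2 O1 hE' j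
    rw [Gam_swap] at this
    exact this
  · exact fun j => c.sa_dev hE j _ rfl
  · exact fun j => c.sa_dev (O1 := O2) (O2 := O1) hE' j _ rfl
  · intro j
    have h1 := c.XA_le (O1 := O1) (O2 := O2) hE j
    have h2 := hLA j
    unfold Ctx.bb at h1
    linarith
  · intro j
    have h1 := c.XA_le (O1 := O2) (O2 := O1) hE' j
    have h2 := hLB j
    unfold Ctx.bb at h1
    have e : ∑ i ∈ range j, Gam G g d (swapE E) O2 O1 (i + 1)
          * (2 * (1 / (Fintype.card V : ℝ) + (lam / d) ^ (j - i)))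
        = ∑ i ∈ range j, Gam G g d E O1 O2 (i + 1)
          * (2 * (1 / (Fintype.card V : ℝ) + (lam / d) ^ (j - i))) :=
      Finset.sum_congr rfl (fun i _ => by rw [Gam_swap])
    rw [e] at h1
    have e2 : swapE E (fun F a _ => ∑ q ∈ F, pw G g d (j + 1) a q)
        = E (fun F _ b => ∑ q ∈ F, pw G g d (j + 1) b q) := rfl
    rw [e2] at h1
    linarith
  · intro j
    exact c.Gam_step hE j _ _ (hp O1).1 (hp O1).2 (hp O2).1 (hp O2).2
  · exact hA0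
  · exact hB0
  · exact hpq
  · exact hnum

/-- the lower bound for the expected weight of the junction edge after both phases -/
theorem phase_all (k₁ m : ℕ) (F₀ : Finset V) (hF : F₀.card ≤ 2) (y y' : V)
    (O1 O2 : Finset V)
    (hpq : 3 / 16 ≤ ((O1.card : ℝ) / (Fintype.card V : ℝ))
      * ((O2.card : ℝ) / (Fintype.card V : ℝ)))
    (hl : lam * 16384 ≤ d)
    (hk : 1024 * 2 ^ k₁ * 8 ^ m ≤ (Fintype.card V : ℝ))
    (hk1 : (Fintype.card V : ℝ) * (4 * (lam / d) ^ 2) ^ k₁ ≤ 1)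
    (hm : (Fintype.card V : ℝ) * (256 * (lam / d) ^ 2) ^ m ≤ 1) :
    (d : ℝ) / (4 * (Fintype.card V : ℝ)) * ((1 / 8) ^ m * (1 / 2) ^ k₁)
      ≤ S G g d k₁ F₀ y y' (fun F a b => JJ G g d O1 O2 m F a b) := by
  have hV : Nonempty V := ⟨y⟩
  have hN : (0 : ℝ) < (Fintype.card V : ℝ) := by exact_mod_cast Fintype.card_pos
  have hd := c.dpos'
  have hε0 := c.ep_nonneg
  have hε : lam / d ≤ 1 / 16384 := by
    rw [div_le_iff₀ hd]
    linarith
  have h2k : (1 : ℝ) ≤ 2 ^ k₁ := one_le_pow₀ (by norm_num)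
  have h8m : (1 : ℝ) ≤ 8 ^ m := one_le_pow₀ (by norm_num)
  have hβkm : 1 / (Fintype.card V : ℝ) * (2 ^ k₁ * 8 ^ m) ≤ 1 / 1024 := by
    rw [div_mul_eq_mul_div, one_mul, div_le_div_iff₀ hN (by norm_num)]
    linarith
  have hβ : (0 : ℝ) ≤ 1 / (Fintype.card V : ℝ) := by positivity
  have hβk : 1 / (Fintype.card V : ℝ) * 2 ^ k₁ ≤ 1 / 1024 := by
    have : 1 / (Fintype.card V : ℝ) * 2 ^ k₁ ≤ 1 / (Fintype.card V : ℝ) * (2 ^ k₁ * 8 ^ m) := by
      apply mul_le_mul_of_nonneg_left _ hβ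
      nlinarith
    linarith
  have hβm : 1 / (Fintype.card V : ℝ) * 8 ^ m ≤ 1 / 1024 := by
    have : 1 / (Fintype.card V : ℝ) * 8 ^ m ≤ 1 / (Fintype.card V : ℝ) * (2 ^ k₁ * 8 ^ m) := by
      apply mul_le_mul_of_nonneg_left _ hβ
      nlinarith
    linarith
  have hnum1 : 14 * (1 / (Fintype.card V : ℝ)) * 2 ^ k₁ + 22 * (lam / d) ≤ 1 / 2 := by
    linarith
  have hε20 : 20 * (lam / d) ^ 2 ≤ 1 := by nlinarith
  have hε4 : 4 * (lam / d) ≤ 1 := by linarith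
  have hs1 := c.gg_step F₀ hF y y' k₁ hnum1
  have hs2 := c.gg_step F₀ hF y' y k₁ hnum1
  have hsw : ∀ t, S G g d t F₀ y' y (fun _ _ _ => 1) = S G g d t F₀ y y' (fun _ _ _ => 1) :=
    fun t => S_swap c.inv t F₀ y' y (fun _ _ _ => 1)
  set E : (Finset V → V → V → ℝ) → ℝ := S G g d k₁ F₀ y y' with hEdef
  have hE : PLF E := S_plf k₁ F₀ y y'
  have hΓ0 : Gam G g d E O1 O2 0 = S G g d k₁ F₀ y y' (fun _ _ _ => 1) := by
    unfold Gam
    rw [hEdef]
    congr 1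
    funext F a b
    rw [ptot_zero, ptot_zero, mul_one]
  have hchain := c.phase2_chain (E := E) (O1 := O1) (O2 := O2) hE m
    (6 * (1 / (Fintype.card V : ℝ)) * 2 ^ k₁) (by positivity)
    (by
      intro j
      rw [hΓ0]
      exact c.loss_bound F₀ hF y y' k₁ j hs1 hε4)
    (by
      intro j
      rw [hΓ0, ← hsw k₁]
      have h1 := c.loss_bound F₀ hF y' y k₁ j hs2 hε4
      have e : E (fun F _ b => ∑ q ∈ F, pw G g d (j + 1) b q)
          = S G g d k₁ F₀ y' y (fun F a _ => ∑ q ∈ F, pw G g d (j + 1) a q) :=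
        S_swap c.inv k₁ F₀ y y' (fun F _ b => ∑ q ∈ F, pw G g d (j + 1) b q)
      rw [e]
      exact h1)
    (by
      rw [hΓ0]
      have h1 := c.mg_bound hV F₀ y y' k₁ hs1 hε20 hk1
      have e : ∀ w, sa G g d E O1 O2 0 w = mg1 G g d k₁ F₀ y y' w := by
        intro w
        unfold sa mg1
        rw [hEdef]
        congr 1
        funext F a b
        rw [pc_zero, ptot_zero, mul_one]
      simp_rw [e]
      exact h1)
    (by
      rw [hΓ0, ← hsw k₁]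
      have h1 := c.mg_bound hV F₀ y' y k₁ hs2 hε20 hk1
      have e : ∀ w, sa G g d (swapE E) O2 O1 0 w = mg1 G g d k₁ F₀ y' y w := by
        intro w
        unfold sa mg1 swapE
        rw [hEdef]
        have e1 : (fun (F : Finset V) (a b : V) => pc G g d O2 0 F b w * ptot G g d O1 0 F a)
            = (fun (_ : Finset V) (_ b : V) => if b = w then (1 : ℝ) else 0) := by
          funext F a b
          rw [pc_zero, ptot_zero, mul_one]
        rw [e1]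
        exact S_swap c.inv k₁ F₀ y y' (fun _ _ b => if b = w then (1 : ℝ) else 0)
      simp_rw [e]
      exact h1)
    hpq
    (by
      have e1 : 2 * (6 * (1 / (Fintype.card V : ℝ)) * 2 ^ k₁) * 8 ^ m
          = 12 * (1 / (Fintype.card V : ℝ) * (2 ^ k₁ * 8 ^ m)) := by ring
      have e2 : 4 * (1 / (Fintype.card V : ℝ)) * 8 ^ m
          = 4 * (1 / (Fintype.card V : ℝ) * 8 ^ m) := by ring
      rw [e1, e2]
      linarith)
  have he : 17 * 256 * (lam / d) ^ 2 ≤ 1 := by nlinarith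
  have hl' : lam * 8736 ≤ d := by
    have := c.lam0
    linarith
  have hj := c.junction_E (O1 := O1) (O2 := O2) hV hE m hchain he hm hl'
  have hG0 := pow_chain (fun j => Gam G g d E O1 O2 j) 8 (by norm_num) m hchain
  have hg0 := pow_chain (fun t => S G g d t F₀ y y' (fun _ _ _ => 1)) 2 (by norm_num) k₁ hs1
  have hg0' : (1 : ℝ) ≤ 2 ^ k₁ * S G g d k₁ F₀ y y' (fun _ _ _ => 1) := hg0
  rw [hΓ0] at hG0
  have hGm := Gam_nonneg (G := G) (g := g) (d := d) (O1 := O1) (O2 := O2) hE m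
  have hlow : (1 / 8 : ℝ) ^ m * (1 / 2) ^ k₁ ≤ Gam G g d E O1 O2 m := by
    have h1 : (1 : ℝ) ≤ 2 ^ k₁ * (8 ^ m * Gam G g d E O1 O2 m) := by
      have := mul_le_mul_of_nonneg_left hG0 (by positivity : (0 : ℝ) ≤ 2 ^ k₁)
      linarith
    have e : (1 / 8 : ℝ) ^ m * (1 / 2) ^ k₁ * (2 ^ k₁ * 8 ^ m) = 1 := by
      rw [one_div_pow, one_div_pow]
      field_simp
    have h2 : (0 : ℝ) ≤ (1 / 8 : ℝ) ^ m * (1 / 2) ^ k₁ := by positivity
    have h3 := mul_le_mul_of_nonneg_left h1 h2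
    have e2 : (1 / 8 : ℝ) ^ m * (1 / 2) ^ k₁ * (2 ^ k₁ * (8 ^ m * Gam G g d E O1 O2 m))
        = ((1 / 8 : ℝ) ^ m * (1 / 2) ^ k₁ * (2 ^ k₁ * 8 ^ m)) * Gam G g d E O1 O2 m := by ring
    rw [e2, e, one_mul, mul_one] at h3
    exact h3
  have hcoef : (0 : ℝ) ≤ (d : ℝ) / (4 * (Fintype.card V : ℝ)) := by positivity
  exact (mul_le_mul_of_nonneg_left hlow hcoef).trans hj

end Ctx

end Vale.Agent.Lib.P308
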