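import Vale.Agent.Lib.P308.UMoves

namespace Vale.Agent.Lib.P308

open Finset

set_option linter.unusedSectionVars false
set_option linter.unusedVariables false

variable {V : Type*} [Fintype V] [DecidableEq V]

/-- the invariant linking a near-perfect matching `f` with the blocked set of the pair walk -/
def PInv (G : SimpleGraph V) (g f : V → V) (F : Finset V) (y y' : V) : Prop :=
  IsMat G f ∧ holes f = {y, y'} ∧ y ≠ y' ∧ y ∈ F ∧ y' ∈ F ∧ (∀ v ∈ F, g v ∈ F)
    ∧ ∀ v, v ∉ F → f v = g v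

lemma inv_swap {G : SimpleGraph V} {g f : V → V} {F : Finset V} {y y' : V}
    (h : PInv G g f F y y') : PInv G g f F y' y := by
  obtain ⟨h1, h2, h3, h4, h5, h6, h7⟩ := h
  exact ⟨h1, by rw [h2, Finset.pair_comm], Ne.symm h3, h5, h4, h6, h7⟩

lemma inv_move {G : SimpleGraph V} {g f : V → V} {F : Finset V} {y y' : V}
    (hg : ∀ x, g (g x) = x) (h : PInv G g f F y y') (w : V) (hw : w ∉ F)
    (hadj : G.Adj y (g w)) :
    f (g w) = w ∧ g w ≠ y' ∧ PInv G g (mv f y (g w)) (F ∪ {w, g w}) w y' := by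
  obtain ⟨h1, h2, h3, h4, h5, h6, h7⟩ := h
  have hgw : g w ∉ F := by
    intro hc
    have := h6 _ hc
    rw [hg] at this
    exact hw this
  have hfgw : f (g w) = w := by rw [h7 _ hgw, hg]
  have hne : g w ≠ y' := fun hc => hgw (hc ▸ h5)
  obtain ⟨k1, k2, k3, k4, k5, k6⟩ := mv_round h1 h2 h3 hadj hne
  rw [hfgw] at k2 k3
  refine ⟨hfgw, hne, k1, k2, k3, ?_, ?_, ?_, ?_⟩
  · simp
  · exact Finset.mem_union_left _ h5
  · intro v hv
    simp only [mem_union, mem_insert, mem_singleton] at hv ⊢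
    rcases hv with hv | hv | hv
    · exact Or.inl (h6 v hv)
    · right; right; rw [hv]
    · right; left; rw [hv, hg]
  · intro v hv
    simp only [mem_union, mem_insert, mem_singleton, not_or] at hv
    obtain ⟨hv1, hv2, hv3⟩ := hv
    have hvy : v ≠ y := fun hc => hv1 (hc ▸ h4)
    have hvf : v ≠ f (g w) := by rw [hfgw]; exact hv2
    rw [mv_apply_of_ne hvy hv3 hvf]
    exact h7 v hv1

variable {G : SimpleGraph V} [DecidableRel G.Adj] {g : V → V} {d : ℕ} {lam : ℝ}

lemma wc_succ_eq (n : ℕ) (s : (V → V) × V × V) :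
    wc G d (n + 1) s = ∑ q : V × V, (if G.Adj s.2.1 q.1 ∧ q.1 ≠ s.2.2 then
      (if G.Adj s.2.2 q.2 ∧ q.2 ≠ s.1 q.1 then
        (1 / (d : ℝ)) * (1 / (d : ℝ)) * wc G d n (T2 (T1 s q.1) q.2) else 0) else 0) := by
  rw [Fintype.sum_prod_type]
  show half1 G d (half2 G d (wc G d n)) s = _
  unfold half1
  rw [Finset.mul_sum]
  apply Finset.sum_congr rfl
  intro x _
  by_cases h : G.Adj s.2.1 x ∧ x ≠ s.2.2
  · simp only [if_pos h]
    unfold half2
    rw [Finset.mul_sum, Finset.mul_sum]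
    apply Finset.sum_congr rfl
    intro x' _
    by_cases h2 : G.Adj s.2.2 x' ∧ x' ≠ s.1 x
    · have h2' : G.Adj (T1 s x).2.2 x' ∧ x' ≠ (T1 s x).2.1 := h2
      rw [if_pos h2, if_pos h2']; ring
    · have h2' : ¬ (G.Adj (T1 s x).2.2 x' ∧ x' ≠ (T1 s x).2.1) := h2
      rw [if_neg h2, if_neg h2']; ring
  · simp only [if_neg h]
    simp

/-- Claim A : the pair walk is dominated by the normalized count of move sequences -/
lemma S_le_wc (c : Ctx G g d lam) (n : ℕ) :
    ∀ (f : V → V) (F : Finset V) (y y' : V), PInv G g f F y y' →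
      S G g d n F y y' (fun _ a b => if G.Adj a b then 1 else 0) ≤ wc G d n (f, y, y') := by
  induction n with
  | zero =>
    intro f F y y' _
    rw [S_zero]
    exact le_refl _
  | succ n ih =>
    intro f F y y' hI
    rw [S_succ, wc_succ_eq]
    set B : V × V → ℝ := fun q => (if G.Adj y q.1 ∧ q.1 ≠ y' then
      (if G.Adj y' q.2 ∧ q.2 ≠ f q.1 then
        (1 / (d : ℝ)) * (1 / (d : ℝ)) * wc G d n (T2 (T1 (f, y, y') q.1) q.2) else 0) else 0)
      with hB
    have hB0 : ∀ q, 0 ≤ B q := by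
      intro q
      rw [hB]
      simp only
      split_ifs
      · exact mul_nonneg (by positivity) (wc_nonneg d n _)
      · exact le_refl _
      · exact le_refl _
    have hterm : ∀ p ∈ okp g F, pw1 G g d y p.1 * pw1 G g d y' p.2
          * S G g d n (F ∪ blk g p) p.1 p.2 (fun _ a b => if G.Adj a b then 1 else 0)
        ≤ B (g p.1, g p.2) := by
      intro p hp
      simp only [okp, mem_filter, mem_univ, true_and] at hp
      obtain ⟨hp1, hp2, hp3, hp4⟩ := hp
      by_cases ha1 : G.Adj y (g p.1)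
      · by_cases ha2 : G.Adj y' (g p.2)
        · obtain ⟨m1, m2, m3⟩ := inv_move c.inv hI p.1 hp1 ha1
          have m3' := inv_swap m3
          have hp2' : p.2 ∉ F ∪ {p.1, g p.1} := by
            simp only [mem_union, mem_insert, mem_singleton, not_or]
            exact ⟨hp2, hp3, hp4⟩
          obtain ⟨r1, r2, r3⟩ := inv_move c.inv m3' p.2 hp2' ha2
          have r3' := inv_swap r3
          have eF : F ∪ {p.1, g p.1} ∪ {p.2, g p.2} = F ∪ blk g p := by
            ext v
            simp only [blk, mem_union, mem_insert, mem_singleton]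
            tauto
          rw [eF] at r3'
          have hih := ih _ _ _ _ r3'
          have eT : T2 (T1 (f, y, y') (g p.1)) (g p.2)
              = (mv (mv f y (g p.1)) y' (g p.2), p.1, p.2) := by
            simp only [T1, T2]
            rw [m1, r1]
          have hBv : B (g p.1, g p.2) = (1 / (d : ℝ)) * (1 / (d : ℝ))
              * wc G d n (mv (mv f y (g p.1)) y' (g p.2), p.1, p.2) := by
            rw [hB]
            simp only
            rw [if_pos ⟨ha1, m2⟩, if_pos ⟨ha2, by rw [m1]; exact r2⟩, eT]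
          rw [hBv]
          have e1 : pw1 G g d y p.1 = 1 / (d : ℝ) := by unfold pw1; rw [if_pos ha1]
          have e2 : pw1 G g d y' p.2 = 1 / (d : ℝ) := by unfold pw1; rw [if_pos ha2]
          rw [e1, e2]
          exact mul_le_mul_of_nonneg_left hih (by positivity)
        · have e2 : pw1 G g d y' p.2 = 0 := by unfold pw1; rw [if_neg ha2]
          rw [e2, mul_zero, zero_mul]
          exact hB0 _
      · have e1 : pw1 G g d y p.1 = 0 := by unfold pw1; rw [if_neg ha1]
        rw [e1, zero_mul, zero_mul]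
        exact hB0 _
    calc ∑ p ∈ okp g F, pw1 G g d y p.1 * pw1 G g d y' p.2
          * S G g d n (F ∪ blk g p) p.1 p.2 (fun _ a b => if G.Adj a b then 1 else 0)
        ≤ ∑ p ∈ okp g F, B (g p.1, g p.2) := Finset.sum_le_sum hterm
      _ ≤ ∑ p : V × V, B (g p.1, g p.2) :=
          Finset.sum_le_sum_of_subset_of_nonneg (Finset.subset_univ _) (fun p _ _ => hB0 _)
      _ = ∑ q : V × V, B q := by
          have := Equiv.sum_comp (Equiv.prodCongr c.perm c.perm) B
          exact this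

/-- the confined walk only depends on the blocked vertices inside its side -/
lemma pc_congr (Om : Finset V) (n : ℕ) : ∀ (F F' : Finset V) (y w : V),
    (∀ v ∈ Om, v ∈ F ↔ v ∈ F') → pc G g d Om n F y w = pc G g d Om n F' y w := by
  induction n with
  | zero => intro F F' y w _; rfl
  | succ n ih =>
    intro F F' y w h
    rw [pc_succ, pc_succ]
    have e : Om \ F = Om \ F' := by
      ext v
      simp only [mem_sdiff]
      constructor
      · rintro ⟨h1, h2⟩; exact ⟨h1, fun h3 => h2 ((h v h1).2 h3)⟩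
      · rintro ⟨h1, h2⟩; exact ⟨h1, fun h3 => h2 ((h v h1).1 h3)⟩
    rw [e]
    apply Finset.sum_congr rfl
    intro z _
    rw [ih (F ∪ {z, g z}) (F' ∪ {z, g z}) z w]
    intro v hv
    simp only [mem_union]
    rw [h v hv]

/-- weight of the pairs of confined walks whose endpoints are adjacent -/
noncomputable def JJ (G : SimpleGraph V) [DecidableRel G.Adj] (g : V → V) (d : ℕ)
    (O1 O2 : Finset V) (n : ℕ) (F : Finset V) (y y' : V) : ℝ :=
  ∑ z, ∑ z', pc G g d O1 n F y z * pc G g d O2 n F y' z' * (if G.Adj z z' then (1 : ℝ) else 0)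

lemma JJ_nonneg (O1 O2 : Finset V) (n : ℕ) (F : Finset V) (y y' : V) :
    0 ≤ JJ G g d O1 O2 n F y y' :=
  Finset.sum_nonneg (fun z _ => Finset.sum_nonneg (fun z' _ =>
    mul_nonneg (mul_nonneg (pc_nonneg _ _ _ _) (pc_nonneg _ _ _ _))
      (by split_ifs <;> norm_num)))

lemma JJ_zero (O1 O2 : Finset V) (F : Finset V) (y y' : V) :
    JJ G g d O1 O2 0 F y y' = if G.Adj y y' then 1 else 0 := by
  unfold JJ
  simp only [pc_zero]
  rw [Finset.sum_eq_single y]
  · rw [Finset.sum_eq_single y']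
    · simp
    · intro b _ hb; simp [Ne.symm hb]
    · intro h; exact absurd (Finset.mem_univ y') h
  · intro b _ hb
    apply Finset.sum_eq_zero
    intro z' _
    simp [Ne.symm hb]
  · intro h; exact absurd (Finset.mem_univ y) h

lemma bil_sum {ι κ : Type*} (s : Finset ι) (t : Finset κ) (α : ι → ℝ) (α' : κ → ℝ)
    (A : ι → V → ℝ) (A' : κ → V → ℝ) (K : V → V → ℝ) :
    ∑ z, ∑ z', (∑ i ∈ s, α i * A i z) * (∑ j ∈ t, α' j * A' j z') * K z z'
      = ∑ i ∈ s, ∑ j ∈ t, α i * α' j * ∑ z, ∑ z', A i z * A' j z' * K z z' := by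
  have h1 : ∀ z z', (∑ i ∈ s, α i * A i z) * (∑ j ∈ t, α' j * A' j z') * K z z'
      = ∑ i ∈ s, ∑ j ∈ t, α i * α' j * (A i z * A' j z' * K z z') := by
    intro z z'
    rw [Finset.sum_mul_sum, Finset.sum_mul]
    apply Finset.sum_congr rfl
    intro i _
    rw [Finset.sum_mul]
    apply Finset.sum_congr rfl
    intro j _
    ring
  simp_rw [h1]
  calc ∑ z, ∑ z', ∑ i ∈ s, ∑ j ∈ t, α i * α' j * (A i z * A' j z' * K z z')
      = ∑ z, ∑ i ∈ s, ∑ z', ∑ j ∈ t, α i * α' j * (A i z * A' j z' * K z z') :=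
        Finset.sum_congr rfl (fun z _ => Finset.sum_comm)
    _ = ∑ i ∈ s, ∑ z, ∑ z', ∑ j ∈ t, α i * α' j * (A i z * A' j z' * K z z') :=
        Finset.sum_comm
    _ = ∑ i ∈ s, ∑ z, ∑ j ∈ t, ∑ z', α i * α' j * (A i z * A' j z' * K z z') :=
        Finset.sum_congr rfl (fun i _ => Finset.sum_congr rfl (fun z _ => Finset.sum_comm))
    _ = ∑ i ∈ s, ∑ j ∈ t, ∑ z, ∑ z', α i * α' j * (A i z * A' j z' * K z z') :=
        Finset.sum_congr rfl (fun i _ => Finset.sum_comm)
    _ = ∑ i ∈ s, ∑ j ∈ t, α i * α' j * ∑ z, ∑ z', A i z * A' j z' * K z z' := by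
        apply Finset.sum_congr rfl
        intro i _
        apply Finset.sum_congr rfl
        intro j _
        rw [Finset.mul_sum]
        apply Finset.sum_congr rfl
        intro z _
        rw [Finset.mul_sum]

lemma JJ_succ_le (O1 O2 : Finset V) (hO : ∀ v ∈ O1, v ∉ O2) (hg1 : ∀ v ∈ O1, g v ∈ O1)
    (hg2 : ∀ v ∈ O2, g v ∈ O2) (n : ℕ) (F : Finset V) (y y' : V) :
    JJ G g d O1 O2 (n + 1) F y y'
      ≤ ∑ p ∈ okp g F, pw1 G g d y p.1 * pw1 G g d y' p.2
          * JJ G g d O1 O2 n (F ∪ blk g p) p.1 p.2 := by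
  have e1 : JJ G g d O1 O2 (n + 1) F y y'
      = ∑ z₁ ∈ O1 \ F, ∑ z₂ ∈ O2 \ F, pw1 G g d y z₁ * pw1 G g d y' z₂
          * JJ G g d O1 O2 n (F ∪ blk g (z₁, z₂)) z₁ z₂ := by
    unfold JJ
    simp only [pc_succ]
    rw [bil_sum (O1 \ F) (O2 \ F) (fun z₁ => pw1 G g d y z₁) (fun z₂ => pw1 G g d y' z₂)
      (fun z₁ z => pc G g d O1 n (F ∪ {z₁, g z₁}) z₁ z)
      (fun z₂ z' => pc G g d O2 n (F ∪ {z₂, g z₂}) z₂ z')
      (fun z z' => if G.Adj z z' then (1 : ℝ) else 0)]
    apply Finset.sum_congr rfl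
    intro z₁ hz₁
    apply Finset.sum_congr rfl
    intro z₂ hz₂
    have hz₁' := (Finset.mem_sdiff.1 hz₁).1
    have hz₂' := (Finset.mem_sdiff.1 hz₂).1
    congr 1
    apply Finset.sum_congr rfl
    intro z _
    apply Finset.sum_congr rfl
    intro z' _
    have c1 : pc G g d O1 n (F ∪ {z₁, g z₁}) z₁ z
        = pc G g d O1 n (F ∪ blk g (z₁, z₂)) z₁ z := by
      apply pc_congr
      intro v hv
      have n1 : v ≠ z₂ := fun hc => hO v hv (hc ▸ hz₂')
      have n2 : v ≠ g z₂ := fun hc => hO v hv (hc ▸ hg2 z₂ hz₂')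
      simp only [blk, mem_union, mem_insert, mem_singleton]
      tauto
    have c2 : pc G g d O2 n (F ∪ {z₂, g z₂}) z₂ z'
        = pc G g d O2 n (F ∪ blk g (z₁, z₂)) z₂ z' := by
      apply pc_congr
      intro v hv
      have n1 : v ≠ z₁ := fun hc => hO z₁ hz₁' (hc ▸ hv)
      have n2 : v ≠ g z₁ := fun hc => hO (g z₁) (hg1 z₁ hz₁') (hc ▸ hv)
      simp only [blk, mem_union, mem_insert, mem_singleton]
      tauto
    rw [c1, c2]
  rw [e1, ← Finset.sum_product' (O1 \ F) (O2 \ F)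
    (fun z₁ z₂ => pw1 G g d y z₁ * pw1 G g d y' z₂
      * JJ G g d O1 O2 n (F ∪ blk g (z₁, z₂)) z₁ z₂)]
  apply Finset.sum_le_sum_of_subset_of_nonneg
  · intro p hp
    rw [Finset.mem_product, Finset.mem_sdiff, Finset.mem_sdiff] at hp
    obtain ⟨⟨h1, h2⟩, h3, h4⟩ := hp
    simp only [okp, mem_filter, mem_univ, true_and]
    refine ⟨h2, h4, ?_, ?_⟩
    · intro hc; exact hO p.1 h1 (hc ▸ h3)
    · intro hc; exact hO (g p.1) (hg1 p.1 h1) (hc ▸ h3)
  · intro p _ _
    exact mul_nonneg (ww_nonneg y y' p) (JJ_nonneg _ _ _ _ _ _)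

/-- Claim B : the pairs of confined walks are dominated by the pair walk -/
lemma JJ_le_S (O1 O2 : Finset V) (hO : ∀ v ∈ O1, v ∉ O2) (hg1 : ∀ v ∈ O1, g v ∈ O1)
    (hg2 : ∀ v ∈ O2, g v ∈ O2) (n : ℕ) : ∀ (F : Finset V) (y y' : V),
    JJ G g d O1 O2 n F y y'
      ≤ S G g d n F y y' (fun _ a b => if G.Adj a b then 1 else 0) := by
  induction n with
  | zero =>
    intro F y y'
    rw [S_zero, JJ_zero]
  | succ n ih =>
    intro F y y'
    refine (JJ_succ_le O1 O2 hO hg1 hg2 n F y y').trans ?_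
    rw [S_succ]
    apply Finset.sum_le_sum
    intro p _
    exact mul_le_mul_of_nonneg_left (ih _ _ _) (ww_nonneg y y' p)

end Vale.Agent.Lib.P308
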