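import Vale.Agent.Lib.P308.UMain

namespace Vale.Agent.Lib.P308

open Finset

set_option linter.unusedSectionVars false
set_option linter.unusedVariables false

variable {V : Type*} [Fintype V] [DecidableEq V]

/-- Regular graphs whose second singular value is at most `d / 16384` : the near-perfect
matchings are at most `4 N ^ 3` times as many as the perfect matchings, uniformly in `d`. -/
theorem near_le_uniform (G : SimpleGraph V) [DecidableRel G.Adj] (d : ℕ) (hd : 0 < d)
    (hreg : G.IsRegularOfDegree d) (lam : ℝ) (hlam : 0 ≤ lam)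
    (hspec : ∀ x : V → ℝ, ∑ v, x v = 0 →
      ∑ v, ((G.adjMatrix ℝ).mulVec x v) ^ 2 ≤ lam ^ 2 * ∑ v, x v ^ 2)
    (hl : 16384 * lam ≤ d) :
    Set.ncard {M : G.Subgraph | M.IsMatching ∧ Set.ncard (M.verts)ᶜ = 2} ≤
      4 * Fintype.card V ^ 3 * Set.ncard {M : G.Subgraph | M.IsPerfectMatching} := by
  rcases isEmpty_or_nonempty V with hV | hV
  · have he : {M : G.Subgraph | M.IsMatching ∧ Set.ncard (M.verts)ᶜ = 2} = ∅ := by
      ext M
      simp only [Set.mem_ofPred_eq, Set.mem_empty_iff_false, iff_false, not_and]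
      intro _ h
      have h1 : (M.verts)ᶜ = ∅ := Set.eq_empty_of_isEmpty _
      rw [h1, Set.ncard_empty] at h
      exact absurd h (by norm_num)
    rw [he, Set.ncard_empty]
    exact Nat.zero_le _
  obtain ⟨u⟩ := hV
  have c : Ctx G id d lam := ⟨hreg, fun x => rfl, hd, hlam, hspec⟩
  have hlow := c.spec_lower u
  have hdN : d + 1 ≤ Fintype.card V := by
    have h1 := G.degree_lt_card_verts u
    rw [hreg.degree_eq] at h1
    omega
  have hd' : (0 : ℝ) < (d : ℝ) := by exact_mod_cast hd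
  have hdN' : (d : ℝ) + 1 ≤ (Fintype.card V : ℝ) := by exact_mod_cast hdN
  have hNpos : (0 : ℝ) < (Fintype.card V : ℝ) := by linarith
  have hlam' : lam ≤ (d : ℝ) / 16384 := by linarith
  have hlam2 : lam ^ 2 ≤ (d : ℝ) ^ 2 / 2 ^ 28 := by
    have h1 : lam ^ 2 ≤ ((d : ℝ) / 16384) ^ 2 := pow_le_pow_left₀ hlam hlam' 2
    have e : ((d : ℝ) / 16384) ^ 2 = (d : ℝ) ^ 2 / 2 ^ 28 := by
      rw [div_pow]; norm_num
    rw [e] at h1
    exact h1
  have hup : lam ^ 2 * ((Fintype.card V : ℝ) - 1)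
      ≤ (d : ℝ) ^ 2 / 2 ^ 28 * ((Fintype.card V : ℝ) - 1) :=
    mul_le_mul_of_nonneg_right hlam2 (by linarith)
  by_cases hcase : Fintype.card V < 2 * d
  · -- the dense case
    have hcase' : (Fintype.card V : ℝ) < 2 * (d : ℝ) := by exact_mod_cast hcase
    have hd4 : (4 : ℝ) ≤ (d : ℝ) := by
      by_contra hc
      have hc' : (d : ℝ) < 4 := not_le.1 hc
      have h1 : (d : ℝ) * 1 ≤ (d : ℝ) * ((Fintype.card V : ℝ) - d) :=
        mul_le_mul_of_nonneg_left (by linarith) hd'.le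
      have h2 : (d : ℝ) ^ 2 / 2 ^ 28 * ((Fintype.card V : ℝ) - 1) ≤ 16 / 2 ^ 28 * 8 := by
        apply mul_le_mul _ (by linarith) (by linarith) (by positivity)
        apply div_le_div_of_nonneg_right _ (by positivity)
        nlinarith
      have h3 : (1 : ℝ) ≤ (d : ℝ) := by
        have : 1 ≤ d := hd
        exact_mod_cast this
      norm_num at h2
      linarith
    have hdense : 3 * lam * (Fintype.card V : ℝ) < (d : ℝ) * ((d : ℝ) - 3) := by
      have h1 : 3 * lam * (Fintype.card V : ℝ) ≤ 3 * ((d : ℝ) / 16384) * (Fintype.card V : ℝ) :=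
        mul_le_mul_of_nonneg_right (by linarith) hNpos.le
      have h2 : 3 * ((d : ℝ) / 16384) * (Fintype.card V : ℝ)
          < 3 * ((d : ℝ) / 16384) * (2 * (d : ℝ)) :=
        mul_lt_mul_of_pos_left hcase' (by positivity)
      nlinarith
    have h := near_le_of_dense G d hreg lam hlam hspec hdense
    refine h.trans (Nat.mul_le_mul_right _ ?_)
    have h5 : 2 * d + 1 ≤ 2 * Fintype.card V := by omega
    calc Fintype.card V * (2 * d + 1) ^ 2
        ≤ Fintype.card V * (2 * Fintype.card V) ^ 2 :=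
          Nat.mul_le_mul_left _ (Nat.pow_le_pow_left h5 2)
      _ = 4 * Fintype.card V ^ 3 := by ring
  · -- the sparse case
    have hcase' : 2 * d ≤ Fintype.card V := not_lt.1 hcase
    have hcaseR : 2 * (d : ℝ) ≤ (Fintype.card V : ℝ) := by exact_mod_cast hcase'
    have hd27 : (2 : ℝ) ^ 27 ≤ (d : ℝ) := by
      by_contra hc
      have hc' : (d : ℝ) < 2 ^ 27 := not_le.1 hc
      have h1 : (d : ℝ) * ((Fintype.card V : ℝ) / 2) ≤ (d : ℝ) * ((Fintype.card V : ℝ) - d) :=
        mul_le_mul_of_nonneg_left (by linarith) hd'.le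
      have h2 : (d : ℝ) ^ 2 / 2 ^ 28 * ((Fintype.card V : ℝ) - 1)
          ≤ (d : ℝ) ^ 2 / 2 ^ 28 * (Fintype.card V : ℝ) :=
        mul_le_mul_of_nonneg_left (by linarith) (by positivity)
      have h3 : 0 < (d : ℝ) * (Fintype.card V : ℝ) * (2 ^ 27 - (d : ℝ)) :=
        mul_pos (mul_pos hd' hNpos) (by linarith)
      have e : (d : ℝ) * ((Fintype.card V : ℝ) / 2) - (d : ℝ) ^ 2 / 2 ^ 28 * (Fintype.card V : ℝ)
          = (d : ℝ) * (Fintype.card V : ℝ) * (2 ^ 27 - (d : ℝ)) / 2 ^ 28 := by ring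
      have h4 : 0 < (d : ℝ) * (Fintype.card V : ℝ) * (2 ^ 27 - (d : ℝ)) / 2 ^ 28 := by
        positivity
      linarith
    have hd27n : 2 ^ 27 ≤ d := by exact_mod_cast hd27
    have hN28 : 2 ^ 28 ≤ Fintype.card V := by
      have : 2 ^ 28 = 2 * 2 ^ 27 := by norm_num
      omega
    have hL1 : 2 ^ Nat.log 2 (Fintype.card V) ≤ Fintype.card V :=
      Nat.pow_log_le_self 2 (by omega)
    have hL2 : Fintype.card V < 2 ^ (Nat.log 2 (Fintype.card V) + 1) :=
      Nat.lt_pow_succ_log_self (by norm_num) _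
    have hL28 : 28 ≤ Nat.log 2 (Fintype.card V) := by
      have h1 := lt_of_le_of_lt hN28 hL2
      have h2 := (Nat.pow_lt_pow_iff_right (by norm_num : 1 < 2)).1 h1
      omega
    set L := Nat.log 2 (Fintype.card V) with hLdef
    have hε0 : 0 ≤ lam / (d : ℝ) := div_nonneg hlam hd'.le
    have hε : lam / (d : ℝ) ≤ 1 / 16384 := by
      rw [div_le_iff₀ hd']
      linarith
    have hε2 : (lam / (d : ℝ)) ^ 2 ≤ 1 / 2 ^ 28 := by
      have h1 := pow_le_pow_left₀ hε0 hε 2
      have e : (1 / 16384 : ℝ) ^ 2 = 1 / 2 ^ 28 := by norm_num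
      rw [e] at h1
      exact h1
    have hk : 1024 * 2 ^ (L / 26 + 1) * 8 ^ (L / 20 + 1) ≤ (Fintype.card V : ℝ) := by
      have e : 1024 * 2 ^ (L / 26 + 1) * 8 ^ (L / 20 + 1)
          = 2 ^ (10 + (L / 26 + 1) + 3 * (L / 20 + 1)) := by
        have e8 : (8 : ℕ) = 2 ^ 3 := by norm_num
        have e10 : (1024 : ℕ) = 2 ^ 10 := by norm_num
        rw [e8, e10, ← pow_mul, ← pow_add, ← pow_add]
      have h1 : 2 ^ (10 + (L / 26 + 1) + 3 * (L / 20 + 1)) ≤ 2 ^ L :=
        Nat.pow_le_pow_right (by norm_num) (by omega)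
      have h2 : 1024 * 2 ^ (L / 26 + 1) * 8 ^ (L / 20 + 1) ≤ Fintype.card V := by
        rw [e]; exact h1.trans hL1
      exact_mod_cast h2
    have hgen : ∀ (A : ℝ) (e k : ℕ), A * (lam / (d : ℝ)) ^ 2 ≤ 1 / 2 ^ e → L + 1 ≤ e * k →
        0 ≤ A → (Fintype.card V : ℝ) * (A * (lam / (d : ℝ)) ^ 2) ^ k ≤ 1 := by
      intro A e k hA hek hA0
      have hp : (A * (lam / (d : ℝ)) ^ 2) ^ k ≤ (1 / 2 ^ e : ℝ) ^ k :=
        pow_le_pow_left₀ (by positivity) hA k
      have e1 : (1 / 2 ^ e : ℝ) ^ k = 1 / 2 ^ (e * k) := by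
        rw [one_div_pow, ← pow_mul]
      have hN2 : (Fintype.card V : ℝ) ≤ 2 ^ (e * k) := by
        have h1 : Fintype.card V ≤ 2 ^ (e * k) :=
          le_of_lt (lt_of_lt_of_le hL2 (Nat.pow_le_pow_right (by norm_num) hek))
        exact_mod_cast h1
      calc (Fintype.card V : ℝ) * (A * (lam / (d : ℝ)) ^ 2) ^ k
          ≤ (Fintype.card V : ℝ) * (1 / 2 ^ (e * k)) := by
            rw [← e1]
            exact mul_le_mul_of_nonneg_left hp hNpos.le
        _ ≤ 1 := by
            rw [mul_one_div, div_le_one (by positivity)]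
            exact hN2
    have hk1 : (Fintype.card V : ℝ) * (4 * (lam / (d : ℝ)) ^ 2) ^ (L / 26 + 1) ≤ 1 := by
      apply hgen 4 26 (L / 26 + 1) _ (by omega) (by norm_num)
      have : (4 : ℝ) * (1 / 2 ^ 28) = 1 / 2 ^ 26 := by norm_num
      linarith
    have hm : (Fintype.card V : ℝ) * (256 * (lam / (d : ℝ)) ^ 2) ^ (L / 20 + 1) ≤ 1 := by
      apply hgen 256 20 (L / 20 + 1) _ (by omega) (by norm_num)
      have : (256 : ℝ) * (1 / 2 ^ 28) = 1 / 2 ^ 20 := by norm_num
      linarith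
    have hcount := caseA_count G d hd hreg lam hlam hspec (L / 26 + 1) (L / 20 + 1) (by omega)
      (by linarith) hk hk1 hm
    have hcst : 1 / (4 * (Fintype.card V : ℝ) ^ 2)
        ≤ (d : ℝ) / (4 * (Fintype.card V : ℝ))
          * ((1 / 8) ^ (L / 20 + 1) * (1 / 2) ^ (L / 26 + 1)) := by
      have h1 : (1 : ℝ) / (Fintype.card V : ℝ)
          ≤ (1 / 8) ^ (L / 20 + 1) * (1 / 2) ^ (L / 26 + 1) := by
        rw [one_div_pow, one_div_pow, one_div_mul_one_div]
        apply one_div_le_one_div_of_le (by positivity)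
        have h2 : (0 : ℝ) ≤ 2 ^ (L / 26 + 1) * 8 ^ (L / 20 + 1) := by positivity
        nlinarith
      have h3 : (1 : ℝ) / (4 * (Fintype.card V : ℝ)) ≤ (d : ℝ) / (4 * (Fintype.card V : ℝ)) := by
        apply div_le_div_of_nonneg_right _ (by positivity)
        have : 1 ≤ d := hd
        exact_mod_cast this
      have e : 1 / (4 * (Fintype.card V : ℝ) ^ 2)
          = 1 / (4 * (Fintype.card V : ℝ)) * (1 / (Fintype.card V : ℝ)) := by
        field_simp
      rw [e]
      exact mul_le_mul h3 h1 (by positivity) (by positivity)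
    have hnear : ((NearInv G).card : ℝ)
        ≤ 4 * (Fintype.card V : ℝ) ^ 3 * ((PMinv G).card : ℝ) := by
      have h1 : ((NearInv G).card : ℝ) * (1 / (4 * (Fintype.card V : ℝ) ^ 2))
          ≤ (Fintype.card V : ℝ) * ((PMinv G).card : ℝ) :=
        (mul_le_mul_of_nonneg_left hcst (by positivity)).trans hcount
      have h2 := mul_le_mul_of_nonneg_right h1
        (by positivity : (0 : ℝ) ≤ 4 * (Fintype.card V : ℝ) ^ 2)
      have e1 : ((NearInv G).card : ℝ) * (1 / (4 * (Fintype.card V : ℝ) ^ 2))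
          * (4 * (Fintype.card V : ℝ) ^ 2) = ((NearInv G).card : ℝ) := by
        field_simp
      rw [e1] at h2
      refine h2.trans (le_of_eq ?_)
      ring
    have hnearN : (NearInv G).card ≤ 4 * Fintype.card V ^ 3 * (PMinv G).card := by
      exact_mod_cast hnear
    calc Set.ncard {M : G.Subgraph | M.IsMatching ∧ Set.ncard (M.verts)ᶜ = 2}
        ≤ (NearInv G).card := ncard_near_le G
      _ ≤ 4 * Fintype.card V ^ 3 * (PMinv G).card := hnearN
      _ ≤ 4 * Fintype.card V ^ 3 * Set.ncard {M : G.Subgraph | M.IsPerfectMatching} :=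
          Nat.mul_le_mul_left _ (card_pmInv_le G)

end Vale.Agent.Lib.P308
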