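import Vale.Agent.Lib.P308.UAsm
import Vale.Agent.Lib.P308.Main

namespace Vale.Agent.Lib.P308

open Finset

set_option linter.unusedSectionVars false
set_option linter.unusedVariables false

variable {V : Type*} [Fintype V] [DecidableEq V]

lemma exists_side_aux (g : V → V) (hg : ∀ x, g (g x) = x) (k : ℕ) (hk : k ≤ Fintype.card V) :
    ∃ U : Finset V, (∀ v ∈ U, g v ∈ U) ∧ k ≤ U.card ∧ U.card ≤ k + 1 := by
  induction k with
  | zero => exact ⟨∅, by simp, by simp, by simp⟩
  | succ k ih =>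
    obtain ⟨U, h1, h2, h3⟩ := ih (by omega)
    by_cases hc : U.card = k + 1
    · exact ⟨U, h1, by omega, by omega⟩
    · have hUk : U.card = k := by omega
      have hlt : U.card < Fintype.card V := by omega
      obtain ⟨v, hv⟩ : ∃ v, v ∉ U := by
        by_contra hcon
        push Not at hcon
        have hU : U = univ := Finset.eq_univ_iff_forall.2 hcon
        rw [hU, Finset.card_univ] at hlt
        exact lt_irrefl _ hlt
      refine ⟨insert v (insert (g v) U), ?_, ?_, ?_⟩
      · intro w hw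
        simp only [mem_insert] at hw ⊢
        rcases hw with hw | hw | hw
        · right; left; rw [hw]
        · left; rw [hw, hg]
        · right; right; exact h1 w hw
      · have h4 : (insert v U).card ≤ (insert v (insert (g v) U)).card := by
          apply Finset.card_le_card
          intro w hw
          simp only [mem_insert] at hw ⊢
          tauto
        rw [Finset.card_insert_of_notMem hv] at h4
        omega
      · have a1 := Finset.card_insert_le v (insert (g v) U)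
        have a2 := Finset.card_insert_le (g v) U
        omega

lemma exists_side (g : V → V) (hg : ∀ x, g (g x) = x) (hN : 8 ≤ Fintype.card V) :
    ∃ U : Finset V, (∀ v ∈ U, g v ∈ U) ∧ Fintype.card V ≤ 4 * U.card
      ∧ 4 * U.card ≤ 3 * Fintype.card V := by
  obtain ⟨U, h1, h2, h3⟩ := exists_side_aux g hg ((Fintype.card V + 3) / 4) (by omega)
  exact ⟨U, h1, by omega, by omega⟩

lemma cls_inv {G : SimpleGraph V} {f : V → V} {u v : V} (hf : IsMat G f)
    (hh : holes f = {u, v}) (huv : u ≠ v) :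
    (∀ x, cls f u v (cls f u v x) = x) ∧ cls f u v u = v ∧ cls f u v v = u
      ∧ ∀ x, x ∉ ({u, v} : Finset V) → f x = cls f u v x := by
  have hp : f u = u := mem_holes.1 (by rw [hh]; simp)
  have hq : f v = v := mem_holes.1 (by rw [hh]; simp)
  have hother : ∀ z, z ≠ u → z ≠ v → f z ≠ u ∧ f z ≠ v := by
    intro z h1 h2
    refine ⟨?_, ?_⟩
    · intro hc
      have := hf.1 z; rw [hc, hp] at this; exact h1 this.symm
    · intro hc
      have := hf.1 z; rw [hc, hq] at this; exact h2 this.symm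
  have c1 : cls f u v u = v := by simp [cls]
  have c2 : cls f u v v = u := by simp [cls, huv.symm]
  have c3 : ∀ z, z ≠ u → z ≠ v → cls f u v z = f z := by
    intro z h1 h2; simp [cls, h1, h2]
  refine ⟨?_, c1, c2, ?_⟩
  · intro z
    by_cases h1 : z = u
    · subst h1; rw [c1, c2]
    by_cases h2 : z = v
    · subst h2; rw [c2, c1]
    obtain ⟨a2, a3⟩ := hother z h1 h2
    rw [c3 z h1 h2, c3 (f z) a2 a3, hf.1]
  · intro x hx
    simp only [mem_insert, mem_singleton, not_or] at hx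
    rw [c3 x hx.1 hx.2]

/-- the counting bound in the sparse case -/
theorem caseA_count (G : SimpleGraph V) [DecidableRel G.Adj] (d : ℕ) (hd : 0 < d)
    (hreg : G.IsRegularOfDegree d) (lam : ℝ) (hlam : 0 ≤ lam)
    (hspec : ∀ x : V → ℝ, ∑ v, x v = 0 →
      ∑ v, ((G.adjMatrix ℝ).mulVec x v) ^ 2 ≤ lam ^ 2 * ∑ v, x v ^ 2)
    (k₁ m : ℕ) (hN : 8 ≤ Fintype.card V) (hl : lam * 16384 ≤ d)
    (hk : 1024 * 2 ^ k₁ * 8 ^ m ≤ (Fintype.card V : ℝ))
    (hk1 : (Fintype.card V : ℝ) * (4 * (lam / d) ^ 2) ^ k₁ ≤ 1)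
    (hm : (Fintype.card V : ℝ) * (256 * (lam / d) ^ 2) ^ m ≤ 1) :
    ((NearInv G).card : ℝ)
        * ((d : ℝ) / (4 * (Fintype.card V : ℝ)) * ((1 / 8) ^ m * (1 / 2) ^ k₁))
      ≤ (Fintype.card V : ℝ) * ((PMinv G).card : ℝ) := by
  apply count_main d hd hreg (k₁ + m)
  intro s hs
  rw [mem_St] at hs
  obtain ⟨f, u, v⟩ := s
  obtain ⟨hf, hh, huv⟩ := hs
  simp only at hf hh huv
  obtain ⟨gi, gu, gv, gag⟩ := cls_inv hf hh huv
  have c : Ctx G (cls f u v) d lam := ⟨hreg, gi, hd, hlam, hspec⟩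
  obtain ⟨U, hU1, hU2, hU3⟩ := exists_side (cls f u v) gi hN
  have hPI : PInv G (cls f u v) f {u, v} u v := by
    refine ⟨hf, hh, huv, by simp, by simp, ?_, gag⟩
    intro x hx
    simp only [mem_insert, mem_singleton] at hx ⊢
    rcases hx with hx | hx
    · right; rw [hx, gu]
    · left; rw [hx, gv]
  have hcard : ({u, v} : Finset V).card ≤ 2 := Finset.card_le_two
  have hNpos : (0 : ℝ) < (Fintype.card V : ℝ) := by
    have : 0 < Fintype.card V := by omega
    exact_mod_cast this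
  have hpq : 3 / 16 ≤ ((U.card : ℝ) / (Fintype.card V : ℝ))
      * (((Uᶜ).card : ℝ) / (Fintype.card V : ℝ)) := by
    have e := Finset.card_add_card_compl U
    have e' : (U.card : ℝ) + ((Uᶜ).card : ℝ) = (Fintype.card V : ℝ) := by exact_mod_cast e
    have a1 : (Fintype.card V : ℝ) ≤ 4 * (U.card : ℝ) := by exact_mod_cast hU2
    have a2 : 4 * (U.card : ℝ) ≤ 3 * (Fintype.card V : ℝ) := by exact_mod_cast hU3
    rw [div_mul_div_comm, le_div_iff₀ (by positivity)]
    have a3 : ((Uᶜ).card : ℝ) = (Fintype.card V : ℝ) - (U.card : ℝ) := by linarith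
    rw [a3]
    nlinarith [mul_nonneg (sub_nonneg.2 a1) (sub_nonneg.2 a2)]
  have h1 := c.phase_all k₁ m {u, v} hcard u v U Uᶜ hpq hl hk hk1 hm
  have hO : ∀ x ∈ U, x ∉ Uᶜ := by
    intro x hx
    simp [hx]
  have hg2 : ∀ x ∈ Uᶜ, cls f u v x ∈ Uᶜ := by
    intro x hx
    rw [Finset.mem_compl] at hx ⊢
    intro hc
    have := hU1 _ hc
    rw [gi] at this
    exact hx this
  have h2 : S G (cls f u v) d k₁ {u, v} u v (fun F a b => JJ G (cls f u v) d U Uᶜ m F a b)
      ≤ S G (cls f u v) d k₁ {u, v} u v (fun F a b =>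
          S G (cls f u v) d m F a b (fun _ a b => if G.Adj a b then 1 else 0)) :=
    (S_plf k₁ {u, v} u v).mono (fun F a b => JJ_le_S U Uᶜ hO hU1 hg2 m F a b)
  have h3 := S_comp (G := G) (g := cls f u v) (d := d) k₁ m {u, v} u v
    (fun _ a b => if G.Adj a b then (1 : ℝ) else 0)
  have h4 := S_le_wc c (k₁ + m) f {u, v} u v hPI
  rw [h3] at h4
  exact (h1.trans h2).trans h4

lemma Ctx.spec_lower {G : SimpleGraph V} [DecidableRel G.Adj] {g : V → V} {d : ℕ} {lam : ℝ}
    (c : Ctx G g d lam) (u : V) :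
    (d : ℝ) * ((Fintype.card V : ℝ) - d) ≤ lam ^ 2 * ((Fintype.card V : ℝ) - 1) := by
  have hV : Nonempty V := ⟨u⟩
  have hN : (0 : ℝ) < (Fintype.card V : ℝ) := by exact_mod_cast Fintype.card_pos
  set x : V → ℝ := fun z => if z = u then 1 else 0 with hx
  have hs : ∑ z, x z = 1 := by simp [hx]
  have h0 : ∑ z, (x z - 1 / (Fintype.card V : ℝ)) = 0 := by
    rw [Finset.sum_sub_distrib, hs, Finset.sum_const, Finset.card_univ, nsmul_eq_mul]
    field_simp
    ring
  have hsp := c.spec (fun z => x z - 1 / (Fintype.card V : ℝ)) h0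
  have e1 : ∀ w, (G.adjMatrix ℝ).mulVec (fun z => x z - 1 / (Fintype.card V : ℝ)) w
      = (if G.Adj w u then (1 : ℝ) else 0) - d * (1 / (Fintype.card V : ℝ)) := by
    intro w
    rw [c.mulVec_sub_const]
    congr 1
    rw [Finset.sum_eq_single u]
    · simp [hx]
    · intro b _ hb; simp [hx, hb]
    · intro h; exact absurd (Finset.mem_univ u) h
  simp_rw [e1] at hsp
  have e2 : ∑ w, ((if G.Adj w u then (1 : ℝ) else 0) - d * (1 / (Fintype.card V : ℝ))) ^ 2
      = d * ((Fintype.card V : ℝ) - d) / (Fintype.card V : ℝ) := by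
    have h1 : ∀ w, ((if G.Adj w u then (1 : ℝ) else 0) - d * (1 / (Fintype.card V : ℝ))) ^ 2
        = (if G.Adj u w then (1 - 2 * (d * (1 / (Fintype.card V : ℝ)))) else 0)
          + (d * (1 / (Fintype.card V : ℝ))) ^ 2 := by
      intro w
      by_cases h : G.Adj w u
      · rw [if_pos h, if_pos h.symm]; ring
      · rw [if_neg h, if_neg (fun hc => h hc.symm)]; ring
    simp_rw [h1]
    rw [Finset.sum_add_distrib, c.sum_adj, Finset.sum_const, Finset.card_univ, nsmul_eq_mul]
    field_simp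
    ring
  have e3 : ∑ z, (x z - 1 / (Fintype.card V : ℝ)) ^ 2
      = ((Fintype.card V : ℝ) - 1) / (Fintype.card V : ℝ) := by
    have h1 := c.sum_sq_sub x
    rw [hs] at h1
    rw [h1]
    have h2 : ∑ z, x z ^ 2 = 1 := by simp [hx]
    rw [h2]
    field_simp
  rw [e2, e3, div_le_iff₀ hN] at hsp
  have e4 : lam ^ 2 * (((Fintype.card V : ℝ) - 1) / (Fintype.card V : ℝ)) * (Fintype.card V : ℝ)
      = lam ^ 2 * ((Fintype.card V : ℝ) - 1) := by field_simp
  rw [e4] at hsp
  exact hsp

end Vale.Agent.Lib.P308
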