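import Vale.Agent.Lib.P308.UProc

namespace Vale.Agent.Lib.P308

open Finset

set_option linter.unusedSectionVars false
set_option linter.unusedVariables false

variable {V : Type*} [Fintype V] [DecidableEq V]

/-- a single self-avoiding walk confined to the side `Om`, avoiding the blocked set `F` :
the weight of the walks of `n` rounds from `y` that end in `w` -/
noncomputable def pc (G : SimpleGraph V) [DecidableRel G.Adj] (g : V → V) (d : ℕ)
    (Om : Finset V) : ℕ → Finset V → V → V → ℝ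
  | 0, _, y, w => if y = w then 1 else 0
  | (n + 1), F, y, w => ∑ z ∈ Om \ F, pw1 G g d y z * pc G g d Om n (F ∪ {z, g z}) z w

/-- total weight of the confined self-avoiding walks of `n` rounds -/
noncomputable def ptot (G : SimpleGraph V) [DecidableRel G.Adj] (g : V → V) (d : ℕ)
    (Om : Finset V) (n : ℕ) (F : Finset V) (y : V) : ℝ := ∑ w, pc G g d Om n F y w

/-- the weight lost at the next round because of blocked vertices -/
noncomputable def XX (G : SimpleGraph V) [DecidableRel G.Adj] (g : V → V) (d : ℕ)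
    (Om : Finset V) : ℕ → Finset V → V → ℝ
  | 0, F, y => ∑ q ∈ F, pw1 G g d y q
  | (n + 1), F, y => ∑ z ∈ Om \ F, pw1 G g d y z * XX G g d Om n (F ∪ {z, g z}) z

/-- the chance to step into the side `Om` -/
noncomputable def sOm (G : SimpleGraph V) [DecidableRel G.Adj] (g : V → V) (d : ℕ)
    (Om : Finset V) (z : V) : ℝ := ∑ w ∈ Om, pw1 G g d z w

variable {G : SimpleGraph V} [DecidableRel G.Adj] {g : V → V} {d : ℕ} {lam : ℝ} {Om : Finset V}

lemma pc_zero (F : Finset V) (y w : V) : pc G g d Om 0 F y w = if y = w then 1 else 0 := rfl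

lemma pc_succ (n : ℕ) (F : Finset V) (y w : V) :
    pc G g d Om (n + 1) F y w
      = ∑ z ∈ Om \ F, pw1 G g d y z * pc G g d Om n (F ∪ {z, g z}) z w := rfl

lemma XX_zero (F : Finset V) (y : V) : XX G g d Om 0 F y = ∑ q ∈ F, pw1 G g d y q := rfl

lemma XX_succ (n : ℕ) (F : Finset V) (y : V) :
    XX G g d Om (n + 1) F y
      = ∑ z ∈ Om \ F, pw1 G g d y z * XX G g d Om n (F ∪ {z, g z}) z := rfl

lemma pc_nonneg (n : ℕ) (F : Finset V) (y w : V) : 0 ≤ pc G g d Om n F y w := by
  induction n generalizing F y with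
  | zero => rw [pc_zero]; split_ifs <;> norm_num
  | succ n ih =>
    rw [pc_succ]
    exact Finset.sum_nonneg (fun z _ => mul_nonneg (pw1_nonneg _ _) (ih _ _))

lemma ptot_nonneg (n : ℕ) (F : Finset V) (y : V) : 0 ≤ ptot G g d Om n F y :=
  Finset.sum_nonneg (fun w _ => pc_nonneg n F y w)

lemma XX_nonneg (n : ℕ) (F : Finset V) (y : V) : 0 ≤ XX G g d Om n F y := by
  induction n generalizing F y with
  | zero => rw [XX_zero]; exact Finset.sum_nonneg (fun q _ => pw1_nonneg _ _)
  | succ n ih =>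
    rw [XX_succ]
    exact Finset.sum_nonneg (fun z _ => mul_nonneg (pw1_nonneg _ _) (ih _ _))

lemma sOm_nonneg (z : V) : 0 ≤ sOm G g d Om z :=
  Finset.sum_nonneg (fun w _ => pw1_nonneg _ _)

lemma ptot_zero (F : Finset V) (y : V) : ptot G g d Om 0 F y = 1 := by
  unfold ptot
  simp only [pc_zero]
  rw [Finset.sum_eq_single y]
  · simp
  · intro b _ hb; simp [Ne.symm hb]
  · intro h; exact absurd (Finset.mem_univ y) h

lemma ptot_succ (n : ℕ) (F : Finset V) (y : V) :
    ptot G g d Om (n + 1) F y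
      = ∑ z ∈ Om \ F, pw1 G g d y z * ptot G g d Om n (F ∪ {z, g z}) z := by
  unfold ptot
  simp_rw [pc_succ]
  rw [Finset.sum_comm]
  apply Finset.sum_congr rfl
  intro z _
  rw [Finset.mul_sum]

/-- the confined walk is dominated by one more free round -/
lemma pc_step (n : ℕ) (F : Finset V) (y w : V) :
    pc G g d Om (n + 1) F y w ≤ ∑ z, pc G g d Om n F y z * pw1 G g d z w := by
  induction n generalizing F y with
  | zero =>
    rw [pc_succ]
    simp only [pc_zero]
    calc ∑ z ∈ Om \ F, pw1 G g d y z * (if z = w then (1 : ℝ) else 0)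
        ≤ ∑ z, pw1 G g d y z * (if z = w then (1 : ℝ) else 0) := by
          apply Finset.sum_le_sum_of_subset_of_nonneg (Finset.subset_univ _)
          intro z _ _
          exact mul_nonneg (pw1_nonneg _ _) (by split_ifs <;> norm_num)
      _ = pw1 G g d y w := by
          rw [Finset.sum_eq_single w]
          · simp
          · intro b' _ hb'; simp [hb']
          · intro h; exact absurd (Finset.mem_univ w) h
      _ = ∑ z, (if y = z then (1 : ℝ) else 0) * pw1 G g d z w := by
          rw [Finset.sum_eq_single y]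
          · simp
          · intro b' _ hb'; simp [Ne.symm hb']
          · intro h; exact absurd (Finset.mem_univ y) h
  | succ n ih =>
    rw [pc_succ]
    calc ∑ z₁ ∈ Om \ F, pw1 G g d y z₁ * pc G g d Om (n + 1) (F ∪ {z₁, g z₁}) z₁ w
        ≤ ∑ z₁ ∈ Om \ F, pw1 G g d y z₁
            * ∑ z, pc G g d Om n (F ∪ {z₁, g z₁}) z₁ z * pw1 G g d z w := by
          apply Finset.sum_le_sum
          intro z₁ _
          exact mul_le_mul_of_nonneg_left (ih _ _) (pw1_nonneg _ _)
      _ = ∑ z, pc G g d Om (n + 1) F y z * pw1 G g d z w := by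
          simp_rw [pc_succ (n := n) (F := F), Finset.mul_sum, Finset.sum_mul]
          rw [Finset.sum_comm]
          apply Finset.sum_congr rfl
          intro z _
          apply Finset.sum_congr rfl
          intro z₁ _
          ring

namespace Ctx

variable (c : Ctx G g d lam)
include c

lemma ptot_succ_le (n : ℕ) (F : Finset V) (y : V) :
    ptot G g d Om (n + 1) F y ≤ ptot G g d Om n F y := by
  unfold ptot
  calc ∑ w, pc G g d Om (n + 1) F y w
      ≤ ∑ w, ∑ z, pc G g d Om n F y z * pw1 G g d z w :=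
        Finset.sum_le_sum (fun w _ => pc_step n F y w)
    _ = ∑ z, pc G g d Om n F y z := by
        rw [Finset.sum_comm]
        apply Finset.sum_congr rfl
        intro z _
        rw [← Finset.mul_sum, c.pw1_row, mul_one]

lemma ptot_anti {i j : ℕ} (h : i ≤ j) (F : Finset V) (y : V) :
    ptot G g d Om j F y ≤ ptot G g d Om i F y := by
  induction j with
  | zero =>
    have : i = 0 := Nat.le_zero.1 h
    subst this
    exact le_refl _
  | succ j ih =>
    rcases Nat.lt_or_ge i (j + 1) with h1 | h1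
    · exact (c.ptot_succ_le j F y).trans (ih (Nat.lt_succ_iff.1 h1))
    · have : i = j + 1 := le_antisymm h h1
      subst this
      exact le_refl _

lemma ptot_le_one (n : ℕ) (F : Finset V) (y : V) : ptot G g d Om n F y ≤ 1 := by
  have := c.ptot_anti (Om := Om) (Nat.zero_le n) F y
  rwa [ptot_zero] at this

/-- L2 recursion of the confined walk -/
lemma pc_sq (n : ℕ) (F : Finset V) (y : V) :
    ∑ w, pc G g d Om (n + 1) F y w ^ 2
      ≤ (ptot G g d Om n F y) ^ 2 / (Fintype.card V : ℝ)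
        + (lam / d) ^ 2 * ∑ w, pc G g d Om n F y w ^ 2 := by
  have h1 := c.tnorm (fun z => pc G g d Om n F y z)
  refine le_trans ?_ h1
  apply Finset.sum_le_sum
  intro w _
  exact pow_le_pow_left₀ (pc_nonneg _ _ _ _) (pc_step n F y w) 2

/-- lower bound for the surviving weight -/
lemma ptot_lower (n : ℕ) (F : Finset V) (y : V) :
    ∑ z, pc G g d Om n F y z * sOm G g d Om z - XX G g d Om n F y
      ≤ ptot G g d Om (n + 1) F y := by
  induction n generalizing F y with
  | zero =>
    rw [ptot_succ, XX_zero]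
    simp only [pc_zero, ptot_zero, mul_one]
    have e1 : ∑ z, (if y = z then (1 : ℝ) else 0) * sOm G g d Om z = sOm G g d Om y := by
      rw [Finset.sum_eq_single y]
      · simp
      · intro b' _ hb'; simp [Ne.symm hb']
      · intro h; exact absurd (Finset.mem_univ y) h
    rw [e1]
    unfold sOm
    have e2 := Finset.sum_sdiff (f := fun z => pw1 G g d y z)
      (Finset.inter_subset_left : Om ∩ F ⊆ Om)
    rw [Finset.sdiff_inter_self_left] at e2
    have e3 : ∑ z ∈ Om ∩ F, pw1 G g d y z ≤ ∑ z ∈ F, pw1 G g d y z :=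
      Finset.sum_le_sum_of_subset_of_nonneg Finset.inter_subset_right
        (fun z _ _ => pw1_nonneg _ _)
    linarith
  | succ n ih =>
    rw [ptot_succ, XX_succ]
    have h1 : ∀ z₁ ∈ Om \ F, pw1 G g d y z₁
          * (∑ z, pc G g d Om n (F ∪ {z₁, g z₁}) z₁ z * sOm G g d Om z
              - XX G g d Om n (F ∪ {z₁, g z₁}) z₁)
        ≤ pw1 G g d y z₁ * ptot G g d Om (n + 1) (F ∪ {z₁, g z₁}) z₁ := by
      intro z₁ _
      exact mul_le_mul_of_nonneg_left (ih _ _) (pw1_nonneg _ _)
    refine le_trans (le_of_eq ?_) (Finset.sum_le_sum h1)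
    simp_rw [mul_sub]
    rw [Finset.sum_sub_distrib]
    congr 1
    simp_rw [pc_succ (n := n) (F := F), Finset.mul_sum, Finset.sum_mul]
    rw [Finset.sum_comm]
    apply Finset.sum_congr rfl
    intro z₁ _
    apply Finset.sum_congr rfl
    intro z _
    ring

lemma sum_pair_le (g' : V → V) (z : V) (f : V → ℝ) (B : ℝ) (h0 : ∀ x, 0 ≤ f x)
    (hB : ∀ x, f x ≤ B) : ∑ q ∈ ({z, g' z} : Finset V), f q ≤ 2 * B := by
  have hB0 : 0 ≤ B := (h0 z).trans (hB z)
  have h1 : ∑ q ∈ ({z, g' z} : Finset V), f q ≤ (({z, g' z} : Finset V)).card • B :=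
    Finset.sum_le_card_nsmul _ _ _ (fun x _ => hB x)
  have h2 : (({z, g' z} : Finset V)).card ≤ 2 := Finset.card_le_two
  rw [nsmul_eq_mul] at h1
  have h3 : ((({z, g' z} : Finset V)).card : ℝ) ≤ 2 := by exact_mod_cast h2
  nlinarith

/-- upper bound for the weight lost to blocked vertices -/
lemma XX_le (n : ℕ) (F : Finset V) (y : V) :
    XX G g d Om n F y ≤ ∑ q ∈ F, pw G g d (n + 1) y q
      + ∑ i ∈ range n, ptot G g d Om (i + 1) F y * (2 * c.bb (n - i)) := by
  induction n generalizing F y with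
  | zero =>
    rw [XX_zero]
    simp [pw_one]
  | succ n ih =>
    rw [XX_succ]
    have step : ∀ z ∈ Om \ F, pw1 G g d y z * XX G g d Om n (F ∪ {z, g z}) z
        ≤ pw1 G g d y z * (∑ q ∈ F, pw G g d (n + 1) z q)
          + pw1 G g d y z * (2 * c.bb (n + 1))
          + ∑ i ∈ range n, pw1 G g d y z * ptot G g d Om (i + 1) (F ∪ {z, g z}) z
              * (2 * c.bb (n - i)) := by
      intro z _
      have h1 := ih (F ∪ {z, g z}) z
      have h2 : ∑ q ∈ F ∪ {z, g z}, pw G g d (n + 1) z q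
          ≤ ∑ q ∈ F, pw G g d (n + 1) z q + 2 * c.bb (n + 1) := by
        refine (sum_union_le' _ _ _ (fun x => pw_nonneg _ _ _)).trans ?_
        have := c.sum_pair_le g z (fun q => pw G g d (n + 1) z q) (c.bb (n + 1))
          (fun x => pw_nonneg _ _ _) (fun x => c.pw_le_bb _ _ _)
        linarith
      have h3 := mul_le_mul_of_nonneg_left (h1.trans (add_le_add_left h2 _))
        (pw1_nonneg (G := G) (g := g) (d := d) y z)
      refine h3.trans (le_of_eq ?_)
      rw [mul_add, mul_add]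
      congr 1
      rw [Finset.mul_sum]
      apply Finset.sum_congr rfl
      intro i _
      ring
    refine (Finset.sum_le_sum step).trans ?_
    rw [sum_three (Om \ F) (range n) (fun z => pw1 G g d y z)
      (fun z => ∑ q ∈ F, pw G g d (n + 1) z q) (2 * c.bb (n + 1))
      (fun z i => ptot G g d Om (i + 1) (F ∪ {z, g z}) z)
      (fun i => 2 * c.bb (n - i))]
    have hA : ∑ z ∈ Om \ F, pw1 G g d y z * (∑ q ∈ F, pw G g d (n + 1) z q)
        ≤ ∑ q ∈ F, pw G g d (n + 1 + 1) y q := by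
      calc ∑ z ∈ Om \ F, pw1 G g d y z * (∑ q ∈ F, pw G g d (n + 1) z q)
          ≤ ∑ z, pw1 G g d y z * (∑ q ∈ F, pw G g d (n + 1) z q) := by
            apply Finset.sum_le_sum_of_subset_of_nonneg (Finset.subset_univ _)
            intro z _ _
            exact mul_nonneg (pw1_nonneg _ _)
              (Finset.sum_nonneg (fun q _ => pw_nonneg _ _ _))
        _ = ∑ q ∈ F, pw G g d (n + 1 + 1) y q := by
            simp_rw [Finset.mul_sum]
            rw [Finset.sum_comm]
            apply Finset.sum_congr rfl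
            intro q _
            rw [pw_succ (n + 1)]
    have hB : (∑ z ∈ Om \ F, pw1 G g d y z) = ptot G g d Om 1 F y := by
      rw [ptot_succ]
      apply Finset.sum_congr rfl
      intro z _
      rw [ptot_zero, mul_one]
    have hC : ∀ i ∈ range n, (∑ z ∈ Om \ F, pw1 G g d y z
          * ptot G g d Om (i + 1) (F ∪ {z, g z}) z) * (2 * c.bb (n - i))
        = ptot G g d Om (i + 1 + 1) F y * (2 * c.bb (n + 1 - (i + 1))) := by
      intro i hi
      rw [ptot_succ (i + 1)]
      have : n + 1 - (i + 1) = n - i := by omega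
      rw [this]
    rw [Finset.sum_congr rfl hC, hB]
    rw [Finset.sum_range_succ' (fun i => ptot G g d Om (i + 1) F y * (2 * c.bb (n + 1 - i)))]
    simp only [Nat.zero_add, Nat.sub_zero]
    linarith


/-- expander mixing for weight functions with small L2 norm -/
lemma junction (a b : V → ℝ) (ha : ∀ z, 0 ≤ a z) (hb : ∀ z, 0 ≤ b z) (K : ℝ) (hK : 0 ≤ K)
    (hA : (Fintype.card V : ℝ) * ∑ z, a z ^ 2 ≤ K * (∑ z, a z) ^ 2)
    (hB : (Fintype.card V : ℝ) * ∑ z, b z ^ 2 ≤ K * (∑ z, b z) ^ 2) :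
    ((d : ℝ) - lam * K) * ((∑ z, a z) * (∑ z, b z)) / (Fintype.card V : ℝ)
      ≤ ∑ z, ∑ z', a z * b z' * (if G.Adj z z' then (1 : ℝ) else 0) := by
  rcases isEmpty_or_nonempty V with hV | hV
  · simp
  have hN : (0 : ℝ) < (Fintype.card V : ℝ) := by exact_mod_cast Fintype.card_pos
  set SA : ℝ := ∑ z, a z with hSA
  set SB : ℝ := ∑ z, b z with hSB
  have hSA0 : 0 ≤ SA := Finset.sum_nonneg (fun z _ => ha z)
  have hSB0 : 0 ≤ SB := Finset.sum_nonneg (fun z _ => hb z)
  set m : ℝ := SB / (Fintype.card V : ℝ) with hm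
  have h0 : ∑ z, (b z - m) = 0 := by
    rw [Finset.sum_sub_distrib, Finset.sum_const, Finset.card_univ, nsmul_eq_mul, hm]
    field_simp
    ring
  have hsp := c.spec (fun z => b z - m) h0
  have hb0 : ∑ z, (b z - m) ^ 2 ≤ ∑ z, b z ^ 2 := by
    have := c.sum_sq_sub b
    rw [← hSB, ← hm] at this
    have h2 : 0 ≤ SB ^ 2 / (Fintype.card V : ℝ) := by positivity
    linarith
  set Y : V → ℝ := fun z => (G.adjMatrix ℝ).mulVec (fun z' => b z' - m) z with hY
  have key : ∀ z, ∑ z', a z * b z' * (if G.Adj z z' then (1 : ℝ) else 0)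
      = a z * Y z + a z * (d * m) := by
    intro z
    have h1 := c.mulVec_sub_const b m z
    have h2 : ∑ z', a z * b z' * (if G.Adj z z' then (1 : ℝ) else 0)
        = a z * ∑ z', (if G.Adj z z' then b z' else 0) := by
      rw [Finset.mul_sum]
      apply Finset.sum_congr rfl
      intro z' _
      split_ifs <;> ring
    rw [h2, hY]
    simp only
    rw [h1]
    ring
  simp_rw [key]
  rw [Finset.sum_add_distrib, ← Finset.sum_mul, ← hSA]
  set X : ℝ := ∑ z, a z * Y z with hX
  have hcs : X ^ 2 ≤ (∑ z, a z ^ 2) * (∑ z, Y z ^ 2) :=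
    Finset.sum_mul_sq_le_sq_mul_sq univ a Y
  have hY2 : ∑ z, Y z ^ 2 ≤ lam ^ 2 * ∑ z, b z ^ 2 :=
    hsp.trans (mul_le_mul_of_nonneg_left hb0 (sq_nonneg lam))
  have ha2 : 0 ≤ ∑ z, a z ^ 2 := Finset.sum_nonneg (fun z _ => sq_nonneg _)
  have hb2 : 0 ≤ ∑ z, b z ^ 2 := Finset.sum_nonneg (fun z _ => sq_nonneg _)
  have hbig : ((Fintype.card V : ℝ) * X) ^ 2 ≤ (lam * K * (SA * SB)) ^ 2 := by
    have h1 : ((Fintype.card V : ℝ) * X) ^ 2
        ≤ lam ^ 2 * (((Fintype.card V : ℝ) * ∑ z, a z ^ 2)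
          * ((Fintype.card V : ℝ) * ∑ z, b z ^ 2)) := by
      have h2 : X ^ 2 ≤ (∑ z, a z ^ 2) * (lam ^ 2 * ∑ z, b z ^ 2) :=
        hcs.trans (mul_le_mul_of_nonneg_left hY2 ha2)
      have h3 := mul_le_mul_of_nonneg_left h2 (sq_nonneg (Fintype.card V : ℝ))
      nlinarith
    have h4 : ((Fintype.card V : ℝ) * ∑ z, a z ^ 2) * ((Fintype.card V : ℝ) * ∑ z, b z ^ 2)
        ≤ (K * SA ^ 2) * (K * SB ^ 2) := by
      apply mul_le_mul hA hB (by positivity) (by positivity)
    have h5 := mul_le_mul_of_nonneg_left h4 (sq_nonneg lam)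
    calc ((Fintype.card V : ℝ) * X) ^ 2
        ≤ lam ^ 2 * (((Fintype.card V : ℝ) * ∑ z, a z ^ 2)
          * ((Fintype.card V : ℝ) * ∑ z, b z ^ 2)) := h1
      _ ≤ lam ^ 2 * ((K * SA ^ 2) * (K * SB ^ 2)) := h5
      _ = (lam * K * (SA * SB)) ^ 2 := by ring
  have hpos : 0 ≤ lam * K * (SA * SB) :=
    mul_nonneg (mul_nonneg c.lam0 hK) (mul_nonneg hSA0 hSB0)
  have habs := abs_le_of_sq_le_sq' hbig hpos
  have hX1 : -(lam * K * (SA * SB)) ≤ (Fintype.card V : ℝ) * X := habs.1
  rw [div_le_iff₀ hN]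
  have e : (X + SA * (d * m)) * (Fintype.card V : ℝ)
      = (Fintype.card V : ℝ) * X + d * (SA * SB) := by
    rw [hm]; field_simp
  rw [e]
  linarith

/-- L2 bound for the confined walk from a state whose survival weights decay regularly -/
lemma nice_sq (m : ℕ) (F : Finset V) (y : V)
    (hnice : ∀ j k, j + k = m →
      ptot G g d Om j F y ≤ 4 * 16 ^ k * ptot G g d Om m F y)
    (he : 17 * 256 * (lam / d) ^ 2 ≤ 1)
    (hm : (Fintype.card V : ℝ) * (256 * (lam / d) ^ 2) ^ m ≤ 1) :
    (Fintype.card V : ℝ) * ∑ w, pc G g d Om m F y w ^ 2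
      ≤ 4368 * (ptot G g d Om m F y) ^ 2 := by
  have : Nonempty V := ⟨y⟩
  have hN : (0 : ℝ) < (Fintype.card V : ℝ) := by exact_mod_cast Fintype.card_pos
  set P : ℝ := ptot G g d Om m F y with hP
  set ep : ℝ := lam / d with hep
  have hP0 : 0 ≤ P := ptot_nonneg _ _ _
  have inv : ∀ n k, n + k = m →
      (Fintype.card V : ℝ) * ∑ w, pc G g d Om n F y w ^ 2
        ≤ 17 * 256 ^ (k + 1) * P ^ 2 + (Fintype.card V : ℝ) * ep ^ (2 * n) := by
    intro n
    induction n with
    | zero =>
      intro k _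
      have h2 : ∑ w, pc G g d Om 0 F y w ^ 2 = 1 := by
        simp only [pc_zero]
        rw [Finset.sum_eq_single y]
        · simp
        · intro b _ hb; simp [Ne.symm hb]
        · intro h; exact absurd (Finset.mem_univ y) h
      rw [h2]
      simp only [Nat.mul_zero, pow_zero, mul_one]
      have : 0 ≤ 17 * (256 : ℝ) ^ (k + 1) * P ^ 2 := by positivity
      linarith
    | succ n ih =>
      intro k hk
      have hk' : n + (k + 1) = m := by omega
      have h1 := ih (k + 1) hk'
      have h2 := c.pc_sq (Om := Om) n F y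
      have h3 := hnice n (k + 1) hk'
      have h4 : (ptot G g d Om n F y) ^ 2 ≤ (4 * 16 ^ (k + 1) * P) ^ 2 :=
        pow_le_pow_left₀ (ptot_nonneg _ _ _) h3 2
      have h5 : (Fintype.card V : ℝ) * ∑ w, pc G g d Om (n + 1) F y w ^ 2
          ≤ (ptot G g d Om n F y) ^ 2
            + ep ^ 2 * ((Fintype.card V : ℝ) * ∑ w, pc G g d Om n F y w ^ 2) := by
        have := mul_le_mul_of_nonneg_left h2 hN.le
        rw [mul_add, mul_div_cancel₀ _ hN.ne'] at this
        linarith
      have h6 : ep ^ 2 * ((Fintype.card V : ℝ) * ∑ w, pc G g d Om n F y w ^ 2)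
          ≤ ep ^ 2 * (17 * 256 ^ (k + 1 + 1) * P ^ 2 + (Fintype.card V : ℝ) * ep ^ (2 * n)) :=
        mul_le_mul_of_nonneg_left h1 (sq_nonneg _)
      have e1 : (4 * (16 : ℝ) ^ (k + 1) * P) ^ 2 = 16 * 256 ^ (k + 1) * P ^ 2 := by
        have : (256 : ℝ) ^ (k + 1) = (16 ^ (k + 1)) ^ 2 := by
          rw [← pow_mul, mul_comm, pow_mul]; norm_num
        rw [this]; ring
      have e2 : ep ^ 2 * (17 * 256 ^ (k + 1 + 1) * P ^ 2 + (Fintype.card V : ℝ) * ep ^ (2 * n))
          = (17 * 256 * ep ^ 2) * (256 ^ (k + 1) * P ^ 2)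
            + (Fintype.card V : ℝ) * ep ^ (2 * (n + 1)) := by
        ring
      have h7 : (17 * 256 * ep ^ 2) * (256 ^ (k + 1) * P ^ 2) ≤ 1 * (256 ^ (k + 1) * P ^ 2) :=
        mul_le_mul_of_nonneg_right he (by positivity)
      rw [e1] at h4
      rw [e2] at h6
      linarith
  have hfin := inv m 0 (by omega)
  have h0 := hnice 0 m (by omega)
  rw [ptot_zero] at h0
  have h1 : (1 : ℝ) ≤ (4 * 16 ^ m * P) ^ 2 := by
    have := pow_le_pow_left₀ zero_le_one h0 2
    simpa using this
  have e1 : (4 * (16 : ℝ) ^ m * P) ^ 2 = 16 * 256 ^ m * P ^ 2 := by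
    have : (256 : ℝ) ^ m = (16 ^ m) ^ 2 := by
      rw [← pow_mul, mul_comm, pow_mul]; norm_num
    rw [this]; ring
  rw [e1] at h1
  have hep0 : 0 ≤ ep ^ (2 * m) := pow_nonneg c.ep_nonneg (2 * m)
  have h2 : (Fintype.card V : ℝ) * ep ^ (2 * m)
      ≤ (Fintype.card V : ℝ) * ep ^ (2 * m) * (16 * 256 ^ m * P ^ 2) := by
    have : 0 ≤ (Fintype.card V : ℝ) * ep ^ (2 * m) := mul_nonneg hN.le hep0
    nlinarith
  have e3 : (Fintype.card V : ℝ) * ep ^ (2 * m) * (16 * 256 ^ m * P ^ 2)
      = 16 * P ^ 2 * ((Fintype.card V : ℝ) * (256 * ep ^ 2) ^ m) := by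
    rw [mul_pow, ← pow_mul]; ring
  have h3 : 16 * P ^ 2 * ((Fintype.card V : ℝ) * (256 * ep ^ 2) ^ m) ≤ 16 * P ^ 2 * 1 :=
    mul_le_mul_of_nonneg_left hm (by positivity)
  norm_num at hfin
  linarith

end Ctx

end Vale.Agent.Lib.P308
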