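import Vale.Agent.Lib.P308.Count
import Vale.Agent.Lib.P308.USingle

namespace Vale.Agent.Lib.P308

open Finset

set_option linter.unusedSectionVars false
set_option linter.unusedVariables false

variable {V : Type*} [Fintype V] [DecidableEq V]

/-- labeled states : a matching (as an involution) together with its two uncovered vertices -/
def IsSt (G : SimpleGraph V) (s : (V → V) × V × V) : Prop :=
  IsMat G s.1 ∧ holes s.1 = {s.2.1, s.2.2} ∧ s.2.1 ≠ s.2.2

open Classical in
/-- the finite set of labeled states -/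
noncomputable def St (G : SimpleGraph V) : Finset ((V → V) × V × V) :=
  univ.filter (fun s => IsSt G s)

lemma mem_St {G : SimpleGraph V} {s : (V → V) × V × V} : s ∈ St G ↔ IsSt G s := by
  classical
  simp [St]

/-- move the first hole through its neighbour `x` -/
def T1 (s : (V → V) × V × V) (x : V) : (V → V) × V × V := (mv s.1 s.2.1 x, s.1 x, s.2.2)

/-- move the second hole through its neighbour `x` -/
def T2 (s : (V → V) × V × V) (x : V) : (V → V) × V × V := (mv s.1 s.2.2 x, s.2.1, s.1 x)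

lemma mv_round {G : SimpleGraph V} {f : V → V} {a b x : V} (hf : IsMat G f)
    (hh : holes f = {a, b}) (hab : a ≠ b) (hax : G.Adj a x) (hxb : x ≠ b) :
    IsMat G (mv f a x) ∧ holes (mv f a x) = {f x, b} ∧ f x ≠ b ∧ G.Adj (f x) x
      ∧ mv (mv f a x) (f x) x = f ∧ mv f a x x = a := by
  have ha : f a = a := mem_holes.1 (by rw [hh]; simp)
  have hb : f b = b := mem_holes.1 (by rw [hh]; simp)
  have hxa : x ≠ a := hax.ne'
  have hx : f x ≠ x := by
    intro h
    have h1 : x ∈ holes f := mem_holes.2 h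
    rw [hh] at h1
    simp only [mem_insert, mem_singleton] at h1
    rcases h1 with h1 | h1
    · exact hxa h1
    · exact hxb h1
  have hfxb : f x ≠ b := by
    intro h
    have h1 := hf.1 x
    rw [h, hb] at h1
    exact hxb h1.symm
  refine ⟨mv_isMat hf ha hax hx, ?_, hfxb, (hf.2 x hx).symm, mv_mv hf ha hax hx, mv_pivot hxa⟩
  rw [holes_mv hf ha hax hx, hh]
  have e : ({a, b} : Finset V).erase a = {b} := by
    ext z
    simp only [mem_erase, mem_insert, mem_singleton]
    constructor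
    · rintro ⟨h1, h2 | h2⟩
      · exact absurd h2 h1
      · exact h2
    · intro h
      subst h
      exact ⟨fun h => hab h.symm, Or.inr rfl⟩
  rw [e]

lemma T1_st {G : SimpleGraph V} {s : (V → V) × V × V} {x : V} (hs : IsSt G s)
    (hax : G.Adj s.2.1 x) (hxb : x ≠ s.2.2) :
    IsSt G (T1 s x) ∧ G.Adj (T1 s x).2.1 x ∧ x ≠ (T1 s x).2.2 ∧ T1 (T1 s x) x = s := by
  obtain ⟨f, a, b⟩ := s
  obtain ⟨hf, hh, hab⟩ := hs
  obtain ⟨h1, h2, h3, h4, h5, h6⟩ := mv_round hf hh hab hax hxb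
  refine ⟨⟨h1, h2, h3⟩, h4, hxb, ?_⟩
  simp only [T1]
  rw [h5, h6]

lemma T2_st {G : SimpleGraph V} {s : (V → V) × V × V} {x : V} (hs : IsSt G s)
    (hbx : G.Adj s.2.2 x) (hxa : x ≠ s.2.1) :
    IsSt G (T2 s x) ∧ G.Adj (T2 s x).2.2 x ∧ x ≠ (T2 s x).2.1 ∧ T2 (T2 s x) x = s := by
  obtain ⟨f, a, b⟩ := s
  obtain ⟨hf, hh, hab⟩ := hs
  have hh' : holes f = {b, a} := by rw [hh, Finset.pair_comm]
  obtain ⟨h1, h2, h3, h4, h5, h6⟩ := mv_round hf hh' (Ne.symm hab) hbx hxa
  refine ⟨⟨h1, ?_, Ne.symm h3⟩, h4, hxa, ?_⟩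
  · simp only [T2]
    rw [h2, Finset.pair_comm]
  · simp only [T2]
    rw [h5, h6]

section counting

variable {G : SimpleGraph V} [DecidableRel G.Adj]

/-- one normalized move of the first hole -/
noncomputable def half1 (G : SimpleGraph V) [DecidableRel G.Adj] (d : ℕ)
    (Φ : (V → V) × V × V → ℝ) (s : (V → V) × V × V) : ℝ :=
  (1 / (d : ℝ)) * ∑ x, (if G.Adj s.2.1 x ∧ x ≠ s.2.2 then Φ (T1 s x) else 0)

/-- one normalized move of the second hole -/
noncomputable def half2 (G : SimpleGraph V) [DecidableRel G.Adj] (d : ℕ)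
    (Φ : (V → V) × V × V → ℝ) (s : (V → V) × V × V) : ℝ :=
  (1 / (d : ℝ)) * ∑ x, (if G.Adj s.2.2 x ∧ x ≠ s.2.1 then Φ (T2 s x) else 0)

/-- normalized number of sequences of `n` rounds of hole moves that end with adjacent holes -/
noncomputable def wc (G : SimpleGraph V) [DecidableRel G.Adj] (d : ℕ) :
    ℕ → (V → V) × V × V → ℝ
  | 0, s => if G.Adj s.2.1 s.2.2 then 1 else 0
  | (n + 1), s => half1 G d (half2 G d (wc G d n)) s

lemma half1_nonneg (d : ℕ) (Φ : (V → V) × V × V → ℝ) (hΦ : ∀ s, 0 ≤ Φ s)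
    (s : (V → V) × V × V) : 0 ≤ half1 G d Φ s := by
  unfold half1
  apply mul_nonneg (by positivity)
  apply Finset.sum_nonneg
  intro x _
  split_ifs
  · exact hΦ _
  · exact le_refl _

lemma half2_nonneg (d : ℕ) (Φ : (V → V) × V × V → ℝ) (hΦ : ∀ s, 0 ≤ Φ s)
    (s : (V → V) × V × V) : 0 ≤ half2 G d Φ s := by
  unfold half2
  apply mul_nonneg (by positivity)
  apply Finset.sum_nonneg
  intro x _
  split_ifs
  · exact hΦ _
  · exact le_refl _

lemma wc_nonneg (d : ℕ) (n : ℕ) : ∀ s : (V → V) × V × V, 0 ≤ wc G d n s := by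
  induction n with
  | zero =>
    intro s
    unfold wc
    split_ifs <;> norm_num
  | succ n ih =>
    intro s
    unfold wc
    exact half1_nonneg d _ (fun s => half2_nonneg d _ ih s) s

lemma sum_half1 (d : ℕ) (hd : 0 < d) (hreg : G.IsRegularOfDegree d)
    (Φ : (V → V) × V × V → ℝ) (hΦ : ∀ s, 0 ≤ Φ s) :
    ∑ s ∈ St G, half1 G d Φ s ≤ ∑ s ∈ St G, Φ s := by
  classical
  have hd' : (0 : ℝ) < (d : ℝ) := by exact_mod_cast hd
  unfold half1
  rw [← Finset.mul_sum, Finset.sum_comm]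
  have h1 : ∀ x, ∑ s ∈ St G, (if G.Adj s.2.1 x ∧ x ≠ s.2.2 then Φ (T1 s x) else 0)
      = ∑ s ∈ St G, (if G.Adj s.2.1 x ∧ x ≠ s.2.2 then Φ s else 0) := by
    intro x
    rw [← Finset.sum_filter, ← Finset.sum_filter]
    refine Finset.sum_bij' (fun s _ => T1 s x) (fun s _ => T1 s x) ?_ ?_ ?_ ?_ ?_
    · intro s hs
      rw [mem_filter, mem_St] at hs ⊢
      obtain ⟨k1, k2, k3, k4⟩ := T1_st hs.1 hs.2.1 hs.2.2
      exact ⟨k1, k2, k3⟩
    · intro s hs
      rw [mem_filter, mem_St] at hs ⊢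
      obtain ⟨k1, k2, k3, k4⟩ := T1_st hs.1 hs.2.1 hs.2.2
      exact ⟨k1, k2, k3⟩
    · intro s hs
      rw [mem_filter, mem_St] at hs
      exact (T1_st hs.1 hs.2.1 hs.2.2).2.2.2
    · intro s hs
      rw [mem_filter, mem_St] at hs
      exact (T1_st hs.1 hs.2.1 hs.2.2).2.2.2
    · intro s hs
      rfl
  rw [Finset.sum_congr rfl (fun x _ => h1 x), Finset.sum_comm]
  have h2 : ∀ s ∈ St G, ∑ x, (if G.Adj s.2.1 x ∧ x ≠ s.2.2 then Φ s else 0) ≤ d * Φ s := by
    intro s _
    calc ∑ x, (if G.Adj s.2.1 x ∧ x ≠ s.2.2 then Φ s else 0)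
        ≤ ∑ x, (if G.Adj s.2.1 x then Φ s else 0) := by
          apply Finset.sum_le_sum
          intro x _
          by_cases h : G.Adj s.2.1 x ∧ x ≠ s.2.2
          · rw [if_pos h, if_pos h.1]
          · rw [if_neg h]
            split_ifs
            · exact hΦ s
            · exact le_refl _
      _ = d * Φ s := by
          rw [← Finset.sum_filter, Finset.sum_const, ← SimpleGraph.neighborFinset_eq_filter,
            SimpleGraph.card_neighborFinset_eq_degree, hreg.degree_eq]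
          simp
  have h3 := Finset.sum_le_sum h2
  rw [← Finset.mul_sum] at h3
  have h4 := mul_le_mul_of_nonneg_left h3 (by positivity : (0 : ℝ) ≤ 1 / (d : ℝ))
  refine h4.trans (le_of_eq ?_)
  field_simp

lemma sum_half2 (d : ℕ) (hd : 0 < d) (hreg : G.IsRegularOfDegree d)
    (Φ : (V → V) × V × V → ℝ) (hΦ : ∀ s, 0 ≤ Φ s) :
    ∑ s ∈ St G, half2 G d Φ s ≤ ∑ s ∈ St G, Φ s := by
  classical
  have hd' : (0 : ℝ) < (d : ℝ) := by exact_mod_cast hd
  unfold half2
  rw [← Finset.mul_sum, Finset.sum_comm]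
  have h1 : ∀ x, ∑ s ∈ St G, (if G.Adj s.2.2 x ∧ x ≠ s.2.1 then Φ (T2 s x) else 0)
      = ∑ s ∈ St G, (if G.Adj s.2.2 x ∧ x ≠ s.2.1 then Φ s else 0) := by
    intro x
    rw [← Finset.sum_filter, ← Finset.sum_filter]
    refine Finset.sum_bij' (fun s _ => T2 s x) (fun s _ => T2 s x) ?_ ?_ ?_ ?_ ?_
    · intro s hs
      rw [mem_filter, mem_St] at hs ⊢
      obtain ⟨k1, k2, k3, k4⟩ := T2_st hs.1 hs.2.1 hs.2.2
      exact ⟨k1, k2, k3⟩
    · intro s hs
      rw [mem_filter, mem_St] at hs ⊢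
      obtain ⟨k1, k2, k3, k4⟩ := T2_st hs.1 hs.2.1 hs.2.2
      exact ⟨k1, k2, k3⟩
    · intro s hs
      rw [mem_filter, mem_St] at hs
      exact (T2_st hs.1 hs.2.1 hs.2.2).2.2.2
    · intro s hs
      rw [mem_filter, mem_St] at hs
      exact (T2_st hs.1 hs.2.1 hs.2.2).2.2.2
    · intro s hs
      rfl
  rw [Finset.sum_congr rfl (fun x _ => h1 x), Finset.sum_comm]
  have h2 : ∀ s ∈ St G, ∑ x, (if G.Adj s.2.2 x ∧ x ≠ s.2.1 then Φ s else 0) ≤ d * Φ s := by
    intro s _
    calc ∑ x, (if G.Adj s.2.2 x ∧ x ≠ s.2.1 then Φ s else 0)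
        ≤ ∑ x, (if G.Adj s.2.2 x then Φ s else 0) := by
          apply Finset.sum_le_sum
          intro x _
          by_cases h : G.Adj s.2.2 x ∧ x ≠ s.2.1
          · rw [if_pos h, if_pos h.1]
          · rw [if_neg h]
            split_ifs
            · exact hΦ s
            · exact le_refl _
      _ = d * Φ s := by
          rw [← Finset.sum_filter, Finset.sum_const, ← SimpleGraph.neighborFinset_eq_filter,
            SimpleGraph.card_neighborFinset_eq_degree, hreg.degree_eq]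
          simp
  have h3 := Finset.sum_le_sum h2
  rw [← Finset.mul_sum] at h3
  have h4 := mul_le_mul_of_nonneg_left h3 (by positivity : (0 : ℝ) ≤ 1 / (d : ℝ))
  refine h4.trans (le_of_eq ?_)
  field_simp

lemma W_succ_le (d : ℕ) (hd : 0 < d) (hreg : G.IsRegularOfDegree d) (n : ℕ) :
    ∑ s ∈ St G, wc G d (n + 1) s ≤ ∑ s ∈ St G, wc G d n s := by
  have h1 := sum_half1 d hd hreg (half2 G d (wc G d n))
    (fun s => half2_nonneg d _ (wc_nonneg d n) s)
  have h2 := sum_half2 d hd hreg (wc G d n) (wc_nonneg d n)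
  exact h1.trans h2

lemma W_le_zero (d : ℕ) (hd : 0 < d) (hreg : G.IsRegularOfDegree d) (n : ℕ) :
    ∑ s ∈ St G, wc G d n s ≤ ∑ s ∈ St G, wc G d 0 s := by
  induction n with
  | zero => exact le_refl _
  | succ n ih => exact (W_succ_le d hd hreg n).trans ih

lemma W_zero_le (d : ℕ) :
    ∑ s ∈ St G, wc G d 0 s ≤ (Fintype.card V : ℝ) * ((PMinv G).card : ℝ) := by
  classical
  have e : ∑ s ∈ St G, wc G d 0 s
      = (((St G).filter (fun s => G.Adj s.2.1 s.2.2)).card : ℝ) := by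
    rw [Finset.card_filter]
    push_cast
    apply Finset.sum_congr rfl
    intro s _
    unfold wc
    rfl
  rw [e]
  have h1 : ((St G).filter (fun s => G.Adj s.2.1 s.2.2)).card
      ≤ ((PMinv G) ×ˢ (univ : Finset V)).card := by
    apply Finset.card_le_card_of_injOn (fun s => (cls s.1 s.2.1 s.2.2, s.2.1))
    · intro s hs
      rw [Finset.mem_coe, mem_filter, mem_St] at hs
      obtain ⟨⟨hf, hh, hab⟩, hadj⟩ := hs
      obtain ⟨k1, k2, k3⟩ := cls_isMat hf hh hadj
      simp only [Finset.coe_product, Set.mem_prod, Finset.mem_coe, mem_univ, and_true, PMinv,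
        mem_filter, true_and]
      exact ⟨k1, k2⟩
    · intro s hs s' hs' heq
      rw [Finset.mem_coe, mem_filter, mem_St] at hs hs'
      obtain ⟨⟨hf, hh, hab⟩, hadj⟩ := hs
      obtain ⟨⟨hf', hh', hab'⟩, hadj'⟩ := hs'
      obtain ⟨k1, k2, k3⟩ := cls_isMat hf hh hadj
      obtain ⟨k1', k2', k3'⟩ := cls_isMat hf' hh' hadj'
      simp only [Prod.mk.injEq] at heq
      obtain ⟨e1, e2⟩ := heq
      have ef : s.1 = s'.1 := by rw [← k3, ← k3', e1, e2]
      have eb : s.2.2 = s'.2.2 := by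
        have c1 : cls s.1 s.2.1 s.2.2 s.2.1 = s.2.2 := by simp [cls]
        have c2 : cls s'.1 s'.2.1 s'.2.2 s'.2.1 = s'.2.2 := by simp [cls]
        rw [← c1, ← c2, e1, e2]
      exact Prod.ext ef (Prod.ext e2 eb)
  have h2 : (((St G).filter (fun s => G.Adj s.2.1 s.2.2)).card : ℝ)
      ≤ (((PMinv G) ×ˢ (univ : Finset V)).card : ℝ) := by exact_mod_cast h1
  refine h2.trans (le_of_eq ?_)
  rw [Finset.card_product, Finset.card_univ]
  push_cast
  ring

lemma card_nearInv_le_St (G : SimpleGraph V) : (NearInv G).card ≤ (St G).card := by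
  classical
  apply Finset.card_le_card_of_surjOn (fun s => s.1)
  intro f hf
  simp only [NearInv, Finset.coe_filter, mem_univ, true_and, Set.mem_ofPred_eq] at hf
  obtain ⟨u, v, huv, hh⟩ := Finset.card_eq_two.1 hf.2
  refine ⟨(f, u, v), ?_, rfl⟩
  rw [Finset.mem_coe, mem_St]
  exact ⟨hf.1, hh, huv⟩

/-- the double counting : a uniform lower bound for the normalized number of move sequences
bounds the number of near-perfect matchings -/
theorem count_main (d : ℕ) (hd : 0 < d) (hreg : G.IsRegularOfDegree d) (n : ℕ) (cst : ℝ)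
    (hc : ∀ s ∈ St G, cst ≤ wc G d n s) :
    ((NearInv G).card : ℝ) * cst ≤ (Fintype.card V : ℝ) * ((PMinv G).card : ℝ) := by
  have h1 : ((St G).card : ℝ) * cst ≤ ∑ s ∈ St G, wc G d n s := by
    have := Finset.sum_le_sum hc
    rw [Finset.sum_const, nsmul_eq_mul] at this
    exact this
  have h2 := (h1.trans (W_le_zero d hd hreg n)).trans (W_zero_le d)
  by_cases h0 : 0 ≤ cst
  · have h3 : ((NearInv G).card : ℝ) ≤ ((St G).card : ℝ) := by
      exact_mod_cast card_nearInv_le_St G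
    exact (mul_le_mul_of_nonneg_right h3 h0).trans h2
  · have h3 : ((NearInv G).card : ℝ) * cst ≤ 0 :=
      mul_nonpos_of_nonneg_of_nonpos (by positivity) (le_of_lt (not_le.1 h0))
    exact h3.trans (by positivity)

end counting

end Vale.Agent.Lib.P308
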