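import Vale.Agent.Lib.P308.UWalk

namespace Vale.Agent.Lib.P308

open Finset

set_option linter.unusedSectionVars false
set_option linter.unusedVariables false

variable {V : Type*} [Fintype V] [DecidableEq V]

/-- the vertices blocked by a pair of positions -/
def blk (g : V → V) (p : V × V) : Finset V := {p.1, g p.1, p.2, g p.2}

/-- admissible next pairs of positions -/
def okp (g : V → V) (F : Finset V) : Finset (V × V) :=
  univ.filter (fun p => p.1 ∉ F ∧ p.2 ∉ F ∧ p.2 ≠ p.1 ∧ p.2 ≠ g p.1)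

/-- expectation over `n` rounds of the synchronized pair of self-avoiding walks; the set `F`
collects the blocked vertices -/
noncomputable def S (G : SimpleGraph V) [DecidableRel G.Adj] (g : V → V) (d : ℕ) :
    ℕ → Finset V → V → V → (Finset V → V → V → ℝ) → ℝ
  | 0, F, y, y', φ => φ F y y'
  | (n + 1), F, y, y', φ =>
      ∑ p ∈ okp g F, pw1 G g d y p.1 * pw1 G g d y' p.2 * S G g d n (F ∪ blk g p) p.1 p.2 φ

/-- positive linear functionals on functions of the state -/
structure PLF (E : (Finset V → V → V → ℝ) → ℝ) : Prop where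
  mono : ∀ {φ ψ : Finset V → V → V → ℝ}, (∀ F a b, φ F a b ≤ ψ F a b) → E φ ≤ E ψ
  add : ∀ φ ψ : Finset V → V → V → ℝ, E (fun F a b => φ F a b + ψ F a b) = E φ + E ψ
  smul : ∀ (r : ℝ) (φ : Finset V → V → V → ℝ), E (fun F a b => r * φ F a b) = r * E φ

namespace PLF

variable {E : (Finset V → V → V → ℝ) → ℝ} (hE : PLF E)
include hE

lemma zero : E (fun _ _ _ => 0) = 0 := by
  have h := hE.smul 0 (fun _ _ _ => 0)
  simp only [zero_mul] at h
  exact h

lemma nonneg {φ : Finset V → V → V → ℝ} (h : ∀ F a b, 0 ≤ φ F a b) : 0 ≤ E φ := by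
  have := hE.mono (φ := fun _ _ _ => 0) (ψ := φ) h
  rwa [hE.zero] at this

lemma smul_right (r : ℝ) (φ : Finset V → V → V → ℝ) :
    E (fun F a b => φ F a b * r) = E φ * r := by
  have h := hE.smul r φ
  have e : (fun F a b => φ F a b * r) = (fun F a b => r * φ F a b) := by
    funext F a b; ring
  rw [e, h]; ring

lemma sub (φ ψ : Finset V → V → V → ℝ) :
    E (fun F a b => φ F a b - ψ F a b) = E φ - E ψ := by
  have h := hE.add φ (fun F a b => (-1) * ψ F a b)
  have e : (fun F a b => φ F a b - ψ F a b) = (fun F a b => φ F a b + (-1) * ψ F a b) := by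
    funext F a b; ring
  rw [e, h, hE.smul]; ring

lemma sum {ι : Type*} (s : Finset ι) (φ : ι → Finset V → V → V → ℝ) :
    E (fun F a b => ∑ i ∈ s, φ i F a b) = ∑ i ∈ s, E (φ i) := by
  classical
  induction s using Finset.induction_on with
  | empty => simp only [Finset.sum_empty]; exact hE.zero
  | insert i s hi ih =>
    have e : (fun F a b => ∑ j ∈ insert i s, φ j F a b)
        = (fun F a b => φ i F a b + ∑ j ∈ s, φ j F a b) := by
      funext F a b; rw [Finset.sum_insert hi]
    rw [e, hE.add, ih, Finset.sum_insert hi]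

end PLF

variable {G : SimpleGraph V} [DecidableRel G.Adj] {g : V → V} {d : ℕ} {lam : ℝ}

lemma S_zero (F : Finset V) (y y' : V) (φ : Finset V → V → V → ℝ) :
    S G g d 0 F y y' φ = φ F y y' := rfl

lemma S_succ (n : ℕ) (F : Finset V) (y y' : V) (φ : Finset V → V → V → ℝ) :
    S G g d (n + 1) F y y' φ = ∑ p ∈ okp g F,
      pw1 G g d y p.1 * pw1 G g d y' p.2 * S G g d n (F ∪ blk g p) p.1 p.2 φ := rfl

lemma ww_nonneg (y y' : V) (p : V × V) : 0 ≤ pw1 G g d y p.1 * pw1 G g d y' p.2 :=
  mul_nonneg (pw1_nonneg _ _) (pw1_nonneg _ _)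

lemma S_plf (n : ℕ) (F : Finset V) (y y' : V) : PLF (S G g d n F y y') := by
  induction n generalizing F y y' with
  | zero =>
    exact ⟨fun h => h F y y', fun φ ψ => rfl, fun r φ => rfl⟩
  | succ n ih =>
    refine ⟨?_, ?_, ?_⟩
    · intro φ ψ h
      rw [S_succ, S_succ]
      apply Finset.sum_le_sum
      intro p _
      exact mul_le_mul_of_nonneg_left ((ih _ _ _).mono h) (ww_nonneg y y' p)
    · intro φ ψ
      rw [S_succ, S_succ, S_succ, ← Finset.sum_add_distrib]
      apply Finset.sum_congr rfl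
      intro p _
      rw [(ih _ _ _).add]; ring
    · intro r φ
      rw [S_succ, S_succ, Finset.mul_sum]
      apply Finset.sum_congr rfl
      intro p _
      rw [(ih _ _ _).smul]; ring

lemma S_comp (a b : ℕ) (F : Finset V) (y y' : V) (φ : Finset V → V → V → ℝ) :
    S G g d (a + b) F y y' φ
      = S G g d a F y y' (fun F₁ y₁ y₁' => S G g d b F₁ y₁ y₁' φ) := by
  induction a generalizing F y y' with
  | zero => rw [Nat.zero_add, S_zero]
  | succ a ih =>
    have e : a + 1 + b = (a + b) + 1 := by ring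
    rw [e, S_succ, S_succ]
    apply Finset.sum_congr rfl
    intro p _
    rw [ih]

lemma blk_swap (g : V → V) (p : V × V) : blk g p.swap = blk g p := by
  ext x
  simp only [blk, Prod.fst_swap, Prod.snd_swap, mem_insert, mem_singleton]
  tauto

lemma okp_swap (hg : ∀ x, g (g x) = x) (F : Finset V) (p : V × V) (hp : p ∈ okp g F) :
    p.swap ∈ okp g F := by
  simp only [okp, mem_filter, mem_univ, true_and, Prod.fst_swap, Prod.snd_swap] at hp ⊢
  obtain ⟨h1, h2, h3, h4⟩ := hp
  refine ⟨h2, h1, fun h => h3 h.symm, ?_⟩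
  intro h
  apply h4
  rw [h, hg]

lemma S_swap (hg : ∀ x, g (g x) = x) (n : ℕ) (F : Finset V) (y y' : V)
    (φ : Finset V → V → V → ℝ) :
    S G g d n F y y' φ = S G g d n F y' y (fun F a b => φ F b a) := by
  induction n generalizing F y y' with
  | zero => rfl
  | succ n ih =>
    rw [S_succ, S_succ]
    refine Finset.sum_bij' (fun p _ => p.swap) (fun p _ => p.swap) ?_ ?_ ?_ ?_ ?_
    · intro p hp; exact okp_swap hg F p hp
    · intro p hp; exact okp_swap hg F p hp
    · intro p _; exact Prod.swap_swap p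
    · intro p _; exact Prod.swap_swap p
    · intro p _
      rw [blk_swap, ih]
      simp only [Prod.fst_swap, Prod.snd_swap]
      ring

namespace Ctx

variable (c : Ctx G g d lam)
include c

lemma S_one_le (n : ℕ) (F : Finset V) (y y' : V) :
    S G g d n F y y' (fun _ _ _ => 1) ≤ 1 := by
  induction n generalizing F y y' with
  | zero => rw [S_zero]
  | succ n ih =>
    rw [S_succ]
    calc ∑ p ∈ okp g F, pw1 G g d y p.1 * pw1 G g d y' p.2
          * S G g d n (F ∪ blk g p) p.1 p.2 (fun _ _ _ => 1)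
        ≤ ∑ p ∈ okp g F, pw1 G g d y p.1 * pw1 G g d y' p.2 * 1 := by
          apply Finset.sum_le_sum
          intro p _
          exact mul_le_mul_of_nonneg_left (ih _ _ _) (ww_nonneg y y' p)
      _ ≤ ∑ p : V × V, pw1 G g d y p.1 * pw1 G g d y' p.2 * 1 := by
          apply Finset.sum_le_sum_of_subset_of_nonneg (Finset.filter_subset _ _)
          intro p _ _
          exact mul_nonneg (ww_nonneg y y' p) zero_le_one
      _ = 1 := by
          rw [c.sum_pair y y' (fun _ => 1)]
          simp only [mul_one]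
          exact c.pw1_row y

lemma S_one_nonneg (n : ℕ) (F : Finset V) (y y' : V) :
    0 ≤ S G g d n F y y' (fun _ _ _ => 1) :=
  (S_plf n F y y').nonneg (fun _ _ _ => zero_le_one)

/-- forgetting all constraints : a function of the first position is bounded by the free walk -/
lemma S_drop (n : ℕ) (F : Finset V) (y y' : V) (φ : Finset V → V → V → ℝ) (χ : V → ℝ)
    (h : ∀ F a b, φ F a b ≤ χ a) (h0 : ∀ a, 0 ≤ χ a) :
    S G g d n F y y' φ ≤ ∑ w, pw G g d n y w * χ w := by
  induction n generalizing F y y' with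
  | zero =>
    rw [S_zero]
    simp only [pw_zero]
    rw [Finset.sum_eq_single y]
    · simpa using h F y y'
    · intro b _ hb; simp [Ne.symm hb]
    · intro hh; exact absurd (Finset.mem_univ y) hh
  | succ n ih =>
    rw [S_succ]
    calc ∑ p ∈ okp g F, pw1 G g d y p.1 * pw1 G g d y' p.2 * S G g d n (F ∪ blk g p) p.1 p.2 φ
        ≤ ∑ p ∈ okp g F, pw1 G g d y p.1 * pw1 G g d y' p.2 * ∑ w, pw G g d n p.1 w * χ w := by
          apply Finset.sum_le_sum
          intro p _
          exact mul_le_mul_of_nonneg_left (ih _ _ _) (ww_nonneg y y' p)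
      _ ≤ ∑ p : V × V, pw1 G g d y p.1 * pw1 G g d y' p.2 * ∑ w, pw G g d n p.1 w * χ w := by
          apply Finset.sum_le_sum_of_subset_of_nonneg (Finset.filter_subset _ _)
          intro p _ _
          exact mul_nonneg (ww_nonneg y y' p)
            (Finset.sum_nonneg (fun w _ => mul_nonneg (pw_nonneg _ _ _) (h0 w)))
      _ = ∑ w, pw G g d (n + 1) y w * χ w := by
          rw [c.sum_pair y y' (fun z => ∑ w, pw G g d n z w * χ w)]
          simp_rw [pw_succ, Finset.mul_sum, Finset.sum_mul]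
          rw [Finset.sum_comm]
          apply Finset.sum_congr rfl
          intro w _
          apply Finset.sum_congr rfl
          intro z _
          ring


end Ctx

/-- sum over a union is at most the sum of the sums, for nonnegative terms -/
lemma sum_union_le' (s t : Finset V) (f : V → ℝ) (h : ∀ x, 0 ≤ f x) :
    ∑ x ∈ s ∪ t, f x ≤ ∑ x ∈ s, f x + ∑ x ∈ t, f x := by
  rw [← Finset.sum_union_inter]
  have : 0 ≤ ∑ x ∈ s ∩ t, f x := Finset.sum_nonneg (fun x _ => h x)
  linarith

lemma sum_blk_le (g : V → V) (p : V × V) (f : V → ℝ) (B : ℝ) (h0 : ∀ x, 0 ≤ f x)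
    (hB : ∀ x, f x ≤ B) : ∑ q ∈ blk g p, f q ≤ 4 * B := by
  have hB0 : 0 ≤ B := (h0 p.1).trans (hB p.1)
  have h1 : ∑ q ∈ blk g p, f q ≤ (blk g p).card • B :=
    Finset.sum_le_card_nsmul _ _ _ (fun x _ => hB x)
  have h2 : (blk g p).card ≤ 4 := by
    unfold blk
    exact Finset.card_le_four
  rw [nsmul_eq_mul] at h1
  have h3 : ((blk g p).card : ℝ) ≤ 4 := by exact_mod_cast h2
  nlinarith

lemma sum_three {ι κ : Type*} (s : Finset ι) (t : Finset κ) (W A : ι → ℝ) (B : ℝ)
    (C : ι → κ → ℝ) (D : κ → ℝ) :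
    ∑ p ∈ s, (W p * A p + W p * B + ∑ i ∈ t, W p * C p i * D i)
      = ∑ p ∈ s, W p * A p + (∑ p ∈ s, W p) * B + ∑ i ∈ t, (∑ p ∈ s, W p * C p i) * D i := by
  rw [Finset.sum_add_distrib, Finset.sum_add_distrib, Finset.sum_mul, Finset.sum_comm]
  congr 1
  apply Finset.sum_congr rfl
  intro i _
  rw [Finset.sum_mul]

namespace Ctx

variable (c : Ctx G g d lam)
include c

lemma S_one_eq (F : Finset V) (y y' : V) :
    S G g d 1 F y y' (fun _ _ _ => 1) = ∑ p ∈ okp g F, pw1 G g d y p.1 * pw1 G g d y' p.2 := by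
  rw [S_succ]
  apply Finset.sum_congr rfl
  intro p _
  rw [S_zero, mul_one]

/-- the expected number of returns into the blocked set -/
lemma Lam1 (r n : ℕ) (F : Finset V) (y y' : V) :
    S G g d n F y y' (fun F' a _ => ∑ q ∈ F', pw G g d r a q)
      ≤ ∑ q ∈ F, pw G g d (n + r) y q
        + ∑ i ∈ range n, S G g d (i + 1) F y y' (fun _ _ _ => 1)
            * (4 * c.bb (n - (i + 1) + r)) := by
  induction n generalizing F y y' with
  | zero => simp [S_zero]
  | succ n ih =>
    rw [S_succ]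
    have step : ∀ p ∈ okp g F, pw1 G g d y p.1 * pw1 G g d y' p.2
          * S G g d n (F ∪ blk g p) p.1 p.2 (fun F' a _ => ∑ q ∈ F', pw G g d r a q)
        ≤ pw1 G g d y p.1 * pw1 G g d y' p.2 * (∑ q ∈ F, pw G g d (n + r) p.1 q)
          + pw1 G g d y p.1 * pw1 G g d y' p.2 * (4 * c.bb (n + r))
          + ∑ i ∈ range n, pw1 G g d y p.1 * pw1 G g d y' p.2
              * S G g d (i + 1) (F ∪ blk g p) p.1 p.2 (fun _ _ _ => 1)
              * (4 * c.bb (n - (i + 1) + r)) := by
      intro p _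
      have h1 := ih (F ∪ blk g p) p.1 p.2
      have h2 : ∑ q ∈ F ∪ blk g p, pw G g d (n + r) p.1 q
          ≤ ∑ q ∈ F, pw G g d (n + r) p.1 q + 4 * c.bb (n + r) := by
        refine (sum_union_le' _ _ _ (fun x => pw_nonneg _ _ _)).trans ?_
        have := sum_blk_le g p (fun q => pw G g d (n + r) p.1 q) (c.bb (n + r))
          (fun x => pw_nonneg _ _ _) (fun x => c.pw_le_bb _ _ _)
        linarith
      have h3 := mul_le_mul_of_nonneg_left (h1.trans (add_le_add_left h2 _))
        (ww_nonneg (G := G) (g := g) (d := d) y y' p)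
      refine h3.trans (le_of_eq ?_)
      rw [mul_add, mul_add]
      congr 1
      rw [Finset.mul_sum]
      apply Finset.sum_congr rfl
      intro i _
      ring
    refine (Finset.sum_le_sum step).trans ?_
    rw [sum_three (okp g F) (range n) (fun p => pw1 G g d y p.1 * pw1 G g d y' p.2)
      (fun p => ∑ q ∈ F, pw G g d (n + r) p.1 q) (4 * c.bb (n + r))
      (fun p i => S G g d (i + 1) (F ∪ blk g p) p.1 p.2 (fun _ _ _ => 1))
      (fun i => 4 * c.bb (n - (i + 1) + r))]
    have hA : ∑ p ∈ okp g F, pw1 G g d y p.1 * pw1 G g d y' p.2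
          * (∑ q ∈ F, pw G g d (n + r) p.1 q)
        ≤ ∑ q ∈ F, pw G g d (n + 1 + r) y q := by
      calc ∑ p ∈ okp g F, pw1 G g d y p.1 * pw1 G g d y' p.2
              * (∑ q ∈ F, pw G g d (n + r) p.1 q)
          ≤ ∑ p : V × V, pw1 G g d y p.1 * pw1 G g d y' p.2
              * (∑ q ∈ F, pw G g d (n + r) p.1 q) := by
            apply Finset.sum_le_sum_of_subset_of_nonneg (Finset.filter_subset _ _)
            intro p _ _
            exact mul_nonneg (ww_nonneg y y' p)
              (Finset.sum_nonneg (fun q _ => pw_nonneg _ _ _))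
        _ = ∑ q ∈ F, pw G g d (n + 1 + r) y q := by
            rw [c.sum_pair y y' (fun z => ∑ q ∈ F, pw G g d (n + r) z q)]
            simp_rw [Finset.mul_sum]
            rw [Finset.sum_comm]
            apply Finset.sum_congr rfl
            intro q _
            have e : n + 1 + r = (n + r) + 1 := by ring
            rw [e, pw_succ]
    have hB : (∑ p ∈ okp g F, pw1 G g d y p.1 * pw1 G g d y' p.2)
        = S G g d 1 F y y' (fun _ _ _ => 1) := (c.S_one_eq F y y').symm
    have hC : ∀ i ∈ range n, (∑ p ∈ okp g F, pw1 G g d y p.1 * pw1 G g d y' p.2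
          * S G g d (i + 1) (F ∪ blk g p) p.1 p.2 (fun _ _ _ => 1))
          * (4 * c.bb (n - (i + 1) + r))
        = S G g d (i + 1 + 1) F y y' (fun _ _ _ => 1)
          * (4 * c.bb (n + 1 - (i + 1 + 1) + r)) := by
      intro i hi
      rw [S_succ (i + 1)]
      have : n + 1 - (i + 1 + 1) = n - (i + 1) := by omega
      rw [this]
    rw [Finset.sum_congr rfl hC, hB]
    rw [Finset.sum_range_succ' (fun i => S G g d (i + 1) F y y' (fun _ _ _ => 1)
      * (4 * c.bb (n + 1 - (i + 1) + r)))]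
    simp only [Nat.zero_add, Nat.add_sub_cancel]
    linarith

/-- the same for the second walker -/
lemma Lam2 (r n : ℕ) (F : Finset V) (y y' : V) :
    S G g d n F y y' (fun F' _ b => ∑ q ∈ F', pw G g d r b q)
      ≤ ∑ q ∈ F, pw G g d (n + r) y' q
        + ∑ i ∈ range n, S G g d (i + 1) F y y' (fun _ _ _ => 1)
            * (4 * c.bb (n - (i + 1) + r)) := by
  rw [S_swap c.inv]
  refine (c.Lam1 r n F y' y).trans (le_of_eq ?_)
  congr 1
  apply Finset.sum_congr rfl
  intro i _
  rw [S_swap (G := G) (d := d) c.inv (i + 1) F y' y (fun _ _ _ => 1)]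


lemma sum_mul_ind (F : Finset V) (f : V → ℝ) :
    ∑ z, f z * (if z ∈ F then (1 : ℝ) else 0) = ∑ z ∈ F, f z := by
  simp only [mul_ite, mul_one, mul_zero]
  rw [Finset.sum_ite_mem, Finset.univ_inter]

/-- most pairs of next positions are admissible -/
lemma okp_mass (F : Finset V) (a b : V) :
    1 - ∑ q ∈ F, pw1 G g d a q - ∑ q ∈ F, pw1 G g d b q - 2 * c.bb 1
      ≤ ∑ p ∈ okp g F, pw1 G g d a p.1 * pw1 G g d b p.2 := by
  have hpt : ∀ p : V × V, pw1 G g d a p.1 * pw1 G g d b p.2 * 1
        - pw1 G g d a p.1 * pw1 G g d b p.2 * (if p.1 ∈ F then (1 : ℝ) else 0)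
        - pw1 G g d a p.1 * pw1 G g d b p.2 * (if p.2 ∈ F then (1 : ℝ) else 0)
        - pw1 G g d a p.1 * c.bb 1 * (if p.2 = p.1 then (1 : ℝ) else 0)
        - pw1 G g d a p.1 * c.bb 1 * (if p.2 = g p.1 then (1 : ℝ) else 0)
      ≤ (if p ∈ okp g F then pw1 G g d a p.1 * pw1 G g d b p.2 else 0) := by
    intro p
    have hw := ww_nonneg (G := G) (g := g) (d := d) a b p
    have ha := pw1_nonneg (G := G) (g := g) (d := d) a p.1
    have hb := c.pw1_le_bb b p.2
    have hbb := c.bb_nonneg 1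
    have e1 : 0 ≤ pw1 G g d a p.1 * pw1 G g d b p.2 * (if p.1 ∈ F then (1 : ℝ) else 0) :=
      mul_nonneg hw (by split_ifs <;> norm_num)
    have e2 : 0 ≤ pw1 G g d a p.1 * pw1 G g d b p.2 * (if p.2 ∈ F then (1 : ℝ) else 0) :=
      mul_nonneg hw (by split_ifs <;> norm_num)
    have e3 : 0 ≤ pw1 G g d a p.1 * c.bb 1 * (if p.2 = p.1 then (1 : ℝ) else 0) :=
      mul_nonneg (mul_nonneg ha hbb) (by split_ifs <;> norm_num)
    have e4 : 0 ≤ pw1 G g d a p.1 * c.bb 1 * (if p.2 = g p.1 then (1 : ℝ) else 0) :=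
      mul_nonneg (mul_nonneg ha hbb) (by split_ifs <;> norm_num)
    have hwb : pw1 G g d a p.1 * pw1 G g d b p.2 ≤ pw1 G g d a p.1 * c.bb 1 :=
      mul_le_mul_of_nonneg_left hb ha
    by_cases hok : p ∈ okp g F
    · rw [if_pos hok]; linarith
    · rw [if_neg hok]
      simp only [okp, mem_filter, mem_univ, true_and, not_and_or, not_not, ne_eq] at hok
      rcases hok with h | h | h | h
      · rw [if_pos h] at e1 ⊢; linarith
      · rw [if_pos h] at e2 ⊢; linarith
      · rw [if_pos h] at e3 ⊢; linarith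
      · rw [if_pos h] at e4 ⊢; linarith
  have hsum := Finset.sum_le_sum (fun p (_ : p ∈ (univ : Finset (V × V))) => hpt p)
  rw [Finset.sum_ite_mem, Finset.univ_inter] at hsum
  refine le_trans (le_of_eq ?_) hsum
  rw [Finset.sum_sub_distrib, Finset.sum_sub_distrib, Finset.sum_sub_distrib,
    Finset.sum_sub_distrib]
  rw [c.sum_pair a b (fun _ => 1), c.sum_pair a b (fun z => if z ∈ F then (1 : ℝ) else 0),
    c.sum_pair2 a b (fun z => if z ∈ F then (1 : ℝ) else 0)]
  rw [c.sum_mul_ind, c.sum_mul_ind]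
  simp only [mul_one]
  rw [c.pw1_row a]
  have h3 : ∑ p : V × V, pw1 G g d a p.1 * c.bb 1 * (if p.2 = p.1 then (1 : ℝ) else 0)
      = c.bb 1 := by
    rw [Fintype.sum_prod_type]
    have : ∀ z : V, ∑ z' : V, pw1 G g d a z * c.bb 1 * (if z' = z then (1 : ℝ) else 0)
        = pw1 G g d a z * c.bb 1 := by
      intro z
      rw [Finset.sum_eq_single z]
      · simp
      · intro b' _ hb'; simp [hb']
      · intro h; exact absurd (Finset.mem_univ z) h
    simp only [this]
    rw [← Finset.sum_mul, c.pw1_row a, one_mul]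
  have h4 : ∑ p : V × V, pw1 G g d a p.1 * c.bb 1 * (if p.2 = g p.1 then (1 : ℝ) else 0)
      = c.bb 1 := by
    rw [Fintype.sum_prod_type]
    have : ∀ z : V, ∑ z' : V, pw1 G g d a z * c.bb 1 * (if z' = g z then (1 : ℝ) else 0)
        = pw1 G g d a z * c.bb 1 := by
      intro z
      rw [Finset.sum_eq_single (g z)]
      · simp
      · intro b' _ hb'; simp [hb']
      · intro h; exact absurd (Finset.mem_univ (g z)) h
    simp only [this]
    rw [← Finset.sum_mul, c.pw1_row a, one_mul]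
  rw [h3, h4]
  ring

/-- the basic survival inequality of the pair process -/
lemma surv_raw (t : ℕ) (F : Finset V) (y y' : V) :
    S G g d t F y y' (fun _ _ _ => 1) * (1 - 2 * c.bb 1)
      - (∑ q ∈ F, pw G g d (t + 1) y q + ∑ q ∈ F, pw G g d (t + 1) y' q)
      - 8 * ∑ i ∈ range t, S G g d (i + 1) F y y' (fun _ _ _ => 1) * c.bb (t - (i + 1) + 1)
    ≤ S G g d (t + 1) F y y' (fun _ _ _ => 1) := by
  have hE := S_plf (G := G) (g := g) (d := d) t F y y'
  rw [S_comp t 1]
  have h1 : ∀ (F₁ : Finset V) (a b : V),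
      1 - ∑ q ∈ F₁, pw G g d 1 a q - ∑ q ∈ F₁, pw G g d 1 b q - 2 * c.bb 1
        ≤ S G g d 1 F₁ a b (fun _ _ _ => 1) := by
    intro F₁ a b
    rw [c.S_one_eq]
    simp_rw [pw_one]
    exact c.okp_mass F₁ a b
  have h2 := hE.mono h1
  have e : S G g d t F y y'
        (fun F₁ a b => 1 - ∑ q ∈ F₁, pw G g d 1 a q - ∑ q ∈ F₁, pw G g d 1 b q - 2 * c.bb 1)
      = S G g d t F y y' (fun _ _ _ => 1) * (1 - 2 * c.bb 1)
        - S G g d t F y y' (fun F₁ a _ => ∑ q ∈ F₁, pw G g d 1 a q)
        - S G g d t F y y' (fun F₁ _ b => ∑ q ∈ F₁, pw G g d 1 b q) := by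
    have e1 : (fun (F₁ : Finset V) (a b : V) =>
          1 - ∑ q ∈ F₁, pw G g d 1 a q - ∑ q ∈ F₁, pw G g d 1 b q - 2 * c.bb 1)
        = (fun (F₁ : Finset V) (a b : V) => ((1 - 2 * c.bb 1) * 1
            - ∑ q ∈ F₁, pw G g d 1 a q) - ∑ q ∈ F₁, pw G g d 1 b q) := by
      funext F₁ a b; ring
    rw [e1, hE.sub (fun (F₁ : Finset V) (a b : V) => (1 - 2 * c.bb 1) * 1
            - ∑ q ∈ F₁, pw G g d 1 a q) (fun (F₁ : Finset V) (a b : V) =>
              ∑ q ∈ F₁, pw G g d 1 b q),
      hE.sub (fun (F₁ : Finset V) (a b : V) => (1 - 2 * c.bb 1) * 1)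
        (fun (F₁ : Finset V) (a b : V) => ∑ q ∈ F₁, pw G g d 1 a q),
      hE.smul (1 - 2 * c.bb 1) (fun _ _ _ => 1)]
    ring
  rw [e] at h2
  have l1 := c.Lam1 1 t F y y'
  have l2 := c.Lam2 1 t F y y'
  have e3 : ∑ i ∈ range t, S G g d (i + 1) F y y' (fun _ _ _ => 1)
        * (4 * c.bb (t - (i + 1) + 1))
      = 4 * ∑ i ∈ range t, S G g d (i + 1) F y y' (fun _ _ _ => 1)
        * c.bb (t - (i + 1) + 1) := by
    rw [Finset.mul_sum]
    apply Finset.sum_congr rfl
    intro i _
    ring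
  rw [e3] at l1 l2
  linarith

end Ctx

/-- first marginal of the pair process -/
noncomputable def mg1 (G : SimpleGraph V) [DecidableRel G.Adj] (g : V → V) (d : ℕ) (t : ℕ)
    (F : Finset V) (y y' : V) (w : V) : ℝ :=
  S G g d t F y y' (fun _ a _ => if a = w then 1 else 0)

lemma mg1_nonneg (t : ℕ) (F : Finset V) (y y' w : V) : 0 ≤ mg1 G g d t F y y' w :=
  (S_plf t F y y').nonneg (fun _ a _ => by split_ifs <;> norm_num)

lemma mg1_sum (t : ℕ) (F : Finset V) (y y' : V) :
    ∑ w, mg1 G g d t F y y' w = S G g d t F y y' (fun _ _ _ => 1) := by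
  unfold mg1
  rw [← (S_plf t F y y').sum univ (fun w _ a _ => if a = w then (1 : ℝ) else 0)]
  congr 1
  funext _ a _
  rw [Finset.sum_eq_single a]
  · simp
  · intro b _ hb; simp [Ne.symm hb]
  · intro h; exact absurd (Finset.mem_univ a) h

namespace Ctx

variable (c : Ctx G g d lam)
include c

lemma mg1_step (t : ℕ) (F : Finset V) (y y' w : V) :
    mg1 G g d (t + 1) F y y' w ≤ ∑ z, mg1 G g d t F y y' z * pw1 G g d z w := by
  have hE := S_plf (G := G) (g := g) (d := d) t F y y'
  unfold mg1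
  rw [S_comp t 1]
  have h1 : ∀ (F₁ : Finset V) (a b : V),
      S G g d 1 F₁ a b (fun _ a' _ => if a' = w then (1 : ℝ) else 0)
        ≤ ∑ z, (if a = z then (1 : ℝ) else 0) * pw1 G g d z w := by
    intro F₁ a b
    rw [S_succ]
    simp only [S_zero]
    calc ∑ p ∈ okp g F₁, pw1 G g d a p.1 * pw1 G g d b p.2 * (if p.1 = w then (1 : ℝ) else 0)
        ≤ ∑ p : V × V, pw1 G g d a p.1 * pw1 G g d b p.2 * (if p.1 = w then (1 : ℝ) else 0) := by
          apply Finset.sum_le_sum_of_subset_of_nonneg (Finset.filter_subset _ _)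
          intro p _ _
          exact mul_nonneg (ww_nonneg a b p) (by split_ifs <;> norm_num)
      _ = pw1 G g d a w := by
          rw [c.sum_pair a b (fun z => if z = w then (1 : ℝ) else 0)]
          rw [Finset.sum_eq_single w]
          · simp
          · intro b' _ hb'; simp [hb']
          · intro h; exact absurd (Finset.mem_univ w) h
      _ = ∑ z, (if a = z then (1 : ℝ) else 0) * pw1 G g d z w := by
          rw [Finset.sum_eq_single a]
          · simp
          · intro b' _ hb'; simp [Ne.symm hb']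
          · intro h; exact absurd (Finset.mem_univ a) h
  refine (hE.mono h1).trans (le_of_eq ?_)
  rw [hE.sum univ (fun z (_ : Finset V) (a : V) (_ : V) =>
    (if a = z then (1 : ℝ) else 0) * pw1 G g d z w)]
  apply Finset.sum_congr rfl
  intro z _
  rw [hE.smul_right]

lemma mg1_sq (t : ℕ) (F : Finset V) (y y' : V) :
    ∑ w, mg1 G g d (t + 1) F y y' w ^ 2
      ≤ (S G g d t F y y' (fun _ _ _ => 1)) ^ 2 / (Fintype.card V : ℝ)
        + (lam / d) ^ 2 * ∑ w, mg1 G g d t F y y' w ^ 2 := by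
  have h1 := c.tnorm (fun z => mg1 G g d t F y y' z)
  rw [mg1_sum] at h1
  refine le_trans ?_ h1
  apply Finset.sum_le_sum
  intro w _
  exact pow_le_pow_left₀ (mg1_nonneg _ _ _ _ _) (c.mg1_step t F y y' w) 2

end Ctx

end Vale.Agent.Lib.P308
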