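import Mathlib

namespace Vale.Agent.Lib.P308

open Finset

set_option linter.unusedSectionVars false
set_option linter.unusedVariables false

variable {V : Type*} [Fintype V] [DecidableEq V]

/-- the standing assumptions on the graph and on the partner map -/
structure Ctx (G : SimpleGraph V) [DecidableRel G.Adj] (g : V → V) (d : ℕ) (lam : ℝ) : Prop where
  reg : G.IsRegularOfDegree d
  inv : ∀ x, g (g x) = x
  dpos : 0 < d
  lam0 : 0 ≤ lam
  spec : ∀ x : V → ℝ, ∑ v, x v = 0 →
      ∑ v, ((G.adjMatrix ℝ).mulVec x v) ^ 2 ≤ lam ^ 2 * ∑ v, x v ^ 2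

/-- one round of the alternating walk : from `y` go to a neighbour and then to its partner `w` -/
noncomputable def pw1 (G : SimpleGraph V) [DecidableRel G.Adj] (g : V → V) (d : ℕ) (y w : V) : ℝ :=
  if G.Adj y (g w) then 1 / (d : ℝ) else 0

/-- `n` rounds of the alternating walk -/
noncomputable def pw (G : SimpleGraph V) [DecidableRel G.Adj] (g : V → V) (d : ℕ) :
    ℕ → V → V → ℝ
  | 0, y, w => if y = w then 1 else 0
  | (n + 1), y, w => ∑ z, pw1 G g d y z * pw G g d n z w

variable {G : SimpleGraph V} [DecidableRel G.Adj] {g : V → V} {d : ℕ} {lam : ℝ}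

lemma pw1_nonneg (y w : V) : 0 ≤ pw1 G g d y w := by
  unfold pw1
  split_ifs
  · positivity
  · exact le_refl _

lemma pw_nonneg (n : ℕ) (y w : V) : 0 ≤ pw G g d n y w := by
  induction n generalizing y w with
  | zero => unfold pw; split_ifs <;> norm_num
  | succ n ih =>
    unfold pw
    exact Finset.sum_nonneg (fun z _ => mul_nonneg (pw1_nonneg y z) (ih z w))

lemma pw_zero (y w : V) : pw G g d 0 y w = if y = w then 1 else 0 := rfl

lemma pw_succ (n : ℕ) (y w : V) :
    pw G g d (n + 1) y w = ∑ z, pw1 G g d y z * pw G g d n z w := rfl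

lemma pw_one (y w : V) : pw G g d 1 y w = pw1 G g d y w := by
  rw [pw_succ]
  simp only [pw_zero]
  rw [Finset.sum_eq_single w]
  · simp
  · intro b _ hb; simp [hb]
  · intro h; exact absurd (Finset.mem_univ w) h

lemma pw_add (n r : ℕ) (y q : V) :
    pw G g d (n + r) y q = ∑ w, pw G g d n y w * pw G g d r w q := by
  induction n generalizing y with
  | zero =>
    simp only [Nat.zero_add, pw_zero]
    rw [Finset.sum_eq_single y]
    · simp
    · intro b _ hb; simp [Ne.symm hb]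
    · intro h; exact absurd (Finset.mem_univ y) h
  | succ n ih =>
    have e : n + 1 + r = (n + r) + 1 := by ring
    rw [e, pw_succ]
    simp_rw [ih, pw_succ, Finset.mul_sum, Finset.sum_mul]
    rw [Finset.sum_comm]
    apply Finset.sum_congr rfl
    intro w _
    apply Finset.sum_congr rfl
    intro z _
    ring

lemma pw_succ' (n : ℕ) (y w : V) :
    pw G g d (n + 1) y w = ∑ z, pw G g d n y z * pw1 G g d z w := by
  rw [pw_add n 1]
  simp_rw [pw_one]

namespace Ctx

variable (c : Ctx G g d lam)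
include c

/-- the partner map as a permutation -/
def perm : Equiv.Perm V := ⟨g, g, c.inv, c.inv⟩

lemma perm_apply (x : V) : c.perm x = g x := rfl

lemma dpos' : (0 : ℝ) < (d : ℝ) := by exact_mod_cast c.dpos

lemma sum_adj (y : V) (a : ℝ) : ∑ x, (if G.Adj y x then a else 0) = d * a := by
  rw [← Finset.sum_filter, Finset.sum_const, ← SimpleGraph.neighborFinset_eq_filter,
    SimpleGraph.card_neighborFinset_eq_degree, c.reg.degree_eq]
  simp

lemma pw1_row (y : V) : ∑ w, pw1 G g d y w = 1 := by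
  unfold pw1
  have h := Equiv.sum_comp c.perm (fun x => if G.Adj y x then 1 / (d : ℝ) else 0)
  change (∑ w, if G.Adj y (g w) then 1 / (d : ℝ) else 0) = _ at h
  rw [h, c.sum_adj]
  have := c.dpos'
  field_simp

lemma pw1_col (w : V) : ∑ y, pw1 G g d y w = 1 := by
  unfold pw1
  have h : ∀ y, (if G.Adj y (g w) then 1 / (d : ℝ) else 0)
      = (if G.Adj (g w) y then 1 / (d : ℝ) else 0) := by
    intro y
    simp only [SimpleGraph.adj_comm]
  simp_rw [h]
  rw [c.sum_adj]
  have := c.dpos'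
  field_simp

lemma pw_row (n : ℕ) (y : V) : ∑ w, pw G g d n y w = 1 := by
  induction n generalizing y with
  | zero =>
    simp only [pw_zero]
    rw [Finset.sum_eq_single y]
    · simp
    · intro b _ hb; simp [Ne.symm hb]
    · intro h; exact absurd (Finset.mem_univ y) h
  | succ n ih =>
    simp_rw [pw_succ]
    rw [Finset.sum_comm]
    simp_rw [← Finset.mul_sum, ih, mul_one]
    exact c.pw1_row y


lemma mulVec_sub_const (x : V → ℝ) (m : ℝ) (v : V) :
    (G.adjMatrix ℝ).mulVec (fun z => x z - m) v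
      = ∑ z, (if G.Adj v z then x z else 0) - d * m := by
  rw [SimpleGraph.adjMatrix_mulVec_apply, Finset.sum_sub_distrib, Finset.sum_const,
    SimpleGraph.card_neighborFinset_eq_degree, c.reg.degree_eq, SimpleGraph.neighborFinset_eq_filter,
    Finset.sum_filter]
  simp

/-- contraction of the centred part under one round (row vectors) -/
lemma tcontr (x : V → ℝ) :
    ∑ w, (∑ z, x z * pw1 G g d z w - (∑ z, x z) / (Fintype.card V : ℝ)) ^ 2
      ≤ (lam / d) ^ 2 * ∑ z, (x z - (∑ z, x z) / (Fintype.card V : ℝ)) ^ 2 := by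
  rcases isEmpty_or_nonempty V with hV | hV
  · simp
  set m : ℝ := (∑ z, x z) / (Fintype.card V : ℝ) with hm
  have hN : (0 : ℝ) < (Fintype.card V : ℝ) := by exact_mod_cast Fintype.card_pos
  have hd := c.dpos'
  have h0 : ∑ z, (x z - m) = 0 := by
    rw [Finset.sum_sub_distrib, Finset.sum_const, Finset.card_univ, nsmul_eq_mul, hm]
    field_simp
    ring
  have hsp := c.spec (fun z => x z - m) h0
  have key : ∀ w, ∑ z, x z * pw1 G g d z w - m
      = (1 / (d : ℝ)) * (G.adjMatrix ℝ).mulVec (fun z => x z - m) (g w) := by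
    intro w
    rw [c.mulVec_sub_const]
    have h3 : ∑ z, x z * pw1 G g d z w
        = (1 / (d : ℝ)) * ∑ z, (if G.Adj (g w) z then x z else 0) := by
      rw [Finset.mul_sum]
      apply Finset.sum_congr rfl
      intro z _
      unfold pw1
      by_cases h : G.Adj z (g w)
      · have h' : G.Adj (g w) z := h.symm
        rw [if_pos h, if_pos h']; ring
      · have h' : ¬ G.Adj (g w) z := fun hc => h hc.symm
        rw [if_neg h, if_neg h']; ring
    rw [h3]
    field_simp
  simp_rw [key]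
  have h2 := Equiv.sum_comp c.perm
    (fun v => ((1 / (d : ℝ)) * (G.adjMatrix ℝ).mulVec (fun z => x z - m) v) ^ 2)
  change (∑ w, ((1 / (d : ℝ)) * (G.adjMatrix ℝ).mulVec (fun z => x z - m) (g w)) ^ 2) = _ at h2
  rw [h2]
  simp_rw [mul_pow]
  rw [← Finset.mul_sum]
  calc (1 / (d : ℝ)) ^ 2 * ∑ v, (G.adjMatrix ℝ).mulVec (fun z => x z - m) v ^ 2
      ≤ (1 / (d : ℝ)) ^ 2 * (lam ^ 2 * ∑ z, (x z - m) ^ 2) := by
        apply mul_le_mul_of_nonneg_left hsp (by positivity)
    _ = (lam / d) ^ 2 * ∑ z, (x z - m) ^ 2 := by ring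

lemma sum_sq_sub (x : V → ℝ) [Nonempty V] :
    ∑ z, (x z - (∑ z, x z) / (Fintype.card V : ℝ)) ^ 2
      = ∑ z, x z ^ 2 - (∑ z, x z) ^ 2 / (Fintype.card V : ℝ) := by
  have hN : (0 : ℝ) < (Fintype.card V : ℝ) := by exact_mod_cast Fintype.card_pos
  set S : ℝ := ∑ z, x z with hS
  have h1 : ∀ z, (x z - S / (Fintype.card V : ℝ)) ^ 2
      = x z ^ 2 - 2 * (S / (Fintype.card V : ℝ)) * x z + (S / (Fintype.card V : ℝ)) ^ 2 := by
    intro z; ring
  simp_rw [h1]
  rw [Finset.sum_add_distrib, Finset.sum_sub_distrib, ← Finset.mul_sum, ← hS, Finset.sum_const,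
    Finset.card_univ, nsmul_eq_mul]
  field_simp
  ring

/-- one round of the walk, L2 bound (row vectors) -/
lemma tnorm (x : V → ℝ) :
    ∑ w, (∑ z, x z * pw1 G g d z w) ^ 2
      ≤ (∑ z, x z) ^ 2 / (Fintype.card V : ℝ) + (lam / d) ^ 2 * ∑ z, x z ^ 2 := by
  rcases isEmpty_or_nonempty V with hV | hV
  · simp
  have hN : (0 : ℝ) < (Fintype.card V : ℝ) := by exact_mod_cast Fintype.card_pos
  have h1 := c.tcontr x
  have hsum : ∑ w, ∑ z, x z * pw1 G g d z w = ∑ z, x z := by
    rw [Finset.sum_comm]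
    simp_rw [← Finset.mul_sum, c.pw1_row, mul_one]
  have e1 := c.sum_sq_sub (fun w => ∑ z, x z * pw1 G g d z w)
  rw [hsum] at e1
  have e2 := c.sum_sq_sub x
  rw [e1, e2] at h1
  have h3 : 0 ≤ (∑ z, x z) ^ 2 / (Fintype.card V : ℝ) := by positivity
  have h4 : (lam / d) ^ 2 ≤ 1 ∨ 1 < (lam / d) ^ 2 := le_or_gt _ _
  have h5 : 0 ≤ (lam / d) ^ 2 := sq_nonneg _
  nlinarith

lemma pw_dev (n : ℕ) (y : V) :
    ∑ w, (pw G g d n y w - 1 / (Fintype.card V : ℝ)) ^ 2 ≤ (lam / d) ^ (2 * n) := by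
  have : Nonempty V := ⟨y⟩
  have hN : (0 : ℝ) < (Fintype.card V : ℝ) := by exact_mod_cast Fintype.card_pos
  induction n with
  | zero =>
    have e := c.sum_sq_sub (fun w => pw G g d 0 y w)
    have hr := c.pw_row 0 y
    rw [hr] at e
    rw [e]
    have h2 : ∑ z, pw G g d 0 y z ^ 2 = 1 := by
      simp only [pw_zero]
      rw [Finset.sum_eq_single y]
      · simp
      · intro b _ hb; simp [Ne.symm hb]
      · intro h; exact absurd (Finset.mem_univ y) h
    rw [h2]
    have : 0 ≤ (1 : ℝ) ^ 2 / (Fintype.card V : ℝ) := by positivity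
    simp only [Nat.mul_zero, pow_zero]
    linarith
  | succ n ih =>
    have h1 := c.tcontr (fun z => pw G g d n y z)
    rw [c.pw_row n y] at h1
    simp_rw [← pw_succ'] at h1
    have e : (lam / d) ^ (2 * (n + 1)) = (lam / d) ^ 2 * (lam / d) ^ (2 * n) := by ring
    rw [e]
    exact h1.trans (mul_le_mul_of_nonneg_left ih (sq_nonneg _))

lemma ep_nonneg : 0 ≤ lam / (d : ℝ) := div_nonneg c.lam0 c.dpos'.le

/-- entrywise mixing bound -/
lemma pw_le (n : ℕ) (y w : V) :
    pw G g d n y w ≤ 1 / (Fintype.card V : ℝ) + (lam / d) ^ n := by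
  have h1 := c.pw_dev n y
  have h2 : (pw G g d n y w - 1 / (Fintype.card V : ℝ)) ^ 2
      ≤ ∑ w, (pw G g d n y w - 1 / (Fintype.card V : ℝ)) ^ 2 :=
    Finset.single_le_sum (f := fun w => (pw G g d n y w - 1 / (Fintype.card V : ℝ)) ^ 2)
      (fun i _ => sq_nonneg _) (Finset.mem_univ w)
  have h3 : (pw G g d n y w - 1 / (Fintype.card V : ℝ)) ^ 2 ≤ ((lam / d) ^ n) ^ 2 := by
    rw [← pow_mul, mul_comm n 2]
    exact h2.trans h1
  have h4 : 0 ≤ (lam / (d : ℝ)) ^ n := pow_nonneg c.ep_nonneg n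
  have h5 := abs_le_of_sq_le_sq' h3 h4
  linarith [h5.2]

/-- contraction of the centred part under one round (column vectors) -/
lemma lcontr (x : V → ℝ) :
    ∑ z, (∑ w, pw1 G g d z w * x w - (∑ w, x w) / (Fintype.card V : ℝ)) ^ 2
      ≤ (lam / d) ^ 2 * ∑ w, (x w - (∑ w, x w) / (Fintype.card V : ℝ)) ^ 2 := by
  rcases isEmpty_or_nonempty V with hV | hV
  · simp
  set m : ℝ := (∑ w, x w) / (Fintype.card V : ℝ) with hm
  have hN : (0 : ℝ) < (Fintype.card V : ℝ) := by exact_mod_cast Fintype.card_pos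
  have hd := c.dpos'
  have hxg : ∑ v, x (g v) = ∑ w, x w := Equiv.sum_comp c.perm x
  have h0 : ∑ v, (x (g v) - m) = 0 := by
    rw [Finset.sum_sub_distrib, hxg, Finset.sum_const, Finset.card_univ, nsmul_eq_mul, hm]
    field_simp
    ring
  have hsp := c.spec (fun v => x (g v) - m) h0
  have key : ∀ z, ∑ w, pw1 G g d z w * x w - m
      = (1 / (d : ℝ)) * (G.adjMatrix ℝ).mulVec (fun v => x (g v) - m) z := by
    intro z
    rw [c.mulVec_sub_const (fun v => x (g v))]
    have h3 : ∑ w, pw1 G g d z w * x w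
        = (1 / (d : ℝ)) * ∑ v, (if G.Adj z v then x (g v) else 0) := by
      have h4 := Equiv.sum_comp c.perm (fun v => if G.Adj z v then x (g v) else 0)
      change (∑ w, if G.Adj z (g w) then x (g (g w)) else 0) = _ at h4
      rw [← h4, Finset.mul_sum]
      apply Finset.sum_congr rfl
      intro w _
      unfold pw1
      rw [c.inv w]
      by_cases h : G.Adj z (g w)
      · rw [if_pos h, if_pos h]
      · rw [if_neg h, if_neg h]; ring
    rw [h3]
    field_simp
  simp_rw [key]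
  simp_rw [mul_pow]
  rw [← Finset.mul_sum]
  have hre : ∑ v, (x (g v) - m) ^ 2 = ∑ w, (x w - m) ^ 2 :=
    Equiv.sum_comp c.perm (fun w => (x w - m) ^ 2)
  calc (1 / (d : ℝ)) ^ 2 * ∑ z, (G.adjMatrix ℝ).mulVec (fun v => x (g v) - m) z ^ 2
      ≤ (1 / (d : ℝ)) ^ 2 * (lam ^ 2 * ∑ v, (x (g v) - m) ^ 2) := by
        apply mul_le_mul_of_nonneg_left hsp (by positivity)
    _ = (lam / d) ^ 2 * ∑ w, (x w - m) ^ 2 := by rw [hre]; ring


/-- the error term `1 / N + (lam / d) ^ s` -/
noncomputable def bb (c : Ctx G g d lam) (s : ℕ) : ℝ :=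
  1 / (Fintype.card V : ℝ) + (lam / d) ^ s

lemma bb_nonneg (s : ℕ) : 0 ≤ c.bb s := by
  unfold bb
  have h := pow_nonneg c.ep_nonneg s
  have : 0 ≤ 1 / (Fintype.card V : ℝ) := by positivity
  linarith

lemma pw_le_bb (n : ℕ) (y w : V) : pw G g d n y w ≤ c.bb n := c.pw_le n y w

lemma pw1_le_bb (y w : V) : pw1 G g d y w ≤ c.bb 1 := by
  rw [← pw_one]; exact c.pw_le 1 y w

lemma sum_pair (y y' : V) (f : V → ℝ) :
    ∑ p : V × V, pw1 G g d y p.1 * pw1 G g d y' p.2 * f p.1 = ∑ z, pw1 G g d y z * f z := by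
  rw [Fintype.sum_prod_type]
  apply Finset.sum_congr rfl
  intro z _
  have h : ∀ z' : V, pw1 G g d y z * pw1 G g d y' z' * f z
      = (pw1 G g d y z * f z) * pw1 G g d y' z' := by intro z'; ring
  simp only [h]
  rw [← Finset.mul_sum, c.pw1_row, mul_one]

lemma sum_pair2 (y y' : V) (f : V → ℝ) :
    ∑ p : V × V, pw1 G g d y p.1 * pw1 G g d y' p.2 * f p.2 = ∑ z, pw1 G g d y' z * f z := by
  rw [Fintype.sum_prod_type, Finset.sum_comm]
  apply Finset.sum_congr rfl
  intro z _
  have h : ∀ z' : V, pw1 G g d y z' * pw1 G g d y' z * f z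
      = (pw1 G g d y' z * f z) * pw1 G g d y z' := by intro z'; ring
  simp only [h]
  rw [← Finset.mul_sum, c.pw1_row, mul_one]

end Ctx

end Vale.Agent.Lib.P308
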