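import Vale.Agent.Lib.P308.Main

namespace Vale.Agent.Lib.P308

open Finset

set_option linter.unusedSectionVars false
set_option linter.unusedVariables false

variable {V : Type*} [Fintype V] [DecidableEq V]

lemma near_empty_of_isEmpty (G : SimpleGraph V) (h : IsEmpty V) :
    Set.ncard {M : G.Subgraph | M.IsMatching ∧ Set.ncard (M.verts)ᶜ = 2} = 0 := by
  have : {M : G.Subgraph | M.IsMatching ∧ Set.ncard (M.verts)ᶜ = 2} = ∅ := by
    ext M
    simp only [Set.mem_ofPred_eq, Set.mem_empty_iff_false, iff_false, not_and]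
    intro _ h2
    have : (M.verts)ᶜ = ∅ := Set.eq_empty_of_isEmpty _
    rw [this] at h2
    simp at h2
  rw [this]
  simp

/-- uniform polynomial bound for regular graphs with near-Ramanujan spectrum -/
theorem near_le_of_ramanujan (G : SimpleGraph V) [DecidableRel G.Adj] (d : ℕ) (hd : 4096 ≤ d)
    (hreg : G.IsRegularOfDegree d) (lam : ℝ) (hl : lam ^ 2 ≤ 4 * d)
    (hspec : ∀ x : V → ℝ, ∑ v, x v = 0 →
      ∑ v, ((G.adjMatrix ℝ).mulVec x v) ^ 2 ≤ lam ^ 2 * ∑ v, x v ^ 2) :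
    Set.ncard {M : G.Subgraph | M.IsMatching ∧ Set.ncard (M.verts)ᶜ = 2} ≤
      Fintype.card V ^ 6 * Set.ncard {M : G.Subgraph | M.IsPerfectMatching} := by
  rcases isEmpty_or_nonempty V with hV | hV
  · rw [near_empty_of_isEmpty G hV]; exact Nat.zero_le _
  obtain ⟨v0⟩ := hV
  set N := Fintype.card V with hN
  have hdN : d < N := by
    have := G.degree_lt_card_verts v0
    rw [hreg.degree_eq v0] at this
    exact this
  set g := d / 32 with hg
  have hg1 : 128 ≤ g := by omega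
  have hg2 : 32 * g ≤ d := by omega
  have hg3 : d < 32 * g + 32 := by omega
  set q := N / d with hq
  have hq1 : 1 ≤ q := by
    rw [hq]; exact Nat.div_pos hdN.le (by omega)
  have hq2 : q * d ≤ N := Nat.div_mul_le_self N d
  have hq3 : N < (q + 1) * d := by
    have := Nat.lt_div_mul_add (a := N) (b := d) (by omega)
    rw [← hq] at this
    nlinarith
  set e := Nat.log g q with he
  have he1 : g ^ e ≤ q := Nat.pow_log_le_self g (by omega)
  have he2 : q < g ^ (e + 1) := Nat.lt_pow_succ_log_self (by omega) q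
  set t := N / 24 with ht
  have ht1 : 24 * t ≤ N := by omega
  have ht2 : N ≤ 25 * t := by omega
  have hs32 : 32 * g ^ (e + 1) ≤ N := by
    have : g ^ (e + 1) = g ^ e * g := pow_succ g e
    rw [this]
    calc 32 * (g ^ e * g) = g ^ e * (32 * g) := by ring
      _ ≤ q * d := Nat.mul_le_mul he1 hg2
      _ ≤ N := hq2
  have hsd : N < g ^ (e + 1) * d := by
    calc N < (q + 1) * d := hq3
      _ ≤ g ^ (e + 1) * d := Nat.mul_le_mul_right d he2
  set a : ℕ → ℕ := fun i => if i ≤ e + 1 then g ^ i else t with ha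
  have hd' : (0 : ℝ) < (d : ℝ) := by
    have : 0 < d := by omega
    exact_mod_cast this
  have hdR : (4096 : ℝ) ≤ (d : ℝ) := by exact_mod_cast hd
  have hNR : (0 : ℝ) < (N : ℝ) := by
    have : 0 < N := by omega
    exact_mod_cast this
  have hgR : (32 : ℝ) * (g : ℝ) ≤ (d : ℝ) := by exact_mod_cast hg2
  have hg1R : (128 : ℝ) ≤ (g : ℝ) := by exact_mod_cast hg1
  have hmain := near_le_of_spectral_schedule G d hreg lam hspec a (e + 2) ?_ ?_ ?_ ?_
  · refine hmain.trans ?_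
    apply Nat.mul_le_mul_right
    -- N * (2 d + 1) ^ (2 (e + 2)) ≤ N ^ 6
    have h1 : (2 * d + 1) ^ 2 ≤ g ^ 4 := by
      have h65 : 2 * d + 1 ≤ 65 * g := by omega
      calc (2 * d + 1) ^ 2 ≤ (65 * g) ^ 2 := Nat.pow_le_pow_left h65 2
        _ = 4225 * g ^ 2 := by ring
        _ ≤ g ^ 2 * g ^ 2 := by
            apply Nat.mul_le_mul_right
            nlinarith
        _ = g ^ 4 := by ring
    have h2 : q * (2 * d + 1) ≤ 3 * N := by nlinarith
    have h3 : (2 * d + 1) ^ (2 * (e + 2)) ≤ (3 * N) ^ 4 := by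
      calc (2 * d + 1) ^ (2 * (e + 2)) = ((2 * d + 1) ^ 2) ^ e * (2 * d + 1) ^ 4 := by
            rw [← pow_mul, ← pow_add]; congr 1
        _ ≤ (g ^ 4) ^ e * (2 * d + 1) ^ 4 :=
            Nat.mul_le_mul_right _ (Nat.pow_le_pow_left h1 e)
        _ = (g ^ e) ^ 4 * (2 * d + 1) ^ 4 := by rw [← pow_mul, ← pow_mul, mul_comm 4 e]
        _ ≤ q ^ 4 * (2 * d + 1) ^ 4 := Nat.mul_le_mul_right _ (Nat.pow_le_pow_left he1 4)
        _ = (q * (2 * d + 1)) ^ 4 := by rw [mul_pow]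
        _ ≤ (3 * N) ^ 4 := Nat.pow_le_pow_left h2 4
    calc N * (2 * d + 1) ^ (2 * (e + 2)) ≤ N * (3 * N) ^ 4 := Nat.mul_le_mul_left _ h3
      _ = 81 * N ^ 5 := by ring
      _ ≤ N * N ^ 5 := Nat.mul_le_mul_right _ (by omega)
      _ = N ^ 6 := by ring
  · simp [ha]
  · intro i
    simp only [ha]
    by_cases h1 : i + 1 ≤ e + 1
    · have h1' : i ≤ e + 1 := by omega
      rw [if_pos h1, if_pos h1']
      exact Nat.pow_le_pow_right (by omega) (Nat.le_succ i)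
    · by_cases h2 : i ≤ e + 1
      · have : i = e + 1 := by omega
        subst this
        rw [if_pos h2, if_neg h1]
        omega
      · rw [if_neg h1, if_neg h2]
  · intro i hi
    by_cases h1 : i ≤ e
    · have e1 : a i = g ^ i := by simp only [ha]; rw [if_pos (by omega)]
      have e2 : a (i + 1) = g ^ (i + 1) := by simp only [ha]; rw [if_pos (by omega)]
      rw [e1, e2]
      have hsq : g ^ i ≤ q := (Nat.pow_le_pow_right (by omega) h1).trans he1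
      have hsdN : g ^ i * d ≤ N := (Nat.mul_le_mul_right d hsq).trans hq2
      have hsdR : ((g : ℝ) ^ i) * (d : ℝ) ≤ (N : ℝ) := by exact_mod_cast hsdN
      have hs0 : (0 : ℝ) < (g : ℝ) ^ i := by positivity
      push_cast
      have hbr : lam ^ 2 * (N : ℝ) + ((d : ℝ) ^ 2 - lam ^ 2) * (g : ℝ) ^ i ≤ 5 * (d : ℝ) * (N : ℝ) := by
        have a1 : lam ^ 2 * (N : ℝ) ≤ 4 * (d : ℝ) * (N : ℝ) :=
          mul_le_mul_of_nonneg_right hl hNR.le
        have a2 : ((d : ℝ) ^ 2 - lam ^ 2) * (g : ℝ) ^ i ≤ (d : ℝ) ^ 2 * (g : ℝ) ^ i := by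
          nlinarith [sq_nonneg lam]
        have a3 : (d : ℝ) ^ 2 * (g : ℝ) ^ i ≤ (d : ℝ) * (N : ℝ) := by nlinarith
        linarith
      have e3 : (3 * (g : ℝ) ^ (i + 1) + (g : ℝ) ^ i) = (g : ℝ) ^ i * (3 * g + 1) := by
        rw [pow_succ]; ring
      rw [e3]
      calc (g : ℝ) ^ i * (3 * g + 1) * (lam ^ 2 * (N : ℝ) + ((d : ℝ) ^ 2 - lam ^ 2) * (g : ℝ) ^ i)
          ≤ (g : ℝ) ^ i * (3 * g + 1) * (5 * (d : ℝ) * (N : ℝ)) :=
            mul_le_mul_of_nonneg_left hbr (by positivity)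
        _ = (g : ℝ) ^ i * (N : ℝ) * (d : ℝ) * (15 * g + 5) := by ring
        _ ≤ (g : ℝ) ^ i * (N : ℝ) * (d : ℝ) * (d : ℝ) := by
            apply mul_le_mul_of_nonneg_left _ (by positivity)
            linarith
        _ = (d : ℝ) ^ 2 * (g : ℝ) ^ i * (N : ℝ) := by ring
    · have hie : i = e + 1 := by omega
      subst hie
      have e1 : a (e + 1) = g ^ (e + 1) := by simp only [ha]; rw [if_pos (by omega)]
      have e2 : a (e + 1 + 1) = t := by simp only [ha]; rw [if_neg (by omega)]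
      rw [e1, e2]
      have hs32R : 32 * ((g : ℝ) ^ (e + 1)) ≤ (N : ℝ) := by exact_mod_cast hs32
      have hsdR : (N : ℝ) < ((g : ℝ) ^ (e + 1)) * (d : ℝ) := by exact_mod_cast hsd
      have ht1R : 24 * (t : ℝ) ≤ (N : ℝ) := by exact_mod_cast ht1
      have hs0 : (0 : ℝ) < (g : ℝ) ^ (e + 1) := by positivity
      have ht0 : (0 : ℝ) ≤ (t : ℝ) := by positivity
      push_cast
      have hbr : lam ^ 2 * (N : ℝ) + ((d : ℝ) ^ 2 - lam ^ 2) * (g : ℝ) ^ (e + 1)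
          ≤ 5 * (d : ℝ) ^ 2 * (g : ℝ) ^ (e + 1) := by
        have a1 : lam ^ 2 * (N : ℝ) ≤ 4 * (d : ℝ) * (N : ℝ) :=
          mul_le_mul_of_nonneg_right hl hNR.le
        have a2 : ((d : ℝ) ^ 2 - lam ^ 2) * (g : ℝ) ^ (e + 1) ≤ (d : ℝ) ^ 2 * (g : ℝ) ^ (e + 1) := by
          nlinarith [sq_nonneg lam]
        have a3 : 4 * (d : ℝ) * (N : ℝ) ≤ 4 * (d : ℝ) ^ 2 * (g : ℝ) ^ (e + 1) := by nlinarith
        linarith
      calc (3 * (t : ℝ) + (g : ℝ) ^ (e + 1)) *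
            (lam ^ 2 * (N : ℝ) + ((d : ℝ) ^ 2 - lam ^ 2) * (g : ℝ) ^ (e + 1))
          ≤ (3 * (t : ℝ) + (g : ℝ) ^ (e + 1)) * (5 * (d : ℝ) ^ 2 * (g : ℝ) ^ (e + 1)) :=
            mul_le_mul_of_nonneg_left hbr (by positivity)
        _ = (d : ℝ) ^ 2 * (g : ℝ) ^ (e + 1) * (15 * (t : ℝ) + 5 * (g : ℝ) ^ (e + 1)) := by ring
        _ ≤ (d : ℝ) ^ 2 * (g : ℝ) ^ (e + 1) * (N : ℝ) := by
            apply mul_le_mul_of_nonneg_left _ (by positivity)
            linarith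
  · have e1 : a (e + 2) = t := by simp only [ha]; rw [if_neg (by omega)]
    rw [e1]
    have ht2R : (N : ℝ) ≤ 25 * (t : ℝ) := by exact_mod_cast ht2
    have htpos : (0 : ℝ) < (t : ℝ) := by
      have : 0 < t := by omega
      exact_mod_cast this
    have h1 : lam ^ 2 * (N : ℝ) ^ 2 ≤ 4 * (d : ℝ) * (N : ℝ) ^ 2 :=
      mul_le_mul_of_nonneg_right hl (sq_nonneg _)
    have h2 : (N : ℝ) ^ 2 ≤ 625 * (t : ℝ) ^ 2 := by nlinarith
    have h3 : 4 * (d : ℝ) * (N : ℝ) ^ 2 ≤ 2500 * (d : ℝ) * (t : ℝ) ^ 2 := by nlinarith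
    have h4 : 2500 * (d : ℝ) * (t : ℝ) ^ 2 < (d : ℝ) ^ 2 * (t : ℝ) ^ 2 := by
      have : 0 < (d : ℝ) * (t : ℝ) ^ 2 := by positivity
      nlinarith
    calc lam ^ 2 * (N : ℝ) ^ 2 ≤ 4 * (d : ℝ) * (N : ℝ) ^ 2 := h1
      _ ≤ 2500 * (d : ℝ) * (t : ℝ) ^ 2 := h3
      _ < (d : ℝ) ^ 2 * (t : ℝ) ^ 2 := h4
      _ = (d : ℝ) ^ 2 * (t : ℝ) * (t : ℝ) := by ring

end Vale.Agent.Lib.P308
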