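import Vale.Agent.Lib.P308.VJunc

namespace Vale.Agent.Lib.P308

open Finset

set_option linter.unusedSectionVars false
set_option linter.unusedVariables false

variable {V : Type*} [Fintype V] [DecidableEq V]
variable {G : SimpleGraph V} [DecidableRel G.Adj] {g : V → V} {d : ℕ} {lam : ℝ}

namespace Ctx

variable (c : Ctx G g d lam)
include c

lemma sum_F_les (F₀ : Finset V) (hF : F₀.card ≤ 2) (n : ℕ) (hn : 1 ≤ n) (y : V) :
    ∑ q ∈ F₀, pw G g d n y q ≤ 2 * c.bs n := by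
  have h1 : ∑ q ∈ F₀, pw G g d n y q ≤ F₀.card • c.bs n :=
    Finset.sum_le_card_nsmul _ _ _ (fun q _ => c.pw_le_bs n hn y q)
  rw [nsmul_eq_mul] at h1
  have h2 : (F₀.card : ℝ) ≤ 2 := by exact_mod_cast hF
  have h3 := c.bs_nonneg n
  nlinarith

lemma gg_recs (F₀ : Finset V) (hF : F₀.card ≤ 2) (y y' : V) (t : ℕ) :
    S G g d t F₀ y y' (fun _ _ _ => 1)
        * (1 - 2 * (1 / (Fintype.card V : ℝ) + dl (1 / (d : ℝ)) (lam / d) 1))
      - 4 * (1 / (Fintype.card V : ℝ) + dl (1 / (d : ℝ)) (lam / d) (t + 1))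
      - 8 * ∑ i ∈ range t, S G g d (i + 1) F₀ y y' (fun _ _ _ => 1)
          * (1 / (Fintype.card V : ℝ) + dl (1 / (d : ℝ)) (lam / d) (t - (i + 1) + 1))
    ≤ S G g d (t + 1) F₀ y y' (fun _ _ _ => 1) := by
  have h := c.surv_rawg t F₀ y y'
  have h1 := c.sum_F_les F₀ hF (t + 1) (by omega) y
  have h2 := c.sum_F_les F₀ hF (t + 1) (by omega) y'
  unfold Ctx.bs at h h1 h2
  linarith

lemma gg_steps (F₀ : Finset V) (hF : F₀.card ≤ 2) (y y' : V) (k₁ : ℕ)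
    (hε4 : 4 * (lam / d) ≤ 1)
    (hnum : 14 * (1 / (Fintype.card V : ℝ)) * 2 ^ k₁ + 2 * dl (1 / (d : ℝ)) (lam / d) 1 + 12 * DD 2 (1 / (d : ℝ)) (lam / d) 1 ≤ 1 / 2) :
    ∀ t, t < k₁ → S G g d t F₀ y y' (fun _ _ _ => 1)
      ≤ 2 * S G g d (t + 1) F₀ y y' (fun _ _ _ => 1) :=
  num1_g (fun t => S G g d t F₀ y y' (fun _ _ _ => 1)) (1 / (Fintype.card V : ℝ))
    (dl (1 / (d : ℝ)) (lam / d)) (DD 2 (1 / (d : ℝ)) (lam / d)) k₁
    rfl (fun t => c.S_one_nonneg t F₀ y y') (by positivity)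
    (dl_nonneg _ _ (by positivity) c.ep_nonneg)
    (DDn_nonneg 2 _ _ (by norm_num) (by positivity) c.ep_nonneg)
    (DD_rec 2 _ _ (by norm_num) (by positivity) c.ep_nonneg (by linarith))
    hnum (fun t => c.gg_recs F₀ hF y y' t)

lemma loss_bounds (F₀ : Finset V) (hF : F₀.card ≤ 2) (y y' : V) (k₁ j : ℕ)
    (hstep : ∀ t, t < k₁ → S G g d t F₀ y y' (fun _ _ _ => 1)
      ≤ 2 * S G g d (t + 1) F₀ y y' (fun _ _ _ => 1))
    (hε4 : 4 * (lam / d) ≤ 1) :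
    S G g d k₁ F₀ y y' (fun F a _ => ∑ q ∈ F, pw G g d (j + 1) a q)
      ≤ S G g d k₁ F₀ y y' (fun _ _ _ => 1)
        * (6 * (1 / (Fintype.card V : ℝ)) * 2 ^ k₁ + 6 * DD 2 (1 / (d : ℝ)) (lam / d) (j + 1)) := by
  have hε0 := c.ep_nonneg
  have hβ : (0 : ℝ) ≤ 1 / (Fintype.card V : ℝ) := by positivity
  have hdi : (0 : ℝ) ≤ 1 / (d : ℝ) := by positivity
  have hδ0 : ∀ r, 0 ≤ dl (1 / (d : ℝ)) (lam / d) r := dl_nonneg _ _ hdi hε0
  have hD0 : ∀ r, 0 ≤ DD 2 (1 / (d : ℝ)) (lam / d) r := DDn_nonneg 2 _ _ (by norm_num) hdi hε0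
  have hDr : ∀ r, 1 ≤ r → 2 * DD 2 (1 / (d : ℝ)) (lam / d) (r + 1) + dl (1 / (d : ℝ)) (lam / d) r ≤ DD 2 (1 / (d : ℝ)) (lam / d) r :=
    DD_rec 2 _ _ (by norm_num) hdi hε0 (by linarith)
  have h1 := c.Lam1g (j + 1) (by omega) k₁ F₀ y y'
  have h2 := c.sum_F_les F₀ hF (k₁ + (j + 1)) (by omega) y
  have h3 := geo_sum_g (fun t => S G g d t F₀ y y' (fun _ _ _ => 1)) (1 / (Fintype.card V : ℝ)) 2
    (dl (1 / (d : ℝ)) (lam / d)) (DD 2 (1 / (d : ℝ)) (lam / d)) hβ (le_refl 2) hD0 hDr (fun t => c.S_one_nonneg t F₀ y y') k₁ hstep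
    (j + 1) (by omega)
  have h4 := pow_chain (fun t => S G g d t F₀ y y' (fun _ _ _ => 1)) 2 (by norm_num) k₁ hstep
  have h40 : (1 : ℝ) ≤ 2 ^ k₁ * S G g d k₁ F₀ y y' (fun _ _ _ => 1) := h4
  have ha := c.S_one_nonneg k₁ F₀ y y'
  have hdc := D_chain 2 (dl (1 / (d : ℝ)) (lam / d)) (DD 2 (1 / (d : ℝ)) (lam / d)) (by norm_num) hδ0 hD0 hDr (j + 1) k₁ (by omega)
  have ekj : j + 1 + k₁ = k₁ + (j + 1) := by ring
  rw [ekj] at hdc
  have e : ∑ i ∈ range k₁, S G g d (i + 1) F₀ y y' (fun _ _ _ => 1)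
        * (4 * c.bs (k₁ - (i + 1) + (j + 1)))
      = 4 * ∑ i ∈ range k₁, S G g d (i + 1) F₀ y y' (fun _ _ _ => 1)
        * (1 / (Fintype.card V : ℝ) + dl (1 / (d : ℝ)) (lam / d) (k₁ - (i + 1) + (j + 1))) := by
    rw [Finset.mul_sum]
    apply Finset.sum_congr rfl
    intro i _
    unfold Ctx.bs
    ring
  rw [e] at h1
  unfold Ctx.bs at h2
  have hδk := hδ0 (k₁ + (j + 1))
  have h5 : 2 * (1 / (Fintype.card V : ℝ) + dl (1 / (d : ℝ)) (lam / d) (k₁ + (j + 1)))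
      ≤ S G g d k₁ F₀ y y' (fun _ _ _ => 1)
        * (2 * (1 / (Fintype.card V : ℝ)) * 2 ^ k₁ + 2 * DD 2 (1 / (d : ℝ)) (lam / d) (j + 1)) := by
    have e2 : 2 * (1 / (Fintype.card V : ℝ) + dl (1 / (d : ℝ)) (lam / d) (k₁ + (j + 1)))
          * (2 ^ k₁ * S G g d k₁ F₀ y y' (fun _ _ _ => 1))
        = S G g d k₁ F₀ y y' (fun _ _ _ => 1)
          * (2 * (1 / (Fintype.card V : ℝ)) * 2 ^ k₁
            + 2 * (2 ^ k₁ * dl (1 / (d : ℝ)) (lam / d) (k₁ + (j + 1)))) := by ring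
    have h6 : 2 * (1 / (Fintype.card V : ℝ) + dl (1 / (d : ℝ)) (lam / d) (k₁ + (j + 1)))
        ≤ 2 * (1 / (Fintype.card V : ℝ) + dl (1 / (d : ℝ)) (lam / d) (k₁ + (j + 1)))
          * (2 ^ k₁ * S G g d k₁ F₀ y y' (fun _ _ _ => 1)) := by
      have h61 : 0 ≤ 2 * (1 / (Fintype.card V : ℝ) + dl (1 / (d : ℝ)) (lam / d) (k₁ + (j + 1))) := by linarith
      nlinarith
    rw [e2] at h6
    refine h6.trans (mul_le_mul_of_nonneg_left ?_ ha)
    linarith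
  have h7 : S G g d k₁ F₀ y y' (fun _ _ _ => 1)
        * (1 / (Fintype.card V : ℝ) * (2 ^ k₁ - 1) + DD 2 (1 / (d : ℝ)) (lam / d) (j + 1))
      ≤ S G g d k₁ F₀ y y' (fun _ _ _ => 1)
        * (1 / (Fintype.card V : ℝ) * 2 ^ k₁ + DD 2 (1 / (d : ℝ)) (lam / d) (j + 1)) := by
    apply mul_le_mul_of_nonneg_left _ ha
    nlinarith
  nlinarith

/-- the chain of comparisons of the second phase, with sharp one-step bounds -/
lemma phase2_chain_s {E : (Finset V → V → V → ℝ) → ℝ} {O1 O2 : Finset V} (hV : Nonempty V)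
    (hE : PLF E) (m : ℕ) (LA : ℕ → ℝ) (Λ : ℝ) (hLA0 : ∀ j, 0 ≤ LA j)
    (hLA : ∀ j, E (fun F a _ => ∑ q ∈ F, pw G g d (j + 1) a q)
      ≤ Gam G g d E O1 O2 0 * LA j)
    (hLB : ∀ j, E (fun F _ b => ∑ q ∈ F, pw G g d (j + 1) b q)
      ≤ Gam G g d E O1 O2 0 * LA j)
    (hA0 : (Fintype.card V : ℝ) * ∑ w, sa G g d E O1 O2 0 w ^ 2
      ≤ 6 * Gam G g d E O1 O2 0 ^ 2)
    (hB0 : (Fintype.card V : ℝ) * ∑ w, sa G g d (swapE E) O2 O1 0 w ^ 2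
      ≤ 6 * Gam G g d E O1 O2 0 ^ 2)
    (hΛ : ∀ j, j < m → 8 ^ j * LA j ≤ Λ)
    (hε16 : 16 * (lam / d) ≤ 1)
    (hnum : 1 / 8 + 129 / 16 * (lam / d) + 2 * Λ + 4 * (1 / (Fintype.card V : ℝ)) * 8 ^ m
        + 4 * DD 8 (1 / (d : ℝ)) (lam / d) 1
      ≤ ((O1.card : ℝ) / (Fintype.card V : ℝ)) * ((O2.card : ℝ) / (Fintype.card V : ℝ)))
    (hε2 : 64 * 65 * (lam / d) ^ 2 ≤ 1) :
    ∀ j, j < m → Gam G g d E O1 O2 j ≤ 8 * Gam G g d E O1 O2 (j + 1) := by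
  have hN : (0 : ℝ) < (Fintype.card V : ℝ) := by exact_mod_cast Fintype.card_pos
  have hE' := swapE_plf hE
  have hε0 := c.ep_nonneg
  have hdi : (0 : ℝ) ≤ 1 / (d : ℝ) := by positivity
  have hp : ∀ O : Finset V, 0 ≤ (O.card : ℝ) / (Fintype.card V : ℝ)
      ∧ (O.card : ℝ) / (Fintype.card V : ℝ) ≤ 1 := by
    intro O
    refine ⟨by positivity, ?_⟩
    rw [div_le_one hN]
    exact_mod_cast Finset.card_le_univ O
  have hsq : ∀ (E' : (Finset V → V → V → ℝ) → ℝ) (Oa Ob : Finset V), PLF E' → ∀ j,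
      (Fintype.card V : ℝ) * ∑ w, sa G g d E' Oa Ob (j + 1) w ^ 2
        ≤ Gam G g d E' Oa Ob j ^ 2
          + (lam / d) ^ 2 * ((Fintype.card V : ℝ) * ∑ w, sa G g d E' Oa Ob j w ^ 2) := by
    intro E' Oa Ob hE'' j
    have h1 := c.sa_sq (O1 := Oa) (O2 := Ob) hE'' j
    have h2 := mul_le_mul_of_nonneg_left h1 hN.le
    rw [mul_add, mul_div_cancel₀ _ hN.ne'] at h2
    linarith
  apply num2_g (fun j => Gam G g d E O1 O2 j)
    (fun j => (Fintype.card V : ℝ) * ∑ w, sa G g d E O1 O2 j w ^ 2)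
    (fun j => (Fintype.card V : ℝ) * ∑ w, sa G g d (swapE E) O2 O1 j w ^ 2)
    (fun j => ∑ z, sa G g d E O1 O2 j z
      * |sOm G g d O1 z - (O1.card : ℝ) / (Fintype.card V : ℝ)|)
    (fun j => ∑ z, sa G g d (swapE E) O2 O1 j z
      * |sOm G g d O2 z - (O2.card : ℝ) / (Fintype.card V : ℝ)|)
    (fun j => XA G g d E O1 O2 j) (fun j => XA G g d (swapE E) O2 O1 j)
    (1 / (Fintype.card V : ℝ)) (lam / d) Λ
    (((O1.card : ℝ) / (Fintype.card V : ℝ)) * ((O2.card : ℝ) / (Fintype.card V : ℝ)))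
    (dl (1 / (d : ℝ)) (lam / d)) (DD 8 (1 / (d : ℝ)) (lam / d)) LA m
  · exact fun j => Gam_nonneg hE j
  · positivity
  · exact hε0
  · exact dl_nonneg _ _ hdi hε0
  · exact DDn_nonneg 8 _ _ (by norm_num) hdi hε0
  · exact DD_rec 8 _ _ (by norm_num) hdi hε0 (by linarith)
  · exact hLA0
  · exact fun j => hsq E O1 O2 hE j
  · intro j
    have := hsq (swapE E) O2 O1 hE' j
    rw [Gam_swap] at this
    exact this
  · exact fun j => c.sa_dev hE j _ rfl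
  · exact fun j => c.sa_dev (O1 := O2) (O2 := O1) hE' j _ rfl
  · intro j
    have h1 := c.XA_leg (O1 := O1) (O2 := O2) hE j
    have h2 := hLA j
    unfold Ctx.bs at h1
    linarith
  · intro j
    have h1 := c.XA_leg (O1 := O2) (O2 := O1) hE' j
    have h2 := hLB j
    unfold Ctx.bs at h1
    have e : ∑ i ∈ range j, Gam G g d (swapE E) O2 O1 (i + 1)
          * (2 * (1 / (Fintype.card V : ℝ) + dl (1 / (d : ℝ)) (lam / d) (j - i)))
        = ∑ i ∈ range j, Gam G g d E O1 O2 (i + 1)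
          * (2 * (1 / (Fintype.card V : ℝ) + dl (1 / (d : ℝ)) (lam / d) (j - i))) :=
      Finset.sum_congr rfl (fun i _ => by rw [Gam_swap])
    rw [e] at h1
    have e2 : swapE E (fun F a _ => ∑ q ∈ F, pw G g d (j + 1) a q)
        = E (fun F _ b => ∑ q ∈ F, pw G g d (j + 1) b q) := rfl
    rw [e2] at h1
    linarith
  · intro j
    exact c.Gam_step hE j _ _ (hp O1).1 (hp O1).2 (hp O2).1 (hp O2).2
  · exact hA0
  · exact hB0
  · exact hΛ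
  · exact hnum
  · exact hε2

/-- the lower bound for the expected weight of the junction edge after both phases -/
theorem phase_all_s (k₁ m : ℕ) (F₀ : Finset V) (hF : F₀.card ≤ 2) (y y' : V)
    (O1 O2 : Finset V)
    (hpq : 15 / 64 ≤ ((O1.card : ℝ) / (Fintype.card V : ℝ)) * ((O2.card : ℝ) / (Fintype.card V : ℝ)))
    (hl : 128 * lam ≤ d) (hd13 : (8192 : ℝ) ≤ (d : ℝ))
    (hk : 1024 * 2 ^ k₁ * 8 ^ m ≤ (Fintype.card V : ℝ))
    (hk1 : (Fintype.card V : ℝ) * (4 * (lam / d) ^ 2) ^ k₁ ≤ 1)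
    (hm : (Fintype.card V : ℝ) * (64 * (lam / d) ^ 2) ^ m ≤ 1) :
    (d : ℝ) / (2 * (Fintype.card V : ℝ)) * ((1 / 8) ^ m * (1 / 2) ^ k₁)
      ≤ S G g d k₁ F₀ y y' (fun F a b => JJ G g d O1 O2 m F a b) := by
  have hV : Nonempty V := ⟨y⟩
  have hN : (0 : ℝ) < (Fintype.card V : ℝ) := by exact_mod_cast Fintype.card_pos
  have hd := c.dpos'
  have hε0 := c.ep_nonneg
  have hlam := c.lam0
  have hε : lam / d ≤ 1 / 128 := by
    rw [div_le_iff₀ hd]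
    linarith
  have hdi0 : (0 : ℝ) ≤ 1 / (d : ℝ) := by positivity
  have hdi : 1 / (d : ℝ) ≤ 1 / 8192 := one_div_le_one_div_of_le (by norm_num) hd13
  have hε3 : (lam / d) ^ 3 ≤ 1 / 2097152 :=
    (pow_le_pow_left₀ hε0 hε 3).trans (by norm_num)
  have hε30 : 0 ≤ (lam / d) ^ 3 := pow_nonneg hε0 3
  have hε2' : (lam / d) ^ 2 ≤ 1 / 16384 :=
    (pow_le_pow_left₀ hε0 hε 2).trans (by norm_num)
  have h2k : (1 : ℝ) ≤ 2 ^ k₁ := one_le_pow₀ (by norm_num)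
  have h8m : (1 : ℝ) ≤ 8 ^ m := one_le_pow₀ (by norm_num)
  have hβkm : 1 / (Fintype.card V : ℝ) * (2 ^ k₁ * 8 ^ m) ≤ 1 / 1024 := by
    rw [div_mul_eq_mul_div, one_mul, div_le_div_iff₀ hN (by norm_num)]
    linarith
  have hβ : (0 : ℝ) ≤ 1 / (Fintype.card V : ℝ) := by positivity
  have hβk : 1 / (Fintype.card V : ℝ) * 2 ^ k₁ ≤ 1 / 1024 := by
    have : 1 / (Fintype.card V : ℝ) * 2 ^ k₁ ≤ 1 / (Fintype.card V : ℝ) * (2 ^ k₁ * 8 ^ m) := by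
      apply mul_le_mul_of_nonneg_left _ hβ
      nlinarith
    linarith
  have hβm : 1 / (Fintype.card V : ℝ) * 8 ^ m ≤ 1 / 1024 := by
    have : 1 / (Fintype.card V : ℝ) * 8 ^ m ≤ 1 / (Fintype.card V : ℝ) * (2 ^ k₁ * 8 ^ m) := by
      apply mul_le_mul_of_nonneg_left _ hβ
      nlinarith
    linarith
  have hdl1 : dl (1 / (d : ℝ)) (lam / d) 1 = 1 / (d : ℝ) := by
    unfold dl
    simp
  have hD21 : DD 2 (1 / (d : ℝ)) (lam / d) 1 = (1 + 2) * (1 / (d : ℝ)) + 2 * 2 ^ 2 * (lam / d) ^ 3 := by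
    unfold DD
    simp
  have hD81 : DD 8 (1 / (d : ℝ)) (lam / d) 1 = (1 + 8) * (1 / (d : ℝ)) + 2 * 8 ^ 2 * (lam / d) ^ 3 := by
    unfold DD
    simp
  have hε4 : 4 * (lam / d) ≤ 1 := by linarith
  have hnum1 : 14 * (1 / (Fintype.card V : ℝ)) * 2 ^ k₁ + 2 * dl (1 / (d : ℝ)) (lam / d) 1 + 12 * DD 2 (1 / (d : ℝ)) (lam / d) 1 ≤ 1 / 2 := by
    rw [hdl1, hD21]
    linarith
  have hε20 : 20 * (lam / d) ^ 2 ≤ 1 := by
    linarith
  have hs1 := c.gg_steps F₀ hF y y' k₁ hε4 hnum1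
  have hs2 := c.gg_steps F₀ hF y' y k₁ hε4 hnum1
  have hsw : ∀ t, S G g d t F₀ y' y (fun _ _ _ => 1) = S G g d t F₀ y y' (fun _ _ _ => 1) :=
    fun t => S_swap c.inv t F₀ y' y (fun _ _ _ => 1)
  set E : (Finset V → V → V → ℝ) → ℝ := S G g d k₁ F₀ y y' with hEdef
  have hE : PLF E := S_plf k₁ F₀ y y'
  have hΓ0 : Gam G g d E O1 O2 0 = S G g d k₁ F₀ y y' (fun _ _ _ => 1) := by
    unfold Gam
    rw [hEdef]
    congr 1
    funext F a b
    rw [ptot_zero, ptot_zero, mul_one]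
  have hD20 : ∀ r, 0 ≤ DD 2 (1 / (d : ℝ)) (lam / d) r := DDn_nonneg 2 _ _ (by norm_num) hdi0 hε0
  have hchain := c.phase2_chain_s (E := E) (O1 := O1) (O2 := O2) hV hE m
    (fun j => 6 * (1 / (Fintype.card V : ℝ)) * 2 ^ k₁ + 6 * DD 2 (1 / (d : ℝ)) (lam / d) (j + 1))
    (6 * (1 / (Fintype.card V : ℝ) * (2 ^ k₁ * 8 ^ m)) + 6 * (8 * (1 / (d : ℝ)) + 128 * (lam / d) ^ 3))
    (by
      intro j
      have := hD20 (j + 1)
      have h0 : 0 ≤ 6 * (1 / (Fintype.card V : ℝ)) * 2 ^ k₁ := by positivity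
      linarith)
    (by
      intro j
      rw [hΓ0]
      exact c.loss_bounds F₀ hF y y' k₁ j hs1 hε4)
    (by
      intro j
      rw [hΓ0, ← hsw k₁]
      have h1 := c.loss_bounds F₀ hF y' y k₁ j hs2 hε4
      have e : E (fun F _ b => ∑ q ∈ F, pw G g d (j + 1) b q)
          = S G g d k₁ F₀ y' y (fun F a _ => ∑ q ∈ F, pw G g d (j + 1) a q) :=
        S_swap c.inv k₁ F₀ y y' (fun F _ b => ∑ q ∈ F, pw G g d (j + 1) b q)
      rw [e]
      exact h1)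
    (by
      rw [hΓ0]
      have h1 := c.mg_bound hV F₀ y y' k₁ hs1 hε20 hk1
      have e : ∀ w, sa G g d E O1 O2 0 w = mg1 G g d k₁ F₀ y y' w := by
        intro w
        unfold sa mg1
        rw [hEdef]
        congr 1
        funext F a b
        rw [pc_zero, ptot_zero, mul_one]
      simp_rw [e]
      exact h1)
    (by
      rw [hΓ0, ← hsw k₁]
      have h1 := c.mg_bound hV F₀ y' y k₁ hs2 hε20 hk1
      have e : ∀ w, sa G g d (swapE E) O2 O1 0 w = mg1 G g d k₁ F₀ y' y w := by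
        intro w
        unfold sa mg1 swapE
        rw [hEdef]
        have e1 : (fun (F : Finset V) (a b : V) => pc G g d O2 0 F b w * ptot G g d O1 0 F a)
            = (fun (_ : Finset V) (_ b : V) => if b = w then (1 : ℝ) else 0) := by
          funext F a b
          rw [pc_zero, ptot_zero, mul_one]
        rw [e1]
        exact S_swap c.inv k₁ F₀ y y' (fun _ _ b => if b = w then (1 : ℝ) else 0)
      simp_rw [e]
      exact h1)
    (by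
      intro j hj
      have h1 := DD_sup (1 / (d : ℝ)) (lam / d) hdi0 hε0 (by linarith) j
      have hpow : (8 : ℝ) ^ j ≤ 8 ^ m := pow_le_pow_right₀ (by norm_num) hj.le
      have h2 : 6 * (1 / (Fintype.card V : ℝ)) * 2 ^ k₁ * 8 ^ j ≤ 6 * (1 / (Fintype.card V : ℝ)) * 2 ^ k₁ * 8 ^ m :=
        mul_le_mul_of_nonneg_left hpow (by positivity)
      have e3 : (8 : ℝ) ^ j * (6 * (1 / (Fintype.card V : ℝ)) * 2 ^ k₁ + 6 * DD 2 (1 / (d : ℝ)) (lam / d) (j + 1))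
          = 6 * (1 / (Fintype.card V : ℝ)) * 2 ^ k₁ * 8 ^ j + 6 * (8 ^ j * DD 2 (1 / (d : ℝ)) (lam / d) (j + 1)) := by ring
      rw [e3]
      have e4 : 6 * (1 / (Fintype.card V : ℝ) * (2 ^ k₁ * 8 ^ m)) = 6 * (1 / (Fintype.card V : ℝ)) * 2 ^ k₁ * 8 ^ m := by ring
      rw [e4]
      linarith)
    (by linarith)
    (by
      rw [hD81]
      have e2 : 4 * (1 / (Fintype.card V : ℝ)) * 8 ^ m = 4 * (1 / (Fintype.card V : ℝ) * 8 ^ m) := by ring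
      rw [e2]
      linarith)
    (by linarith)
  have hl' : 74 * lam ≤ d := by linarith
  have hj := c.junction_E2 (O1 := O1) (O2 := O2) hV hE m hchain (by linarith) hm hl'
  have hG0 := pow_chain (fun j => Gam G g d E O1 O2 j) 8 (by norm_num) m hchain
  have hg0 := pow_chain (fun t => S G g d t F₀ y y' (fun _ _ _ => 1)) 2 (by norm_num) k₁ hs1
  have hg0' : (1 : ℝ) ≤ 2 ^ k₁ * S G g d k₁ F₀ y y' (fun _ _ _ => 1) := hg0
  rw [hΓ0] at hG0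
  have hGm := Gam_nonneg (G := G) (g := g) (d := d) (O1 := O1) (O2 := O2) hE m
  have hlow : (1 / 8 : ℝ) ^ m * (1 / 2) ^ k₁ ≤ Gam G g d E O1 O2 m := by
    have h1 : (1 : ℝ) ≤ 2 ^ k₁ * (8 ^ m * Gam G g d E O1 O2 m) := by
      have := mul_le_mul_of_nonneg_left hG0 (by positivity : (0 : ℝ) ≤ 2 ^ k₁)
      linarith
    have e : (1 / 8 : ℝ) ^ m * (1 / 2) ^ k₁ * (2 ^ k₁ * 8 ^ m) = 1 := by
      rw [one_div_pow, one_div_pow]
      field_simp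
    have h2 : (0 : ℝ) ≤ (1 / 8 : ℝ) ^ m * (1 / 2) ^ k₁ := by positivity
    have h3 := mul_le_mul_of_nonneg_left h1 h2
    have e2 : (1 / 8 : ℝ) ^ m * (1 / 2) ^ k₁ * (2 ^ k₁ * (8 ^ m * Gam G g d E O1 O2 m))
        = ((1 / 8 : ℝ) ^ m * (1 / 2) ^ k₁ * (2 ^ k₁ * 8 ^ m)) * Gam G g d E O1 O2 m := by ring
    rw [e2, e, one_mul, mul_one] at h3
    exact h3
  have hcoef : (0 : ℝ) ≤ (d : ℝ) / (2 * (Fintype.card V : ℝ)) := by positivity
  exact (mul_le_mul_of_nonneg_left hlow hcoef).trans hj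

end Ctx

end Vale.Agent.Lib.P308
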