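import Vale.Agent.Lib.P308.VProc

namespace Vale.Agent.Lib.P308

open Finset

set_option linter.unusedSectionVars false
set_option linter.unusedVariables false

variable {V : Type*} [Fintype V] [DecidableEq V]

/-- recursive majorant of the (normalized) L2 norm of the confined walk -/
noncomputable def TT (G : SimpleGraph V) [DecidableRel G.Adj] (g : V → V) (d : ℕ) (lam : ℝ)
    (Om : Finset V) (s : ℝ) (F : Finset V) (y : V) : ℕ → ℝ
  | 0 => s
  | (n + 1) => ptot G g d Om n F y + (lam / d) * TT G g d lam Om s F y n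

variable {G : SimpleGraph V} [DecidableRel G.Adj] {g : V → V} {d : ℕ} {lam : ℝ}
variable {E : (Finset V → V → V → ℝ) → ℝ} {O1 O2 Om : Finset V}

lemma TT_succ (s : ℝ) (F : Finset V) (y : V) (n : ℕ) :
    TT G g d lam Om s F y (n + 1)
      = ptot G g d Om n F y + (lam / d) * TT G g d lam Om s F y n := rfl

lemma TT_eq (s : ℝ) (F : Finset V) (y : V) (n : ℕ) :
    TT G g d lam Om s F y n
      = ∑ j ∈ range n, (lam / d) ^ (n - 1 - j) * ptot G g d Om j F y + (lam / d) ^ n * s := by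
  induction n with
  | zero => simp [TT]
  | succ n ih =>
    rw [TT_succ, ih, Finset.sum_range_succ]
    have e : ∀ j ∈ range n, (lam / d) ^ (n + 1 - 1 - j) * ptot G g d Om j F y
        = (lam / d) * ((lam / d) ^ (n - 1 - j) * ptot G g d Om j F y) := by
      intro j hj
      have hj' := Finset.mem_range.1 hj
      have h1 : n + 1 - 1 - j = (n - 1 - j) + 1 := by omega
      rw [h1, pow_succ]; ring
    rw [Finset.sum_congr rfl e, ← Finset.mul_sum]
    have e2 : n + 1 - 1 - n = 0 := by omega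
    rw [e2, pow_zero, one_mul, pow_succ]
    ring

lemma PLF.sum_smul (hE : PLF E) {ι : Type*} (s : Finset ι) (coef : ι → ℝ)
    (φ : ι → Finset V → V → V → ℝ) :
    E (fun F a b => ∑ i ∈ s, coef i * φ i F a b) = ∑ i ∈ s, coef i * E (φ i) := by
  rw [hE.sum s (fun i F a b => coef i * φ i F a b)]
  apply Finset.sum_congr rfl
  intro i _
  exact hE.smul _ _

lemma PLF.sum_sum_smul (hE : PLF E) {ι κ : Type*} (s : Finset ι) (t : Finset κ)
    (coef : ι → κ → ℝ) (φ : ι → κ → Finset V → V → V → ℝ) :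
    E (fun F a b => ∑ j ∈ s, ∑ i ∈ t, coef j i * φ j i F a b)
      = ∑ j ∈ s, ∑ i ∈ t, coef j i * E (φ j i) := by
  rw [hE.sum s (fun j F a b => ∑ i ∈ t, coef j i * φ j i F a b)]
  apply Finset.sum_congr rfl
  intro j _
  exact hE.sum_smul t (coef j) (φ j)

namespace Ctx

variable (c : Ctx G g d lam)
include c

lemma pc_norm_le (s : ℝ) (hs0 : 0 ≤ s) (hs : (Fintype.card V : ℝ) ≤ s ^ 2)
    (F : Finset V) (y : V) (n : ℕ) :
    0 ≤ TT G g d lam Om s F y n ∧
      (Fintype.card V : ℝ) * ∑ w, pc G g d Om n F y w ^ 2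
        ≤ (TT G g d lam Om s F y n) ^ 2 := by
  have : Nonempty V := ⟨y⟩
  have hN : (0 : ℝ) < (Fintype.card V : ℝ) := by exact_mod_cast Fintype.card_pos
  induction n with
  | zero =>
    refine ⟨hs0, ?_⟩
    have h2 : ∑ w, pc G g d Om 0 F y w ^ 2 = 1 := by
      simp only [pc_zero]
      rw [Finset.sum_eq_single y]
      · simp
      · intro b _ hb; simp [Ne.symm hb]
      · intro h; exact absurd (Finset.mem_univ y) h
    rw [h2, mul_one]
    exact hs
  | succ n ih =>
    obtain ⟨ih0, ih1⟩ := ih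
    have hP := ptot_nonneg (G := G) (g := g) (d := d) (Om := Om) n F y
    have hε := c.ep_nonneg
    rw [TT_succ]
    have hεT : 0 ≤ (lam / d) * TT G g d lam Om s F y n := mul_nonneg hε ih0
    refine ⟨by linarith, ?_⟩
    have h2 := c.pc_sq (Om := Om) n F y
    have h3 := mul_le_mul_of_nonneg_left h2 hN.le
    rw [mul_add, mul_div_cancel₀ _ hN.ne'] at h3
    have h4 : (lam / d) ^ 2 * ((Fintype.card V : ℝ) * ∑ w, pc G g d Om n F y w ^ 2)
        ≤ (lam / d) ^ 2 * (TT G g d lam Om s F y n) ^ 2 :=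
      mul_le_mul_of_nonneg_left ih1 (sq_nonneg _)
    have h5 : 0 ≤ ptot G g d Om n F y * ((lam / d) * TT G g d lam Om s F y n) :=
      mul_nonneg hP hεT
    nlinarith

/-- expander mixing for weight functions, in terms of L2 majorants -/
lemma junction_n (a b : V → ℝ) (ha : ∀ z, 0 ≤ a z) (hb : ∀ z, 0 ≤ b z) (TA TB : ℝ)
    (hTA : 0 ≤ TA) (hTB : 0 ≤ TB)
    (hA : (Fintype.card V : ℝ) * ∑ z, a z ^ 2 ≤ TA ^ 2)
    (hB : (Fintype.card V : ℝ) * ∑ z, b z ^ 2 ≤ TB ^ 2) :
    ((d : ℝ) * ((∑ z, a z) * (∑ z, b z)) - lam * (TA * TB)) / (Fintype.card V : ℝ)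
      ≤ ∑ z, ∑ z', a z * b z' * (if G.Adj z z' then (1 : ℝ) else 0) := by
  rcases isEmpty_or_nonempty V with hV | hV
  · simp
  have hN : (0 : ℝ) < (Fintype.card V : ℝ) := by exact_mod_cast Fintype.card_pos
  set SA : ℝ := ∑ z, a z with hSA
  set SB : ℝ := ∑ z, b z with hSB
  set m : ℝ := SB / (Fintype.card V : ℝ) with hm
  have h0 : ∑ z, (b z - m) = 0 := by
    rw [Finset.sum_sub_distrib, Finset.sum_const, Finset.card_univ, nsmul_eq_mul, hm]
    field_simp
    ring
  have hsp := c.spec (fun z => b z - m) h0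
  have hb0 : ∑ z, (b z - m) ^ 2 ≤ ∑ z, b z ^ 2 := by
    have := c.sum_sq_sub b
    rw [← hSB, ← hm] at this
    have h2 : 0 ≤ SB ^ 2 / (Fintype.card V : ℝ) := by positivity
    linarith
  set Y : V → ℝ := fun z => (G.adjMatrix ℝ).mulVec (fun z' => b z' - m) z with hY
  have key : ∀ z, ∑ z', a z * b z' * (if G.Adj z z' then (1 : ℝ) else 0)
      = a z * Y z + a z * (d * m) := by
    intro z
    have h1 := c.mulVec_sub_const b m z
    have h2 : ∑ z', a z * b z' * (if G.Adj z z' then (1 : ℝ) else 0)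
        = a z * ∑ z', (if G.Adj z z' then b z' else 0) := by
      rw [Finset.mul_sum]
      apply Finset.sum_congr rfl
      intro z' _
      split_ifs <;> ring
    rw [h2, hY]
    simp only
    rw [h1]
    ring
  simp_rw [key]
  rw [Finset.sum_add_distrib, ← Finset.sum_mul, ← hSA]
  set X : ℝ := ∑ z, a z * Y z with hX
  have hcs : X ^ 2 ≤ (∑ z, a z ^ 2) * (∑ z, Y z ^ 2) :=
    Finset.sum_mul_sq_le_sq_mul_sq univ a Y
  have hY2 : ∑ z, Y z ^ 2 ≤ lam ^ 2 * ∑ z, b z ^ 2 :=
    hsp.trans (mul_le_mul_of_nonneg_left hb0 (sq_nonneg lam))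
  have ha2 : 0 ≤ ∑ z, a z ^ 2 := Finset.sum_nonneg (fun z _ => sq_nonneg _)
  have hb2 : 0 ≤ ∑ z, b z ^ 2 := Finset.sum_nonneg (fun z _ => sq_nonneg _)
  have hbig : ((Fintype.card V : ℝ) * X) ^ 2 ≤ (lam * (TA * TB)) ^ 2 := by
    have h1 : ((Fintype.card V : ℝ) * X) ^ 2
        ≤ lam ^ 2 * (((Fintype.card V : ℝ) * ∑ z, a z ^ 2)
          * ((Fintype.card V : ℝ) * ∑ z, b z ^ 2)) := by
      have h2 : X ^ 2 ≤ (∑ z, a z ^ 2) * (lam ^ 2 * ∑ z, b z ^ 2) :=
        hcs.trans (mul_le_mul_of_nonneg_left hY2 ha2)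
      have h3 := mul_le_mul_of_nonneg_left h2 (sq_nonneg (Fintype.card V : ℝ))
      nlinarith
    have h4 : ((Fintype.card V : ℝ) * ∑ z, a z ^ 2) * ((Fintype.card V : ℝ) * ∑ z, b z ^ 2)
        ≤ TA ^ 2 * TB ^ 2 := by
      apply mul_le_mul hA hB (by positivity) (by positivity)
    have h5 := mul_le_mul_of_nonneg_left h4 (sq_nonneg lam)
    calc ((Fintype.card V : ℝ) * X) ^ 2
        ≤ lam ^ 2 * (((Fintype.card V : ℝ) * ∑ z, a z ^ 2)
          * ((Fintype.card V : ℝ) * ∑ z, b z ^ 2)) := h1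
      _ ≤ lam ^ 2 * (TA ^ 2 * TB ^ 2) := h5
      _ = (lam * (TA * TB)) ^ 2 := by ring
  have hpos : 0 ≤ lam * (TA * TB) := mul_nonneg c.lam0 (mul_nonneg hTA hTB)
  have habs := abs_le_of_sq_le_sq' hbig hpos
  have hX1 : -(lam * (TA * TB)) ≤ (Fintype.card V : ℝ) * X := habs.1
  rw [div_le_iff₀ hN]
  have e : (X + SA * (d * m)) * (Fintype.card V : ℝ)
      = (Fintype.card V : ℝ) * X + d * (SA * SB) := by
    rw [hm]; field_simp
  rw [e]
  linarith

/-- the expected weight of the junction edge, aggregated form -/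
lemma junction_E2 (hV : Nonempty V) (hE : PLF E) (m : ℕ)
    (hch : ∀ j, j < m → Gam G g d E O1 O2 j ≤ 8 * Gam G g d E O1 O2 (j + 1))
    (hε : 16 * (lam / d) ≤ 1)
    (hm : (Fintype.card V : ℝ) * (64 * (lam / d) ^ 2) ^ m ≤ 1)
    (hl : 74 * lam ≤ d) :
    (d : ℝ) / (2 * (Fintype.card V : ℝ)) * Gam G g d E O1 O2 m
      ≤ E (fun F a b => ∑ z, ∑ z', pc G g d O1 m F a z * pc G g d O2 m F b z'
          * (if G.Adj z z' then (1 : ℝ) else 0)) := by
  classical
  have hN : (0 : ℝ) < (Fintype.card V : ℝ) := by exact_mod_cast Fintype.card_pos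
  have hd := c.dpos'
  have hε0 := c.ep_nonneg
  have hlam := c.lam0
  set ε : ℝ := lam / d with hεdef
  set s : ℝ := Real.sqrt (Fintype.card V : ℝ) with hsdef
  have hs0 : 0 ≤ s := Real.sqrt_nonneg _
  have hs2 : s ^ 2 = (Fintype.card V : ℝ) := Real.sq_sqrt hN.le
  set Gs : ℝ := ∑ a ∈ range m, ε ^ a with hGs
  have hGs0 : 0 ≤ Gs := Finset.sum_nonneg (fun a _ => pow_nonneg hε0 a)
  have hGs2 : Gs ≤ 2 := geo2 ε hε0 (by linarith) m
  set e : ℝ := ε ^ m * s with hedef
  have he0 : 0 ≤ e := mul_nonneg (pow_nonneg hε0 m) hs0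
  set K0 : ℝ := 2 * e * Gs + e ^ 2 with hK0
  have hK00 : 0 ≤ K0 := by positivity
  have hcoef : 0 ≤ lam / (Fintype.card V : ℝ) := div_nonneg hlam hN.le
  have hpt : ∀ (F : Finset V) (a b : V),
      (d : ℝ) / (Fintype.card V : ℝ) * (ptot G g d O1 m F a * ptot G g d O2 m F b)
        - lam / (Fintype.card V : ℝ) * ∑ j ∈ range m, ∑ i ∈ range m,
            (ε ^ (m - 1 - j) * ε ^ (m - 1 - i))
              * (ptot G g d O1 (min j i) F a * ptot G g d O2 (min j i) F b)
        - lam / (Fintype.card V : ℝ) * (K0 * (ptot G g d O1 0 F a * ptot G g d O2 0 F b))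
      ≤ ∑ z, ∑ z', pc G g d O1 m F a z * pc G g d O2 m F b z'
          * (if G.Adj z z' then (1 : ℝ) else 0) := by
    intro F a b
    obtain ⟨hT10, hT1⟩ := c.pc_norm_le (Om := O1) s hs0 hs2.ge F a m
    obtain ⟨hT20, hT2⟩ := c.pc_norm_le (Om := O2) s hs0 hs2.ge F b m
    have hj := c.junction_n (fun z => pc G g d O1 m F a z) (fun z => pc G g d O2 m F b z)
      (fun z => pc_nonneg _ _ _ _) (fun z => pc_nonneg _ _ _ _)
      (TT G g d lam O1 s F a m) (TT G g d lam O2 s F b m) hT10 hT20 hT1 hT2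
    refine le_trans ?_ hj
    set U1 : ℝ := ∑ j ∈ range m, ε ^ (m - 1 - j) * ptot G g d O1 j F a with hU1
    set U2 : ℝ := ∑ i ∈ range m, ε ^ (m - 1 - i) * ptot G g d O2 i F b with hU2
    have eT1 : TT G g d lam O1 s F a m = U1 + e := TT_eq s F a m
    have eT2 : TT G g d lam O2 s F b m = U2 + e := TT_eq s F b m
    have hU10 : 0 ≤ U1 := Finset.sum_nonneg (fun j _ =>
      mul_nonneg (pow_nonneg hε0 _) (ptot_nonneg _ _ _))
    have hU20 : 0 ≤ U2 := Finset.sum_nonneg (fun j _ =>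
      mul_nonneg (pow_nonneg hε0 _) (ptot_nonneg _ _ _))
    have hrefl : ∑ j ∈ range m, ε ^ (m - 1 - j) = Gs :=
      Finset.sum_range_reflect (fun a => ε ^ a) m
    have hU1G : U1 ≤ Gs := by
      rw [← hrefl]
      apply Finset.sum_le_sum
      intro j _
      exact mul_le_of_le_one_right (pow_nonneg hε0 _) (c.ptot_le_one j F a)
    have hU2G : U2 ≤ Gs := by
      rw [← hrefl]
      apply Finset.sum_le_sum
      intro j _
      exact mul_le_of_le_one_right (pow_nonneg hε0 _) (c.ptot_le_one j F b)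
    have hUU : U1 * U2 ≤ ∑ j ∈ range m, ∑ i ∈ range m,
        (ε ^ (m - 1 - j) * ε ^ (m - 1 - i))
          * (ptot G g d O1 (min j i) F a * ptot G g d O2 (min j i) F b) := by
      rw [hU1, hU2, Finset.sum_mul_sum]
      apply Finset.sum_le_sum
      intro j _
      apply Finset.sum_le_sum
      intro i _
      have h1 := c.ptot_anti (Om := O1) (Nat.min_le_left j i) F a
      have h2 := c.ptot_anti (Om := O2) (Nat.min_le_right j i) F b
      have h3 : ptot G g d O1 j F a * ptot G g d O2 i F b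
          ≤ ptot G g d O1 (min j i) F a * ptot G g d O2 (min j i) F b :=
        mul_le_mul h1 h2 (ptot_nonneg _ _ _) (ptot_nonneg _ _ _)
      have h4 : 0 ≤ ε ^ (m - 1 - j) * ε ^ (m - 1 - i) :=
        mul_nonneg (pow_nonneg hε0 _) (pow_nonneg hε0 _)
      have h5 := mul_le_mul_of_nonneg_left h3 h4
      refine le_trans (le_of_eq ?_) h5
      ring
    have hTT : TT G g d lam O1 s F a m * TT G g d lam O2 s F b m
        ≤ ∑ j ∈ range m, ∑ i ∈ range m, (ε ^ (m - 1 - j) * ε ^ (m - 1 - i))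
            * (ptot G g d O1 (min j i) F a * ptot G g d O2 (min j i) F b)
          + K0 * (ptot G g d O1 0 F a * ptot G g d O2 0 F b) := by
      rw [eT1, eT2, ptot_zero, ptot_zero, hK0]
      have h6 : e * U1 ≤ e * Gs := mul_le_mul_of_nonneg_left hU1G he0
      have h7 : e * U2 ≤ e * Gs := mul_le_mul_of_nonneg_left hU2G he0
      nlinarith
    have hsum : ∑ z, pc G g d O1 m F a z = ptot G g d O1 m F a := rfl
    have hsum2 : ∑ z, pc G g d O2 m F b z = ptot G g d O2 m F b := rfl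
    rw [hsum, hsum2]
    have h8 := mul_le_mul_of_nonneg_left hTT hlam
    have e9 : (d : ℝ) / (Fintype.card V : ℝ) * (ptot G g d O1 m F a * ptot G g d O2 m F b)
        - lam / (Fintype.card V : ℝ) * ∑ j ∈ range m, ∑ i ∈ range m,
            (ε ^ (m - 1 - j) * ε ^ (m - 1 - i))
              * (ptot G g d O1 (min j i) F a * ptot G g d O2 (min j i) F b)
        - lam / (Fintype.card V : ℝ) * (K0 * (ptot G g d O1 0 F a * ptot G g d O2 0 F b))
        = ((d : ℝ) * (ptot G g d O1 m F a * ptot G g d O2 m F b)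
          - lam * (∑ j ∈ range m, ∑ i ∈ range m, (ε ^ (m - 1 - j) * ε ^ (m - 1 - i))
              * (ptot G g d O1 (min j i) F a * ptot G g d O2 (min j i) F b)
            + K0 * (ptot G g d O1 0 F a * ptot G g d O2 0 F b))) / (Fintype.card V : ℝ) := by
      ring
    rw [e9]
    apply div_le_div_of_nonneg_right _ hN.le
    linarith
  refine le_trans ?_ (hE.mono hpt)
  rw [hE.sub (fun F a b => (d : ℝ) / (Fintype.card V : ℝ)
          * (ptot G g d O1 m F a * ptot G g d O2 m F b)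
        - lam / (Fintype.card V : ℝ) * ∑ j ∈ range m, ∑ i ∈ range m,
            (ε ^ (m - 1 - j) * ε ^ (m - 1 - i))
              * (ptot G g d O1 (min j i) F a * ptot G g d O2 (min j i) F b))
      (fun F a b => lam / (Fintype.card V : ℝ)
        * (K0 * (ptot G g d O1 0 F a * ptot G g d O2 0 F b))),
    hE.sub (fun F a b => (d : ℝ) / (Fintype.card V : ℝ)
          * (ptot G g d O1 m F a * ptot G g d O2 m F b))
      (fun F a b => lam / (Fintype.card V : ℝ) * ∑ j ∈ range m, ∑ i ∈ range m,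
            (ε ^ (m - 1 - j) * ε ^ (m - 1 - i))
              * (ptot G g d O1 (min j i) F a * ptot G g d O2 (min j i) F b)),
    hE.smul ((d : ℝ) / (Fintype.card V : ℝ))
      (fun F a b => ptot G g d O1 m F a * ptot G g d O2 m F b),
    hE.smul (lam / (Fintype.card V : ℝ)) (fun F a b => ∑ j ∈ range m, ∑ i ∈ range m,
            (ε ^ (m - 1 - j) * ε ^ (m - 1 - i))
              * (ptot G g d O1 (min j i) F a * ptot G g d O2 (min j i) F b)),
    hE.sum_sum_smul (range m) (range m) (fun j i => ε ^ (m - 1 - j) * ε ^ (m - 1 - i))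
      (fun j i F a b => ptot G g d O1 (min j i) F a * ptot G g d O2 (min j i) F b),
    hE.smul (lam / (Fintype.card V : ℝ))
      (fun F a b => K0 * (ptot G g d O1 0 F a * ptot G g d O2 0 F b)),
    hE.smul K0 (fun F a b => ptot G g d O1 0 F a * ptot G g d O2 0 F b)]
  change _ ≤ (d : ℝ) / (Fintype.card V : ℝ) * Gam G g d E O1 O2 m
    - lam / (Fintype.card V : ℝ) * ∑ j ∈ range m, ∑ i ∈ range m,
        (ε ^ (m - 1 - j) * ε ^ (m - 1 - i)) * Gam G g d E O1 O2 (min j i)
    - lam / (Fintype.card V : ℝ) * (K0 * Gam G g d E O1 O2 0)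
  have hGm := Gam_nonneg (G := G) (g := g) (d := d) (O1 := O1) (O2 := O2) hE m
  have hx0 : 0 ≤ 8 * ε := by positivity
  have hgeo8 : ∑ a ∈ range m, (8 * ε) ^ a ≤ 2 := geo2 (8 * ε) hx0 (by linarith) m
  have hgeo80 : 0 ≤ ∑ a ∈ range m, (8 * ε) ^ a :=
    Finset.sum_nonneg (fun a _ => pow_nonneg hx0 a)
  have hX : ∑ j ∈ range m, ∑ i ∈ range m,
        (ε ^ (m - 1 - j) * ε ^ (m - 1 - i)) * Gam G g d E O1 O2 (min j i)
      ≤ 32 * Gam G g d E O1 O2 m := by
    have hterm : ∀ j ∈ range m, ∀ i ∈ range m,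
        (ε ^ (m - 1 - j) * ε ^ (m - 1 - i)) * Gam G g d E O1 O2 (min j i)
          ≤ ((8 * ε) ^ (m - 1 - j) * (8 * ε) ^ (m - 1 - i)) * (8 * Gam G g d E O1 O2 m) := by
      intro j hj i hi
      have hj' := Finset.mem_range.1 hj
      have hi' := Finset.mem_range.1 hi
      have hmin : min j i ≤ m := (Nat.min_le_left j i).trans hj'.le
      have h1 := chain_from (fun l => Gam G g d E O1 O2 l) 8 (by norm_num) (min j i)
        (m - min j i) (fun l _ hl => hch l (by omega))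
      have hjm' : min j i + (m - min j i) = m := by omega
      simp only [hjm'] at h1
      have hexp : m - min j i ≤ (m - 1 - j) + (m - 1 - i) + 1 := by
        rcases Nat.le_total j i with h | h
        · rw [Nat.min_eq_left h]; omega
        · rw [Nat.min_eq_right h]; omega
      have h2 : (8 : ℝ) ^ (m - min j i) ≤ 8 ^ ((m - 1 - j) + (m - 1 - i) + 1) :=
        pow_le_pow_right₀ (by norm_num) hexp
      have h3 : Gam G g d E O1 O2 (min j i)
          ≤ 8 ^ ((m - 1 - j) + (m - 1 - i) + 1) * Gam G g d E O1 O2 m :=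
        h1.trans (mul_le_mul_of_nonneg_right h2 hGm)
      have h4 : 0 ≤ ε ^ (m - 1 - j) * ε ^ (m - 1 - i) :=
        mul_nonneg (pow_nonneg hε0 _) (pow_nonneg hε0 _)
      refine (mul_le_mul_of_nonneg_left h3 h4).trans (le_of_eq ?_)
      rw [mul_pow, mul_pow, pow_add, pow_add, pow_one]
      ring
    refine (Finset.sum_le_sum (fun j hj => Finset.sum_le_sum (fun i hi => hterm j hj i hi))).trans ?_
    have e1 : ∑ j ∈ range m, ∑ i ∈ range m,
          ((8 * ε) ^ (m - 1 - j) * (8 * ε) ^ (m - 1 - i)) * (8 * Gam G g d E O1 O2 m)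
        = (∑ j ∈ range m, (8 * ε) ^ (m - 1 - j)) * (∑ i ∈ range m, (8 * ε) ^ (m - 1 - i))
          * (8 * Gam G g d E O1 O2 m) := by
      rw [Finset.sum_mul_sum, Finset.sum_mul]
      apply Finset.sum_congr rfl
      intro j _
      rw [Finset.sum_mul]
    rw [e1, Finset.sum_range_reflect (fun a => (8 * ε) ^ a) m]
    have hsq : (∑ a ∈ range m, (8 * ε) ^ a) * (∑ a ∈ range m, (8 * ε) ^ a) ≤ 4 := by
      nlinarith
    have h8G : 0 ≤ 8 * Gam G g d E O1 O2 m := by linarith
    have hfin := mul_le_mul_of_nonneg_right hsq h8G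
    linarith
  have hK : K0 * Gam G g d E O1 O2 0 ≤ 5 * Gam G g d E O1 O2 m := by
    have h1 := pow_chain (fun l => Gam G g d E O1 O2 l) 8 (by norm_num) m hch
    have h1' : Gam G g d E O1 O2 0 ≤ 8 ^ m * Gam G g d E O1 O2 m := h1
    set u : ℝ := (8 * ε) ^ m * s with hu
    have hu0 : 0 ≤ u := mul_nonneg (pow_nonneg hx0 m) hs0
    have hu2 : u ^ 2 ≤ 1 := by
      have e2 : u ^ 2 = (Fintype.card V : ℝ) * (64 * ε ^ 2) ^ m := by
        rw [hu, mul_pow, hs2, ← pow_mul, mul_comm m 2, pow_mul]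
        ring
      rw [e2]; exact hm
    have hu1 : u ≤ 1 := by nlinarith
    have h8m : (1 : ℝ) ≤ 8 ^ m := one_le_pow₀ (by norm_num)
    have heu : e * 8 ^ m = u := by
      rw [hedef, hu, mul_pow]; ring
    have he_le : e ≤ u := by
      rw [← heu]
      nlinarith
    have hK8 : K0 * 8 ^ m ≤ 5 := by
      have e3 : K0 * 8 ^ m = 2 * u * Gs + e * u := by
        rw [hK0, ← heu]; ring
      rw [e3]
      nlinarith
    calc K0 * Gam G g d E O1 O2 0 ≤ K0 * (8 ^ m * Gam G g d E O1 O2 m) :=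
          mul_le_mul_of_nonneg_left h1' hK00
      _ = (K0 * 8 ^ m) * Gam G g d E O1 O2 m := by ring
      _ ≤ 5 * Gam G g d E O1 O2 m := mul_le_mul_of_nonneg_right hK8 hGm
  have h9 := mul_le_mul_of_nonneg_left hX hcoef
  have h10 := mul_le_mul_of_nonneg_left hK hcoef
  have e11 : (d : ℝ) / (2 * (Fintype.card V : ℝ)) * Gam G g d E O1 O2 m
      = (d : ℝ) / (Fintype.card V : ℝ) * Gam G g d E O1 O2 m
        - ((d : ℝ) / 2) / (Fintype.card V : ℝ) * Gam G g d E O1 O2 m := by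
    field_simp
    ring
  have h12 : lam / (Fintype.card V : ℝ) * (37 * Gam G g d E O1 O2 m)
      ≤ ((d : ℝ) / 2) / (Fintype.card V : ℝ) * Gam G g d E O1 O2 m := by
    have h13 : lam * 37 ≤ (d : ℝ) / 2 := by linarith
    have h14 := div_le_div_of_nonneg_right h13 hN.le
    have h15 := mul_le_mul_of_nonneg_right h14 hGm
    refine le_trans (le_of_eq ?_) h15
    ring
  rw [e11]
  linarith

end Ctx

end Vale.Agent.Lib.P308
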