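import Vale.Agent.Lib.P308.VAsm
import Vale.Agent.Lib.P308.UMain

namespace Vale.Agent.Lib.P308

open Finset

set_option linter.unusedSectionVars false
set_option linter.unusedVariables false

variable {V : Type*} [Fintype V] [DecidableEq V]

/-- a union of matched pairs that contains about half of the vertices -/
lemma exists_side_bal (g : V → V) (hg : ∀ x, g (g x) = x) (hN : 2 ≤ Fintype.card V) :
    ∃ U : Finset V, (∀ v ∈ U, g v ∈ U) ∧ Fintype.card V ≤ 2 * U.card + 3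
      ∧ 2 * U.card ≤ Fintype.card V := by
  obtain ⟨U, h1, h2, h3⟩ := exists_side_aux g hg (Fintype.card V / 2 - 1) (by omega)
  exact ⟨U, h1, by omega, by omega⟩

/-- the counting bound in the sparse case, with the sharper constants -/
theorem caseB_count (G : SimpleGraph V) [DecidableRel G.Adj] (d : ℕ) (hd : 0 < d)
    (hreg : G.IsRegularOfDegree d) (lam : ℝ) (hlam : 0 ≤ lam)
    (hspec : ∀ x : V → ℝ, ∑ v, x v = 0 →
      ∑ v, ((G.adjMatrix ℝ).mulVec x v) ^ 2 ≤ lam ^ 2 * ∑ v, x v ^ 2)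
    (k₁ m : ℕ) (hN : 12 ≤ Fintype.card V) (hl : 128 * lam ≤ d) (hd13 : (8192 : ℝ) ≤ (d : ℝ))
    (hk : 1024 * 2 ^ k₁ * 8 ^ m ≤ (Fintype.card V : ℝ))
    (hk1 : (Fintype.card V : ℝ) * (4 * (lam / d) ^ 2) ^ k₁ ≤ 1)
    (hm : (Fintype.card V : ℝ) * (64 * (lam / d) ^ 2) ^ m ≤ 1) :
    ((NearInv G).card : ℝ)
        * ((d : ℝ) / (2 * (Fintype.card V : ℝ)) * ((1 / 8) ^ m * (1 / 2) ^ k₁))
      ≤ (Fintype.card V : ℝ) * ((PMinv G).card : ℝ) := by
  apply count_main d hd hreg (k₁ + m)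
  intro s hs
  rw [mem_St] at hs
  obtain ⟨f, u, v⟩ := s
  obtain ⟨hf, hh, huv⟩ := hs
  simp only at hf hh huv
  obtain ⟨gi, gu, gv, gag⟩ := cls_inv hf hh huv
  have c : Ctx G (cls f u v) d lam := ⟨hreg, gi, hd, hlam, hspec⟩
  obtain ⟨U, hU1, hU2, hU3⟩ := exists_side_bal (cls f u v) gi (by omega)
  have hPI : PInv G (cls f u v) f {u, v} u v := by
    refine ⟨hf, hh, huv, by simp, by simp, ?_, gag⟩
    intro x hx
    simp only [mem_insert, mem_singleton] at hx ⊢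
    rcases hx with hx | hx
    · right; rw [hx, gu]
    · left; rw [hx, gv]
  have hcard : ({u, v} : Finset V).card ≤ 2 := Finset.card_le_two
  have hNpos : (0 : ℝ) < (Fintype.card V : ℝ) := by
    have : 0 < Fintype.card V := by omega
    exact_mod_cast this
  have hpq : 15 / 64 ≤ ((U.card : ℝ) / (Fintype.card V : ℝ))
      * (((Uᶜ).card : ℝ) / (Fintype.card V : ℝ)) := by
    have e := Finset.card_add_card_compl U
    have e' : (U.card : ℝ) + ((Uᶜ).card : ℝ) = (Fintype.card V : ℝ) := by exact_mod_cast e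
    have a1 : (Fintype.card V : ℝ) ≤ 2 * (U.card : ℝ) + 3 := by exact_mod_cast hU2
    have a2 : 2 * (U.card : ℝ) ≤ (Fintype.card V : ℝ) := by exact_mod_cast hU3
    have a0 : (12 : ℝ) ≤ (Fintype.card V : ℝ) := by exact_mod_cast hN
    rw [div_mul_div_comm, le_div_iff₀ (by positivity)]
    have a3 : ((Uᶜ).card : ℝ) = (Fintype.card V : ℝ) - (U.card : ℝ) := by linarith
    rw [a3]
    have ht2 : ((Fintype.card V : ℝ) - 2 * (U.card : ℝ)) ^ 2 ≤ 9 := by nlinarith
    have hN2 : (144 : ℝ) ≤ (Fintype.card V : ℝ) ^ 2 := by nlinarith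
    nlinarith
  have h1 := c.phase_all_s k₁ m {u, v} hcard u v U Uᶜ hpq hl hd13 hk hk1 hm
  have hO : ∀ x ∈ U, x ∉ Uᶜ := by
    intro x hx
    simp [hx]
  have hg2 : ∀ x ∈ Uᶜ, cls f u v x ∈ Uᶜ := by
    intro x hx
    rw [Finset.mem_compl] at hx ⊢
    intro hc
    have := hU1 _ hc
    rw [gi] at this
    exact hx this
  have h2 : S G (cls f u v) d k₁ {u, v} u v (fun F a b => JJ G (cls f u v) d U Uᶜ m F a b)
      ≤ S G (cls f u v) d k₁ {u, v} u v (fun F a b =>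
          S G (cls f u v) d m F a b (fun _ a b => if G.Adj a b then 1 else 0)) :=
    (S_plf k₁ {u, v} u v).mono (fun F a b => JJ_le_S U Uᶜ hO hU1 hg2 m F a b)
  have h3 := S_comp (G := G) (g := cls f u v) (d := d) k₁ m {u, v} u v
    (fun _ a b => if G.Adj a b then (1 : ℝ) else 0)
  have h4 := S_le_wc c (k₁ + m) f {u, v} u v hPI
  rw [h3] at h4
  exact (h1.trans h2).trans h4

/-- graphs of intermediate size : two rounds of spectral vertex expansion suffice -/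
theorem near_le_mid (G : SimpleGraph V) [DecidableRel G.Adj] (d : ℕ)
    (hreg : G.IsRegularOfDegree d) (lam : ℝ) (hlam : 0 ≤ lam)
    (hspec : ∀ x : V → ℝ, ∑ v, x v = 0 →
      ∑ v, ((G.adjMatrix ℝ).mulVec x v) ^ 2 ≤ lam ^ 2 * ∑ v, x v ^ 2)
    (hl : 128 * lam ≤ d) (hd1 : 1 ≤ d) (hN14 : 16384 ≤ Fintype.card V)
    (hN25 : Fintype.card V < 33554432) :
    Set.ncard {M : G.Subgraph | M.IsMatching ∧ Set.ncard (M.verts)ᶜ = 2} ≤
      Fintype.card V * (2 * d + 1) ^ 4 *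
        Set.ncard {M : G.Subgraph | M.IsPerfectMatching} := by
  set N := Fintype.card V with hN
  set t := N / 8 with ht
  have ht1 : 8 * t ≤ N := by omega
  have ht2 : N ≤ 8 * t + 7 := by omega
  set a : ℕ → ℕ := fun i => if i = 0 then 1 else if i = 1 then 2048 else t with ha
  have hdR : (1 : ℝ) ≤ (d : ℝ) := by exact_mod_cast hd1
  have hNR : (16384 : ℝ) ≤ (N : ℝ) := by exact_mod_cast hN14
  have hNR' : (N : ℝ) < 33554432 := by exact_mod_cast hN25
  have ht1R : 8 * (t : ℝ) ≤ (N : ℝ) := by exact_mod_cast ht1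
  have ht2R : (N : ℝ) ≤ 8 * (t : ℝ) + 7 := by exact_mod_cast ht2
  have hL : 16384 * lam ^ 2 ≤ (d : ℝ) ^ 2 := by nlinarith
  have hL0 : 0 ≤ lam ^ 2 := sq_nonneg lam
  have hD0 : 0 ≤ (d : ℝ) ^ 2 := sq_nonneg _
  have hmain := near_le_of_spectral_schedule G d hreg lam hspec a 2 ?_ ?_ ?_ ?_
  · simpa using hmain
  · simp [ha]
  · intro i
    simp only [ha]
    rcases Nat.eq_zero_or_pos i with h0 | h0
    · subst h0; simp
    · rcases Nat.lt_or_ge i 2 with h1 | h1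
      · have hi : i = 1 := by omega
        subst hi
        simp
        omega
      · rw [if_neg (by omega), if_neg (by omega), if_neg (by omega), if_neg (by omega)]
  · intro i hi
    rcases Nat.eq_zero_or_pos i with h0 | h0
    · subst h0
      have e0 : a 0 = 1 := by simp [ha]
      have e1 : a (0 + 1) = 2048 := by simp [ha]
      rw [e0, e1]
      push_cast
      have h1 : 0 ≤ ((d : ℝ) ^ 2 - 16384 * lam ^ 2) * ((N : ℝ) - 1) :=
        mul_nonneg (by linarith) (by linarith)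
      have h2 : 0 ≤ (d : ℝ) ^ 2 * ((N : ℝ) - 16384) := mul_nonneg hD0 (by linarith)
      nlinarith
    · have hi1 : i = 1 := by omega
      subst hi1
      have e0 : a 1 = 2048 := by simp [ha]
      have e1 : a (1 + 1) = t := by simp [ha]
      rw [e0, e1]
      push_cast
      have h1 : 0 ≤ ((d : ℝ) ^ 2 - 16384 * lam ^ 2) * ((N : ℝ) - 2048) :=
        mul_nonneg (by linarith) (by linarith)
      have h3 : lam ^ 2 * (N : ℝ) + ((d : ℝ) ^ 2 - lam ^ 2) * 2048
          ≤ (d : ℝ) ^ 2 * 4096 := by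
        have h4 : 0 ≤ (d : ℝ) ^ 2 * (33554432 - (N : ℝ)) := mul_nonneg hD0 (by linarith)
        nlinarith
      have h5 : 3 * (t : ℝ) + 2048 ≤ (N : ℝ) / 2 := by linarith
      have h6 : (0 : ℝ) ≤ 3 * (t : ℝ) + 2048 := by positivity
      calc (3 * (t : ℝ) + 2048) * (lam ^ 2 * (N : ℝ) + ((d : ℝ) ^ 2 - lam ^ 2) * 2048)
          ≤ (3 * (t : ℝ) + 2048) * ((d : ℝ) ^ 2 * 4096) :=
            mul_le_mul_of_nonneg_left h3 h6
        _ ≤ ((N : ℝ) / 2) * ((d : ℝ) ^ 2 * 4096) :=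
            mul_le_mul_of_nonneg_right h5 (by positivity)
        _ = (d : ℝ) ^ 2 * 2048 * (N : ℝ) := by ring
  · have e2 : a 2 = t := by simp [ha]
    rw [e2]
    have htpos : (0 : ℝ) < (t : ℝ) := by linarith
    have h1 : lam * (N : ℝ) ≤ (d : ℝ) / 128 * (N : ℝ) :=
      mul_le_mul_of_nonneg_right (by linarith) (by linarith)
    have h2 : (d : ℝ) / 128 * (N : ℝ) < (d : ℝ) * (t : ℝ) := by
      have h3 : (N : ℝ) / 128 < (t : ℝ) := by linarith
      have h4 : (d : ℝ) * ((N : ℝ) / 128) < (d : ℝ) * (t : ℝ) :=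
        mul_lt_mul_of_pos_left h3 (by linarith)
      linarith
    have h5 : 0 ≤ lam * (N : ℝ) := mul_nonneg hlam (by linarith)
    have h6 : (lam * (N : ℝ)) ^ 2 < ((d : ℝ) * (t : ℝ)) ^ 2 :=
      pow_lt_pow_left₀ (lt_of_le_of_lt h1 h2) h5 (by norm_num)
    calc lam ^ 2 * (N : ℝ) ^ 2 = (lam * (N : ℝ)) ^ 2 := by ring
      _ < ((d : ℝ) * (t : ℝ)) ^ 2 := h6
      _ = (d : ℝ) ^ 2 * (t : ℝ) * (t : ℝ) := by ring

end Vale.Agent.Lib.P308
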