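import Vale.Agent.Lib.P308.UNum

namespace Vale.Agent.Lib.P308

open Finset

set_option linter.unusedSectionVars false
set_option linter.unusedVariables false

/-- weighted sums along a chain, for general one-step bounds `δ` with majorant `D` -/
lemma geo_sum_g (a : ℕ → ℝ) (β ρ : ℝ) (δ D : ℕ → ℝ) (hβ : 0 ≤ β) (hρ : 2 ≤ ρ)
    (hD0 : ∀ r, 0 ≤ D r) (hD : ∀ r, 1 ≤ r → ρ * D (r + 1) + δ r ≤ D r)
    (ha : ∀ i, 0 ≤ a i) (k : ℕ) (hstep : ∀ i, i < k → a i ≤ ρ * a (i + 1)) (r : ℕ)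
    (hr : 1 ≤ r) :
    ∑ i ∈ range k, a (i + 1) * (β + δ (k - (i + 1) + r))
      ≤ a k * (β * (ρ ^ k - 1) + D r) := by
  induction k generalizing r with
  | zero =>
    simp only [range_zero, sum_empty, pow_zero, sub_self, mul_zero, zero_add]
    exact mul_nonneg (ha 0) (hD0 r)
  | succ k ih =>
    rw [Finset.sum_range_succ]
    have h1 := ih (fun i hi => hstep i (Nat.lt_succ_of_lt hi)) (r + 1) (by omega)
    have e : ∑ i ∈ range k, a (i + 1) * (β + δ (k + 1 - (i + 1) + r))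
        = ∑ i ∈ range k, a (i + 1) * (β + δ (k - (i + 1) + (r + 1))) := by
      apply Finset.sum_congr rfl
      intro i hi
      have h0 : k + 1 - (i + 1) + r = k - (i + 1) + (r + 1) := by
        have := Finset.mem_range.1 hi
        omega
      rw [h0]
    rw [e]
    have e2 : k + 1 - (k + 1) + r = r := by omega
    rw [e2]
    have h2 := hstep k (Nat.lt_succ_self k)
    have hρk : 1 ≤ ρ ^ k := one_le_pow₀ (by linarith)
    have h3 : 0 ≤ β * (ρ ^ k - 1) + D (r + 1) := by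
      have h31 : 0 ≤ β * (ρ ^ k - 1) := mul_nonneg hβ (by linarith)
      have h32 := hD0 (r + 1)
      linarith
    have h4 : a k * (β * (ρ ^ k - 1) + D (r + 1))
        ≤ ρ * a (k + 1) * (β * (ρ ^ k - 1) + D (r + 1)) :=
      mul_le_mul_of_nonneg_right h2 h3
    have e3 : ρ * a (k + 1) * (β * (ρ ^ k - 1) + D (r + 1)) + a (k + 1) * (β + δ r)
        = a (k + 1) * (β * (ρ ^ (k + 1) - 1) + D r)
          - a (k + 1) * (β * (ρ - 2) + (D r - ρ * D (r + 1) - δ r)) := by ring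
    have h5 : 0 ≤ a (k + 1) * (β * (ρ - 2) + (D r - ρ * D (r + 1) - δ r)) := by
      apply mul_nonneg (ha _)
      have h51 := mul_nonneg hβ (by linarith : (0:ℝ) ≤ ρ - 2)
      have h52 := hD r hr
      linarith
    linarith

lemma D_chain (ρ : ℝ) (δ D : ℕ → ℝ) (hρ : 0 ≤ ρ) (hδ0 : ∀ r, 0 ≤ δ r) (hD0 : ∀ r, 0 ≤ D r)
    (hD : ∀ r, 1 ≤ r → ρ * D (r + 1) + δ r ≤ D r) (r t : ℕ) (hr : 1 ≤ r) :
    ρ ^ t * δ (r + t) ≤ D r := by
  have h1 : ∀ t, ρ ^ t * D (r + t) ≤ D r := by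
    intro t
    induction t with
    | zero => simp
    | succ t ih =>
      have h2 := hD (r + t) (by omega)
      have h3 := hδ0 (r + t)
      have h4 : ρ * D (r + t + 1) ≤ D (r + t) := by linarith
      calc ρ ^ (t + 1) * D (r + (t + 1)) = ρ ^ t * (ρ * D (r + t + 1)) := by
            rw [pow_succ, ← add_assoc]; ring
        _ ≤ ρ ^ t * D (r + t) := mul_le_mul_of_nonneg_left h4 (pow_nonneg hρ t)
        _ ≤ D r := ih
  have h5 : δ (r + t) ≤ D (r + t) := by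
    have h2 := hD (r + t) (by omega)
    have h3 := mul_nonneg hρ (hD0 (r + t + 1))
    linarith
  exact (mul_le_mul_of_nonneg_left h5 (pow_nonneg hρ t)).trans (h1 t)

/-- the sharp one-step bounds : `1 / d` for lags one and two, `ε ^ s` afterwards -/
noncomputable def dl (dinv ε : ℝ) (s : ℕ) : ℝ := if s ≤ 2 then dinv else ε ^ s

/-- majorant of the weighted sums of `dl` with ratio `ρ` -/
noncomputable def DD (ρ dinv ε : ℝ) (r : ℕ) : ℝ :=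
  if r ≤ 1 then (1 + ρ) * dinv + 2 * ρ ^ 2 * ε ^ 3
  else if r = 2 then dinv + 2 * ρ * ε ^ 3 else 2 * ε ^ r

lemma dl_nonneg (dinv ε : ℝ) (h1 : 0 ≤ dinv) (h2 : 0 ≤ ε) (s : ℕ) : 0 ≤ dl dinv ε s := by
  unfold dl
  split_ifs
  · exact h1
  · exact pow_nonneg h2 s

lemma DDn_nonneg (ρ dinv ε : ℝ) (h0 : 0 ≤ ρ) (h1 : 0 ≤ dinv) (h2 : 0 ≤ ε) (r : ℕ) :
    0 ≤ DD ρ dinv ε r := by
  unfold DD
  split_ifs <;> positivity

lemma DD_rec (ρ dinv ε : ℝ) (h0 : 0 ≤ ρ) (h1 : 0 ≤ dinv) (h2 : 0 ≤ ε) (h3 : 2 * ρ * ε ≤ 1)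
    (r : ℕ) (hr : 1 ≤ r) : ρ * DD ρ dinv ε (r + 1) + dl dinv ε r ≤ DD ρ dinv ε r := by
  rcases Nat.lt_or_ge r 3 with h | h
  · rcases Nat.lt_or_ge r 2 with h' | h'
    · have hr1 : r = 1 := by omega
      subst hr1
      unfold DD dl
      norm_num
      linarith
    · have hr2 : r = 2 := by omega
      subst hr2
      unfold DD dl
      norm_num
      linarith
  · unfold DD dl
    rw [if_neg (by omega), if_neg (by omega), if_neg (by omega), if_neg (by omega),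
      if_neg (by omega)]
    have h4 : 0 ≤ ε ^ r := pow_nonneg h2 r
    have e : ρ * (2 * ε ^ (r + 1)) = (2 * ρ * ε) * ε ^ r := by rw [pow_succ]; ring
    rw [e]
    nlinarith

lemma DD_sup (dinv ε : ℝ) (h1 : 0 ≤ dinv) (h2 : 0 ≤ ε) (h3 : 8 * ε ≤ 1) (j : ℕ) :
    8 ^ j * DD 2 dinv ε (j + 1) ≤ 8 * dinv + 128 * ε ^ 3 := by
  have hε3 : 0 ≤ ε ^ 3 := pow_nonneg h2 3
  rcases Nat.lt_or_ge j 2 with h | h
  · rcases Nat.lt_or_ge j 1 with h' | h'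
    · have hj : j = 0 := by omega
      subst hj
      unfold DD
      norm_num
      linarith
    · have hj : j = 1 := by omega
      subst hj
      unfold DD
      norm_num
      linarith
  · unfold DD
    rw [if_neg (by omega), if_neg (by omega)]
    have h4 : (8 * ε) ^ j ≤ (8 * ε) ^ 2 := pow_le_pow_of_le_one (by positivity) h3 h
    have e : (8 : ℝ) ^ j * (2 * ε ^ (j + 1)) = 2 * ε * (8 * ε) ^ j := by
      rw [mul_pow, pow_succ]; ring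
    rw [e]
    have h5 : 2 * ε * (8 * ε) ^ j ≤ 2 * ε * (8 * ε) ^ 2 :=
      mul_le_mul_of_nonneg_left h4 (by positivity)
    have e2 : 2 * ε * (8 * ε) ^ 2 = 128 * ε ^ 3 := by ring
    linarith

/-- geometric sums with ratio at most one half -/
lemma geo2 (x : ℝ) (h0 : 0 ≤ x) (h1 : 2 * x ≤ 1) (m : ℕ) : ∑ a ∈ range m, x ^ a ≤ 2 := by
  have h : ∀ m : ℕ, ∑ a ∈ range m, x ^ a + 2 * x ^ m ≤ 2 := by
    intro m
    induction m with
    | zero => simp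
    | succ m ih =>
      rw [Finset.sum_range_succ, pow_succ]
      have h2 : 0 ≤ x ^ m := pow_nonneg h0 m
      nlinarith
  have h3 := h m
  have h4 : 0 ≤ x ^ m := pow_nonneg h0 m
  linarith

/-- the survival weights of the first phase, with sharp one-step bounds -/
lemma num1_g (a : ℕ → ℝ) (β : ℝ) (δ D : ℕ → ℝ) (k : ℕ) (h0 : a 0 = 1) (ha : ∀ i, 0 ≤ a i)
    (hβ : 0 ≤ β) (hδ0 : ∀ r, 0 ≤ δ r) (hD0 : ∀ r, 0 ≤ D r)
    (hD : ∀ r, 1 ≤ r → 2 * D (r + 1) + δ r ≤ D r)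
    (hnum : 14 * β * 2 ^ k + 2 * δ 1 + 12 * D 1 ≤ 1 / 2)
    (hrec : ∀ t, a t * (1 - 2 * (β + δ 1)) - 4 * (β + δ (t + 1))
        - 8 * ∑ i ∈ range t, a (i + 1) * (β + δ (t - (i + 1) + 1)) ≤ a (t + 1)) :
    ∀ t, t < k → a t ≤ 2 * a (t + 1) := by
  intro t
  induction t using Nat.strong_induction_on with
  | _ t ih =>
    intro ht
    have hch : ∀ i, i < t → a i ≤ 2 * a (i + 1) := fun i hi => ih i hi (lt_trans hi ht)
    have h1 := pow_chain a 2 (by norm_num) t hch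
    rw [h0] at h1
    have h2 := geo_sum_g a β 2 δ D hβ (le_refl 2) hD0 hD ha t hch 1 (le_refl 1)
    have h3 := hrec t
    have hpow : (2:ℝ) ^ t ≤ 2 ^ k := pow_le_pow_right₀ (by norm_num) ht.le
    have hdc := D_chain 2 δ D (by norm_num) hδ0 hD0 hD 1 t (le_refl 1)
    have hδt := hδ0 (t + 1)
    have e1t : 1 + t = t + 1 := by ring
    rw [e1t] at hdc
    have h4 : 4 * (β + δ (t + 1)) ≤ a t * (4 * β * 2 ^ k + 4 * D 1) := by
      have e : 4 * (β + δ (t + 1)) * (2 ^ t * a t)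
          = a t * (4 * β * 2 ^ t + 4 * (2 ^ t * δ (t + 1))) := by ring
      have h5 : 4 * (β + δ (t + 1)) ≤ 4 * (β + δ (t + 1)) * (2 ^ t * a t) := by
        have h51 : 0 ≤ 4 * (β + δ (t + 1)) := by linarith
        nlinarith
      rw [e] at h5
      refine h5.trans (mul_le_mul_of_nonneg_left ?_ (ha t))
      have h53 : 4 * β * 2 ^ t ≤ 4 * β * 2 ^ k :=
        mul_le_mul_of_nonneg_left hpow (by positivity)
      linarith
    have h6 : ∑ i ∈ range t, a (i + 1) * (β + δ (t - (i + 1) + 1))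
        ≤ a t * (β * 2 ^ k + D 1) := by
      refine h2.trans (mul_le_mul_of_nonneg_left ?_ (ha t))
      have h61 : β * (2 ^ t - 1) ≤ β * 2 ^ k := by
        apply mul_le_mul_of_nonneg_left _ hβ; linarith
      linarith
    have h7 : a t * (14 * β * 2 ^ k + 2 * δ 1 + 12 * D 1) ≤ a t * (1 / 2) :=
      mul_le_mul_of_nonneg_left hnum (ha t)
    have h8 : β ≤ β * 2 ^ k := by
      have h81 : (1:ℝ) ≤ 2 ^ k := one_le_pow₀ (by norm_num)
      nlinarith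
    have h9 : a t * β ≤ a t * (β * 2 ^ k) := mul_le_mul_of_nonneg_left h8 (ha t)
    nlinarith

/-- one step of the second phase, with sharp one-step bounds -/
lemma num2_step_g (Γ : ℕ → ℝ) (Aj Bj SAj SBj XAj XBj β ε Λ pq : ℝ) (δ D LA : ℕ → ℝ)
    (m j : ℕ) (hΓ : ∀ j, 0 ≤ Γ j) (hβ : 0 ≤ β) (hε : 0 ≤ ε)
    (hδ0 : ∀ r, 0 ≤ δ r) (hD0 : ∀ r, 0 ≤ D r)
    (hD : ∀ r, 1 ≤ r → 8 * D (r + 1) + δ r ≤ D r) (hLA0 : 0 ≤ LA j)
    (hSA : SAj ^ 2 ≤ Aj * ε ^ 2 / 4) (hSB : SBj ^ 2 ≤ Bj * ε ^ 2 / 4)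
    (hXA : XAj ≤ Γ 0 * LA j + ∑ i ∈ range j, Γ (i + 1) * (2 * (β + δ (j - i))))
    (hXB : XBj ≤ Γ 0 * LA j + ∑ i ∈ range j, Γ (i + 1) * (2 * (β + δ (j - i))))
    (hstep : pq * Γ j - SAj - SBj - XAj - XBj ≤ Γ (j + 1))
    (hΛ : 8 ^ j * LA j ≤ Λ)
    (hnum : 1 / 8 + 129 / 16 * ε + 2 * Λ + 4 * β * 8 ^ m + 4 * D 1 ≤ pq)
    (hj : j < m) (hch : ∀ i, i < j → Γ i ≤ 8 * Γ (i + 1))
    (hA : Aj ≤ 65 * Γ j ^ 2) (hB : Bj ≤ 65 * Γ j ^ 2) :
    Γ j ≤ 8 * Γ (j + 1) := by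
  have hG := hΓ j
  have sqb : ∀ (x y : ℝ), x ^ 2 ≤ y * ε ^ 2 / 4 → y ≤ 65 * Γ j ^ 2 →
      x ≤ 129 / 32 * ε * Γ j := by
    intro x y h1 h2
    have h3 : x ^ 2 ≤ (129 / 32 * ε * Γ j) ^ 2 := by
      have h4 : y * ε ^ 2 / 4 ≤ 65 * Γ j ^ 2 * ε ^ 2 / 4 := by
        have := mul_le_mul_of_nonneg_right h2 (sq_nonneg ε)
        linarith
      have h5 : 0 ≤ Γ j ^ 2 * ε ^ 2 := by positivity
      nlinarith
    have h6 : 0 ≤ 129 / 32 * ε * Γ j := by positivity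
    exact (abs_le_of_sq_le_sq' h3 h6).2
  have hSA' := sqb SAj Aj hSA hA
  have hSB' := sqb SBj Bj hSB hB
  have h1 := pow_chain Γ 8 (by norm_num) j hch
  have h2 := geo_sum_g Γ β 8 δ D hβ (by norm_num) hD0 hD hΓ j hch 1 (le_refl 1)
  have e : ∑ i ∈ range j, Γ (i + 1) * (2 * (β + δ (j - i)))
      = 2 * ∑ i ∈ range j, Γ (i + 1) * (β + δ (j - (i + 1) + 1)) := by
    rw [Finset.mul_sum]
    apply Finset.sum_congr rfl
    intro i hi
    have h3 : j - (i + 1) + 1 = j - i := by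
      have := Finset.mem_range.1 hi
      omega
    rw [h3]; ring
  rw [e] at hXA hXB
  have hpow : (8:ℝ) ^ j ≤ 8 ^ m := pow_le_pow_right₀ (by norm_num) hj.le
  have h4 : Γ 0 * LA j ≤ Γ j * Λ := by
    have h41 : Γ 0 * LA j ≤ 8 ^ j * Γ j * LA j := mul_le_mul_of_nonneg_right h1 hLA0
    have h42 : Γ j * (8 ^ j * LA j) ≤ Γ j * Λ := mul_le_mul_of_nonneg_left hΛ hG
    linarith
  have h5 : ∑ i ∈ range j, Γ (i + 1) * (β + δ (j - (i + 1) + 1))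
      ≤ Γ j * (β * 8 ^ m + D 1) := by
    refine h2.trans (mul_le_mul_of_nonneg_left ?_ hG)
    have h51 : β * (8 ^ j - 1) ≤ β * 8 ^ m := by
      apply mul_le_mul_of_nonneg_left _ hβ; linarith
    linarith
  have h6 : Γ j * (1 / 8 + 129 / 16 * ε + 2 * Λ + 4 * β * 8 ^ m + 4 * D 1) ≤ Γ j * pq :=
    mul_le_mul_of_nonneg_left hnum hG
  nlinarith

/-- the survival weights of the second phase decay at most geometrically -/
lemma num2_g (Γ A B SA SB XA XB : ℕ → ℝ) (β ε Λ pq : ℝ) (δ D LA : ℕ → ℝ) (m : ℕ)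
    (hΓ : ∀ j, 0 ≤ Γ j) (hβ : 0 ≤ β) (hε : 0 ≤ ε)
    (hδ0 : ∀ r, 0 ≤ δ r) (hD0 : ∀ r, 0 ≤ D r)
    (hD : ∀ r, 1 ≤ r → 8 * D (r + 1) + δ r ≤ D r) (hLA0 : ∀ j, 0 ≤ LA j)
    (hA : ∀ j, A (j + 1) ≤ Γ j ^ 2 + ε ^ 2 * A j)
    (hB : ∀ j, B (j + 1) ≤ Γ j ^ 2 + ε ^ 2 * B j)
    (hSA : ∀ j, SA j ^ 2 ≤ A j * ε ^ 2 / 4)
    (hSB : ∀ j, SB j ^ 2 ≤ B j * ε ^ 2 / 4)
    (hXA : ∀ j, XA j ≤ Γ 0 * LA j + ∑ i ∈ range j, Γ (i + 1) * (2 * (β + δ (j - i))))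
    (hXB : ∀ j, XB j ≤ Γ 0 * LA j + ∑ i ∈ range j, Γ (i + 1) * (2 * (β + δ (j - i))))
    (hstep : ∀ j, pq * Γ j - SA j - SB j - XA j - XB j ≤ Γ (j + 1))
    (hA0 : A 0 ≤ 6 * Γ 0 ^ 2) (hB0 : B 0 ≤ 6 * Γ 0 ^ 2)
    (hΛ : ∀ j, j < m → 8 ^ j * LA j ≤ Λ)
    (hnum : 1 / 8 + 129 / 16 * ε + 2 * Λ + 4 * β * 8 ^ m + 4 * D 1 ≤ pq)
    (hε2 : 64 * 65 * ε ^ 2 ≤ 1) :
    ∀ j, j < m → Γ j ≤ 8 * Γ (j + 1) := by
  have key : ∀ j, j ≤ m → (∀ i, i < j → Γ i ≤ 8 * Γ (i + 1)) ∧ A j ≤ 65 * Γ j ^ 2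
      ∧ B j ≤ 65 * Γ j ^ 2 := by
    intro j
    induction j with
    | zero =>
      intro _
      have := sq_nonneg (Γ 0)
      exact ⟨fun i hi => absurd hi (Nat.not_lt_zero i), by linarith, by linarith⟩
    | succ j ih =>
      intro hj
      obtain ⟨hch, hAj, hBj⟩ := ih (by omega)
      have hs := num2_step_g Γ (A j) (B j) (SA j) (SB j) (XA j) (XB j) β ε Λ pq δ D LA m j
        hΓ hβ hε hδ0 hD0 hD (hLA0 j) (hSA j) (hSB j) (hXA j) (hXB j) (hstep j)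
        (hΛ j (by omega)) hnum (by omega) hch hAj hBj
      have hG := hΓ j
      have hG1 := hΓ (j + 1)
      have hsq : Γ j ^ 2 ≤ 64 * Γ (j + 1) ^ 2 := by nlinarith
      have hbd : ∀ (x y : ℝ), y ≤ Γ j ^ 2 + ε ^ 2 * x → x ≤ 65 * Γ j ^ 2 →
          y ≤ 65 * Γ (j + 1) ^ 2 := by
        intro x y h1 h2
        have h3 : ε ^ 2 * x ≤ ε ^ 2 * (65 * Γ j ^ 2) :=
          mul_le_mul_of_nonneg_left h2 (sq_nonneg _)
        have h4 : Γ j ^ 2 * (1 + 65 * ε ^ 2) ≤ 64 * Γ (j + 1) ^ 2 * (1 + 65 * ε ^ 2) :=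
          mul_le_mul_of_nonneg_right hsq (by positivity)
        have h5 : Γ (j + 1) ^ 2 * (64 * 65 * ε ^ 2) ≤ Γ (j + 1) ^ 2 * 1 :=
          mul_le_mul_of_nonneg_left hε2 (sq_nonneg _)
        nlinarith
      refine ⟨?_, hbd _ _ (hA j) hAj, hbd _ _ (hB j) hBj⟩
      intro i hi
      rcases Nat.lt_succ_iff_lt_or_eq.1 hi with h | h
      · exact hch i h
      · rw [h]; exact hs
  intro j hj
  exact (key (j + 1) (by omega)).1 j (Nat.lt_succ_self j)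

end Vale.Agent.Lib.P308
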