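import Vale.Agent.Lib.P308.UAsm
import Vale.Agent.Lib.P308.VNum

namespace Vale.Agent.Lib.P308

open Finset

set_option linter.unusedSectionVars false
set_option linter.unusedVariables false

variable {V : Type*} [Fintype V] [DecidableEq V]
variable {G : SimpleGraph V} [DecidableRel G.Adj] {g : V → V} {d : ℕ} {lam : ℝ} {Om : Finset V}

namespace Ctx

variable (c : Ctx G g d lam)
include c

/-- after at least one round every entry of the walk kernel is at most `1 / d` -/
lemma pw_le_inv (n : ℕ) (hn : 1 ≤ n) (y w : V) : pw G g d n y w ≤ 1 / (d : ℝ) := by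
  obtain ⟨k, rfl⟩ : ∃ k, n = k + 1 := ⟨n - 1, by omega⟩
  rw [pw_succ']
  have h1 : ∀ z, pw G g d k y z * pw1 G g d z w ≤ pw G g d k y z * (1 / (d : ℝ)) := by
    intro z
    apply mul_le_mul_of_nonneg_left _ (pw_nonneg _ _ _)
    unfold pw1
    split_ifs
    · exact le_refl _
    · positivity
  refine (Finset.sum_le_sum (fun z _ => h1 z)).trans (le_of_eq ?_)
  rw [← Finset.sum_mul, c.pw_row, one_mul]

/-- the sharp error term : `1 / N + 1 / d` for lags one and two, `1 / N + (lam / d) ^ s` later -/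
noncomputable def bs (c : Ctx G g d lam) (s : ℕ) : ℝ :=
  1 / (Fintype.card V : ℝ) + dl (1 / (d : ℝ)) (lam / d) s

lemma bs_nonneg (s : ℕ) : 0 ≤ c.bs s := by
  unfold bs
  have h := dl_nonneg (1 / (d : ℝ)) (lam / d) (by positivity) c.ep_nonneg s
  have : 0 ≤ 1 / (Fintype.card V : ℝ) := by positivity
  linarith

lemma pw_le_bs (n : ℕ) (hn : 1 ≤ n) (y w : V) : pw G g d n y w ≤ c.bs n := by
  unfold bs dl
  have h0 : 0 ≤ 1 / (Fintype.card V : ℝ) := by positivity
  split_ifs with h
  · have := c.pw_le_inv n hn y w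
    linarith
  · exact c.pw_le n y w

lemma pw1_le_bs (y w : V) : pw1 G g d y w ≤ c.bs 1 := by
  rw [← pw_one]; exact c.pw_le_bs 1 (le_refl 1) y w

/-- the expected number of returns into the blocked set -/
lemma Lam1g (r : ℕ) (hr : 1 ≤ r) (n : ℕ) (F : Finset V) (y y' : V) :
    S G g d n F y y' (fun F' a _ => ∑ q ∈ F', pw G g d r a q)
      ≤ ∑ q ∈ F, pw G g d (n + r) y q
        + ∑ i ∈ range n, S G g d (i + 1) F y y' (fun _ _ _ => 1)
            * (4 * c.bs (n - (i + 1) + r)) := by
  induction n generalizing F y y' with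
  | zero => simp [S_zero]
  | succ n ih =>
    rw [S_succ]
    have step : ∀ p ∈ okp g F, pw1 G g d y p.1 * pw1 G g d y' p.2
          * S G g d n (F ∪ blk g p) p.1 p.2 (fun F' a _ => ∑ q ∈ F', pw G g d r a q)
        ≤ pw1 G g d y p.1 * pw1 G g d y' p.2 * (∑ q ∈ F, pw G g d (n + r) p.1 q)
          + pw1 G g d y p.1 * pw1 G g d y' p.2 * (4 * c.bs (n + r))
          + ∑ i ∈ range n, pw1 G g d y p.1 * pw1 G g d y' p.2
              * S G g d (i + 1) (F ∪ blk g p) p.1 p.2 (fun _ _ _ => 1)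
              * (4 * c.bs (n - (i + 1) + r)) := by
      intro p _
      have h1 := ih (F ∪ blk g p) p.1 p.2
      have h2 : ∑ q ∈ F ∪ blk g p, pw G g d (n + r) p.1 q
          ≤ ∑ q ∈ F, pw G g d (n + r) p.1 q + 4 * c.bs (n + r) := by
        refine (sum_union_le' _ _ _ (fun x => pw_nonneg _ _ _)).trans ?_
        have := sum_blk_le g p (fun q => pw G g d (n + r) p.1 q) (c.bs (n + r))
          (fun x => pw_nonneg _ _ _) (fun x => c.pw_le_bs _ (by omega) _ _)
        linarith
      have h3 := mul_le_mul_of_nonneg_left (h1.trans (add_le_add_left h2 _))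
        (ww_nonneg (G := G) (g := g) (d := d) y y' p)
      refine h3.trans (le_of_eq ?_)
      rw [mul_add, mul_add]
      congr 1
      rw [Finset.mul_sum]
      apply Finset.sum_congr rfl
      intro i _
      ring
    refine (Finset.sum_le_sum step).trans ?_
    rw [sum_three (okp g F) (range n) (fun p => pw1 G g d y p.1 * pw1 G g d y' p.2)
      (fun p => ∑ q ∈ F, pw G g d (n + r) p.1 q) (4 * c.bs (n + r))
      (fun p i => S G g d (i + 1) (F ∪ blk g p) p.1 p.2 (fun _ _ _ => 1))
      (fun i => 4 * c.bs (n - (i + 1) + r))]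
    have hA : ∑ p ∈ okp g F, pw1 G g d y p.1 * pw1 G g d y' p.2
          * (∑ q ∈ F, pw G g d (n + r) p.1 q)
        ≤ ∑ q ∈ F, pw G g d (n + 1 + r) y q := by
      calc ∑ p ∈ okp g F, pw1 G g d y p.1 * pw1 G g d y' p.2
              * (∑ q ∈ F, pw G g d (n + r) p.1 q)
          ≤ ∑ p : V × V, pw1 G g d y p.1 * pw1 G g d y' p.2
              * (∑ q ∈ F, pw G g d (n + r) p.1 q) := by
            apply Finset.sum_le_sum_of_subset_of_nonneg (Finset.filter_subset _ _)
            intro p _ _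
            exact mul_nonneg (ww_nonneg y y' p)
              (Finset.sum_nonneg (fun q _ => pw_nonneg _ _ _))
        _ = ∑ q ∈ F, pw G g d (n + 1 + r) y q := by
            rw [c.sum_pair y y' (fun z => ∑ q ∈ F, pw G g d (n + r) z q)]
            simp_rw [Finset.mul_sum]
            rw [Finset.sum_comm]
            apply Finset.sum_congr rfl
            intro q _
            have e : n + 1 + r = (n + r) + 1 := by ring
            rw [e, pw_succ]
    have hB : (∑ p ∈ okp g F, pw1 G g d y p.1 * pw1 G g d y' p.2)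
        = S G g d 1 F y y' (fun _ _ _ => 1) := (c.S_one_eq F y y').symm
    have hC : ∀ i ∈ range n, (∑ p ∈ okp g F, pw1 G g d y p.1 * pw1 G g d y' p.2
          * S G g d (i + 1) (F ∪ blk g p) p.1 p.2 (fun _ _ _ => 1))
          * (4 * c.bs (n - (i + 1) + r))
        = S G g d (i + 1 + 1) F y y' (fun _ _ _ => 1)
          * (4 * c.bs (n + 1 - (i + 1 + 1) + r)) := by
      intro i hi
      rw [S_succ (i + 1)]
      have : n + 1 - (i + 1 + 1) = n - (i + 1) := by omega
      rw [this]
    rw [Finset.sum_congr rfl hC, hB]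
    rw [Finset.sum_range_succ' (fun i => S G g d (i + 1) F y y' (fun _ _ _ => 1)
      * (4 * c.bs (n + 1 - (i + 1) + r)))]
    simp only [Nat.zero_add, Nat.add_sub_cancel]
    linarith

/-- the same for the second walker -/
lemma Lam2g (r : ℕ) (hr : 1 ≤ r) (n : ℕ) (F : Finset V) (y y' : V) :
    S G g d n F y y' (fun F' _ b => ∑ q ∈ F', pw G g d r b q)
      ≤ ∑ q ∈ F, pw G g d (n + r) y' q
        + ∑ i ∈ range n, S G g d (i + 1) F y y' (fun _ _ _ => 1)
            * (4 * c.bs (n - (i + 1) + r)) := by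
  rw [S_swap c.inv]
  refine (c.Lam1g r hr n F y' y).trans (le_of_eq ?_)
  congr 1
  apply Finset.sum_congr rfl
  intro i _
  rw [S_swap (G := G) (d := d) c.inv (i + 1) F y' y (fun _ _ _ => 1)]

/-- most pairs of next positions are admissible -/
lemma okp_massg (F : Finset V) (a b : V) :
    1 - ∑ q ∈ F, pw1 G g d a q - ∑ q ∈ F, pw1 G g d b q - 2 * c.bs 1
      ≤ ∑ p ∈ okp g F, pw1 G g d a p.1 * pw1 G g d b p.2 := by
  have hpt : ∀ p : V × V, pw1 G g d a p.1 * pw1 G g d b p.2 * 1
        - pw1 G g d a p.1 * pw1 G g d b p.2 * (if p.1 ∈ F then (1 : ℝ) else 0)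
        - pw1 G g d a p.1 * pw1 G g d b p.2 * (if p.2 ∈ F then (1 : ℝ) else 0)
        - pw1 G g d a p.1 * c.bs 1 * (if p.2 = p.1 then (1 : ℝ) else 0)
        - pw1 G g d a p.1 * c.bs 1 * (if p.2 = g p.1 then (1 : ℝ) else 0)
      ≤ (if p ∈ okp g F then pw1 G g d a p.1 * pw1 G g d b p.2 else 0) := by
    intro p
    have hw := ww_nonneg (G := G) (g := g) (d := d) a b p
    have ha := pw1_nonneg (G := G) (g := g) (d := d) a p.1
    have hb := c.pw1_le_bs b p.2
    have hbb := c.bs_nonneg 1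
    have e1 : 0 ≤ pw1 G g d a p.1 * pw1 G g d b p.2 * (if p.1 ∈ F then (1 : ℝ) else 0) :=
      mul_nonneg hw (by split_ifs <;> norm_num)
    have e2 : 0 ≤ pw1 G g d a p.1 * pw1 G g d b p.2 * (if p.2 ∈ F then (1 : ℝ) else 0) :=
      mul_nonneg hw (by split_ifs <;> norm_num)
    have e3 : 0 ≤ pw1 G g d a p.1 * c.bs 1 * (if p.2 = p.1 then (1 : ℝ) else 0) :=
      mul_nonneg (mul_nonneg ha hbb) (by split_ifs <;> norm_num)
    have e4 : 0 ≤ pw1 G g d a p.1 * c.bs 1 * (if p.2 = g p.1 then (1 : ℝ) else 0) :=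
      mul_nonneg (mul_nonneg ha hbb) (by split_ifs <;> norm_num)
    have hwb : pw1 G g d a p.1 * pw1 G g d b p.2 ≤ pw1 G g d a p.1 * c.bs 1 :=
      mul_le_mul_of_nonneg_left hb ha
    by_cases hok : p ∈ okp g F
    · rw [if_pos hok]; linarith
    · rw [if_neg hok]
      simp only [okp, mem_filter, mem_univ, true_and, not_and_or, not_not, ne_eq] at hok
      rcases hok with h | h | h | h
      · rw [if_pos h] at e1 ⊢; linarith
      · rw [if_pos h] at e2 ⊢; linarith
      · rw [if_pos h] at e3 ⊢; linarith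
      · rw [if_pos h] at e4 ⊢; linarith
  have hsum := Finset.sum_le_sum (fun p (_ : p ∈ (univ : Finset (V × V))) => hpt p)
  rw [Finset.sum_ite_mem, Finset.univ_inter] at hsum
  refine le_trans (le_of_eq ?_) hsum
  rw [Finset.sum_sub_distrib, Finset.sum_sub_distrib, Finset.sum_sub_distrib,
    Finset.sum_sub_distrib]
  rw [c.sum_pair a b (fun _ => 1), c.sum_pair a b (fun z => if z ∈ F then (1 : ℝ) else 0),
    c.sum_pair2 a b (fun z => if z ∈ F then (1 : ℝ) else 0)]
  rw [c.sum_mul_ind, c.sum_mul_ind]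
  simp only [mul_one]
  rw [c.pw1_row a]
  have h3 : ∑ p : V × V, pw1 G g d a p.1 * c.bs 1 * (if p.2 = p.1 then (1 : ℝ) else 0)
      = c.bs 1 := by
    rw [Fintype.sum_prod_type]
    have : ∀ z : V, ∑ z' : V, pw1 G g d a z * c.bs 1 * (if z' = z then (1 : ℝ) else 0)
        = pw1 G g d a z * c.bs 1 := by
      intro z
      rw [Finset.sum_eq_single z]
      · simp
      · intro b' _ hb'; simp [hb']
      · intro h; exact absurd (Finset.mem_univ z) h
    simp only [this]
    rw [← Finset.sum_mul, c.pw1_row a, one_mul]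
  have h4 : ∑ p : V × V, pw1 G g d a p.1 * c.bs 1 * (if p.2 = g p.1 then (1 : ℝ) else 0)
      = c.bs 1 := by
    rw [Fintype.sum_prod_type]
    have : ∀ z : V, ∑ z' : V, pw1 G g d a z * c.bs 1 * (if z' = g z then (1 : ℝ) else 0)
        = pw1 G g d a z * c.bs 1 := by
      intro z
      rw [Finset.sum_eq_single (g z)]
      · simp
      · intro b' _ hb'; simp [hb']
      · intro h; exact absurd (Finset.mem_univ (g z)) h
    simp only [this]
    rw [← Finset.sum_mul, c.pw1_row a, one_mul]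
  rw [h3, h4]
  ring

/-- the basic survival inequality of the pair process -/
lemma surv_rawg (t : ℕ) (F : Finset V) (y y' : V) :
    S G g d t F y y' (fun _ _ _ => 1) * (1 - 2 * c.bs 1)
      - (∑ q ∈ F, pw G g d (t + 1) y q + ∑ q ∈ F, pw G g d (t + 1) y' q)
      - 8 * ∑ i ∈ range t, S G g d (i + 1) F y y' (fun _ _ _ => 1) * c.bs (t - (i + 1) + 1)
    ≤ S G g d (t + 1) F y y' (fun _ _ _ => 1) := by
  have hE := S_plf (G := G) (g := g) (d := d) t F y y'
  rw [S_comp t 1]
  have h1 : ∀ (F₁ : Finset V) (a b : V),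
      1 - ∑ q ∈ F₁, pw G g d 1 a q - ∑ q ∈ F₁, pw G g d 1 b q - 2 * c.bs 1
        ≤ S G g d 1 F₁ a b (fun _ _ _ => 1) := by
    intro F₁ a b
    rw [c.S_one_eq]
    simp_rw [pw_one]
    exact c.okp_massg F₁ a b
  have h2 := hE.mono h1
  have e : S G g d t F y y'
        (fun F₁ a b => 1 - ∑ q ∈ F₁, pw G g d 1 a q - ∑ q ∈ F₁, pw G g d 1 b q - 2 * c.bs 1)
      = S G g d t F y y' (fun _ _ _ => 1) * (1 - 2 * c.bs 1)
        - S G g d t F y y' (fun F₁ a _ => ∑ q ∈ F₁, pw G g d 1 a q)
        - S G g d t F y y' (fun F₁ _ b => ∑ q ∈ F₁, pw G g d 1 b q) := by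
    have e1 : (fun (F₁ : Finset V) (a b : V) =>
          1 - ∑ q ∈ F₁, pw G g d 1 a q - ∑ q ∈ F₁, pw G g d 1 b q - 2 * c.bs 1)
        = (fun (F₁ : Finset V) (a b : V) => ((1 - 2 * c.bs 1) * 1
            - ∑ q ∈ F₁, pw G g d 1 a q) - ∑ q ∈ F₁, pw G g d 1 b q) := by
      funext F₁ a b; ring
    rw [e1, hE.sub (fun (F₁ : Finset V) (a b : V) => (1 - 2 * c.bs 1) * 1
            - ∑ q ∈ F₁, pw G g d 1 a q) (fun (F₁ : Finset V) (a b : V) =>
              ∑ q ∈ F₁, pw G g d 1 b q),
      hE.sub (fun (F₁ : Finset V) (a b : V) => (1 - 2 * c.bs 1) * 1)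
        (fun (F₁ : Finset V) (a b : V) => ∑ q ∈ F₁, pw G g d 1 a q),
      hE.smul (1 - 2 * c.bs 1) (fun _ _ _ => 1)]
    ring
  rw [e] at h2
  have l1 := c.Lam1g 1 (le_refl 1) t F y y'
  have l2 := c.Lam2g 1 (le_refl 1) t F y y'
  have e3 : ∑ i ∈ range t, S G g d (i + 1) F y y' (fun _ _ _ => 1)
        * (4 * c.bs (t - (i + 1) + 1))
      = 4 * ∑ i ∈ range t, S G g d (i + 1) F y y' (fun _ _ _ => 1)
        * c.bs (t - (i + 1) + 1) := by
    rw [Finset.mul_sum]
    apply Finset.sum_congr rfl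
    intro i _
    ring
  rw [e3] at l1 l2
  linarith

/-- upper bound for the weight lost to blocked vertices -/
lemma XX_leg (n : ℕ) (F : Finset V) (y : V) :
    XX G g d Om n F y ≤ ∑ q ∈ F, pw G g d (n + 1) y q
      + ∑ i ∈ range n, ptot G g d Om (i + 1) F y * (2 * c.bs (n - i)) := by
  induction n generalizing F y with
  | zero =>
    rw [XX_zero]
    simp [pw_one]
  | succ n ih =>
    rw [XX_succ]
    have step : ∀ z ∈ Om \ F, pw1 G g d y z * XX G g d Om n (F ∪ {z, g z}) z
        ≤ pw1 G g d y z * (∑ q ∈ F, pw G g d (n + 1) z q)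
          + pw1 G g d y z * (2 * c.bs (n + 1))
          + ∑ i ∈ range n, pw1 G g d y z * ptot G g d Om (i + 1) (F ∪ {z, g z}) z
              * (2 * c.bs (n - i)) := by
      intro z _
      have h1 := ih (F ∪ {z, g z}) z
      have h2 : ∑ q ∈ F ∪ {z, g z}, pw G g d (n + 1) z q
          ≤ ∑ q ∈ F, pw G g d (n + 1) z q + 2 * c.bs (n + 1) := by
        refine (sum_union_le' _ _ _ (fun x => pw_nonneg _ _ _)).trans ?_
        have := c.sum_pair_le g z (fun q => pw G g d (n + 1) z q) (c.bs (n + 1))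
          (fun x => pw_nonneg _ _ _) (fun x => c.pw_le_bs _ (by omega) _ _)
        linarith
      have h3 := mul_le_mul_of_nonneg_left (h1.trans (add_le_add_left h2 _))
        (pw1_nonneg (G := G) (g := g) (d := d) y z)
      refine h3.trans (le_of_eq ?_)
      rw [mul_add, mul_add]
      congr 1
      rw [Finset.mul_sum]
      apply Finset.sum_congr rfl
      intro i _
      ring
    refine (Finset.sum_le_sum step).trans ?_
    rw [sum_three (Om \ F) (range n) (fun z => pw1 G g d y z)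
      (fun z => ∑ q ∈ F, pw G g d (n + 1) z q) (2 * c.bs (n + 1))
      (fun z i => ptot G g d Om (i + 1) (F ∪ {z, g z}) z)
      (fun i => 2 * c.bs (n - i))]
    have hA : ∑ z ∈ Om \ F, pw1 G g d y z * (∑ q ∈ F, pw G g d (n + 1) z q)
        ≤ ∑ q ∈ F, pw G g d (n + 1 + 1) y q := by
      calc ∑ z ∈ Om \ F, pw1 G g d y z * (∑ q ∈ F, pw G g d (n + 1) z q)
          ≤ ∑ z, pw1 G g d y z * (∑ q ∈ F, pw G g d (n + 1) z q) := by
            apply Finset.sum_le_sum_of_subset_of_nonneg (Finset.subset_univ _)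
            intro z _ _
            exact mul_nonneg (pw1_nonneg _ _)
              (Finset.sum_nonneg (fun q _ => pw_nonneg _ _ _))
        _ = ∑ q ∈ F, pw G g d (n + 1 + 1) y q := by
            simp_rw [Finset.mul_sum]
            rw [Finset.sum_comm]
            apply Finset.sum_congr rfl
            intro q _
            rw [pw_succ (n + 1)]
    have hB : (∑ z ∈ Om \ F, pw1 G g d y z) = ptot G g d Om 1 F y := by
      rw [ptot_succ]
      apply Finset.sum_congr rfl
      intro z _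
      rw [ptot_zero, mul_one]
    have hC : ∀ i ∈ range n, (∑ z ∈ Om \ F, pw1 G g d y z
          * ptot G g d Om (i + 1) (F ∪ {z, g z}) z) * (2 * c.bs (n - i))
        = ptot G g d Om (i + 1 + 1) F y * (2 * c.bs (n + 1 - (i + 1))) := by
      intro i hi
      rw [ptot_succ (i + 1)]
      have : n + 1 - (i + 1) = n - i := by omega
      rw [this]
    rw [Finset.sum_congr rfl hC, hB]
    rw [Finset.sum_range_succ' (fun i => ptot G g d Om (i + 1) F y * (2 * c.bs (n + 1 - i)))]
    simp only [Nat.zero_add, Nat.sub_zero]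
    linarith

variable {E : (Finset V → V → V → ℝ) → ℝ} {O1 O2 : Finset V}

/-- the aggregated loss of the first walker -/
lemma XA_leg (hE : PLF E) (j : ℕ) :
    XA G g d E O1 O2 j ≤ E (fun F a _ => ∑ q ∈ F, pw G g d (j + 1) a q)
      + ∑ i ∈ range j, Gam G g d E O1 O2 (i + 1) * (2 * c.bs (j - i)) := by
  unfold XA
  have h1 : ∀ (F : Finset V) (a b : V),
      XX G g d O1 j F a * ptot G g d O2 j F b
        ≤ ∑ q ∈ F, pw G g d (j + 1) a q
          + ∑ i ∈ range j, (ptot G g d O1 (i + 1) F a * ptot G g d O2 (i + 1) F b)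
              * (2 * c.bs (j - i)) := by
    intro F a b
    have h2 := c.XX_leg (Om := O1) j F a
    have hT := ptot_nonneg (G := G) (g := g) (d := d) (Om := O2) j F b
    have hT1 := c.ptot_le_one (Om := O2) j F b
    have h3 := mul_le_mul_of_nonneg_right h2 hT
    refine h3.trans ?_
    rw [add_mul]
    apply add_le_add
    · have h4 : 0 ≤ ∑ q ∈ F, pw G g d (j + 1) a q :=
        Finset.sum_nonneg (fun q _ => pw_nonneg _ _ _)
      exact mul_le_of_le_one_right h4 hT1
    · rw [Finset.sum_mul]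
      apply Finset.sum_le_sum
      intro i hi
      have hi' : i + 1 ≤ j := by
        have := Finset.mem_range.1 hi
        omega
      have h5 := c.ptot_anti (Om := O2) hi' F b
      have h6 := ptot_nonneg (G := G) (g := g) (d := d) (Om := O1) (i + 1) F a
      have h7 := c.bs_nonneg (j - i)
      have h8 : ptot G g d O1 (i + 1) F a * ptot G g d O2 j F b
          ≤ ptot G g d O1 (i + 1) F a * ptot G g d O2 (i + 1) F b :=
        mul_le_mul_of_nonneg_left h5 h6
      nlinarith
  refine (hE.mono h1).trans (le_of_eq ?_)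
  rw [hE.add (fun (F : Finset V) (a _ : V) => ∑ q ∈ F, pw G g d (j + 1) a q)
    (fun (F : Finset V) (a b : V) => ∑ i ∈ range j,
      (ptot G g d O1 (i + 1) F a * ptot G g d O2 (i + 1) F b) * (2 * c.bs (j - i)))]
  congr 1
  rw [hE.sum (range j) (fun i (F : Finset V) (a b : V) =>
      (ptot G g d O1 (i + 1) F a * ptot G g d O2 (i + 1) F b) * (2 * c.bs (j - i)))]
  apply Finset.sum_congr rfl
  intro i _
  rw [hE.smul_right]
  rfl

end Ctx

end Vale.Agent.Lib.P308
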