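import Vale.Agent.Lib.P308.WJunc2

namespace Vale.Agent.Lib.P308

open Finset

set_option linter.unusedSectionVars false
set_option linter.unusedVariables false

/-- the majorant decays along the chain -/
lemma Dpow_chain (ρ : ℝ) (δ D : ℕ → ℝ) (hρ : 0 ≤ ρ) (hδ0 : ∀ r, 0 ≤ δ r)
    (hD : ∀ r, 1 ≤ r → ρ * D (r + 1) + δ r ≤ D r) (r : ℕ) (hr : 1 ≤ r) (t : ℕ) :
    ρ ^ t * D (r + t) ≤ D r := by
  induction t with
  | zero => simp
  | succ t ih =>
    have h2 := hD (r + t) (by omega)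
    have h3 := hδ0 (r + t)
    have h4 : ρ * D (r + t + 1) ≤ D (r + t) := by linarith
    calc ρ ^ (t + 1) * D (r + (t + 1)) = ρ ^ t * (ρ * D (r + t + 1)) := by
          rw [pow_succ, ← add_assoc]; ring
      _ ≤ ρ ^ t * D (r + t) := mul_le_mul_of_nonneg_left h4 (pow_nonneg hρ t)
      _ ≤ D r := ih

/-- weighted sums along a chain, for a general ratio, keeping the unused tail -/
lemma geo_sum_r (a : ℕ → ℝ) (β ρ cc : ℝ) (δ D : ℕ → ℝ) (hβ : 0 ≤ β) (hρ : 1 ≤ ρ)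
    (hcc0 : 0 ≤ cc) (hcc : 1 ≤ cc * (ρ - 1)) (hδ0 : ∀ r, 0 ≤ δ r)
    (hD : ∀ r, 1 ≤ r → ρ * D (r + 1) + δ r ≤ D r)
    (ha : ∀ i, 0 ≤ a i) (k : ℕ) (hstep : ∀ i, i < k → a i ≤ ρ * a (i + 1)) (r : ℕ)
    (hr : 1 ≤ r) :
    ∑ i ∈ range k, a (i + 1) * (β + δ (k - (i + 1) + r))
      ≤ a k * (β * cc * (ρ ^ k - 1) + D r - ρ ^ k * D (r + k)) := by
  have hρ0 : (0 : ℝ) ≤ ρ := by linarith
  induction k generalizing r with
  | zero =>
    simp
  | succ k ih =>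
    rw [Finset.sum_range_succ]
    have h1 := ih (fun i hi => hstep i (Nat.lt_succ_of_lt hi)) (r + 1) (by omega)
    have e : ∑ i ∈ range k, a (i + 1) * (β + δ (k + 1 - (i + 1) + r))
        = ∑ i ∈ range k, a (i + 1) * (β + δ (k - (i + 1) + (r + 1))) := by
      apply Finset.sum_congr rfl
      intro i hi
      have h0 : k + 1 - (i + 1) + r = k - (i + 1) + (r + 1) := by
        have := Finset.mem_range.1 hi
        omega
      rw [h0]
    rw [e]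
    have e2 : k + 1 - (k + 1) + r = r := by omega
    rw [e2]
    have e3 : r + 1 + k = r + (k + 1) := by ring
    rw [e3] at h1
    have h2 := hstep k (Nat.lt_succ_self k)
    have hρk : 1 ≤ ρ ^ k := one_le_pow₀ hρ
    have hdc := Dpow_chain ρ δ D hρ0 hδ0 hD (r + 1) (by omega) k
    rw [e3] at hdc
    have h3 : 0 ≤ β * cc * (ρ ^ k - 1) + D (r + 1) - ρ ^ k * D (r + (k + 1)) := by
      have h31 : 0 ≤ β * cc * (ρ ^ k - 1) := mul_nonneg (mul_nonneg hβ hcc0) (by linarith)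
      linarith
    have h4 : a k * (β * cc * (ρ ^ k - 1) + D (r + 1) - ρ ^ k * D (r + (k + 1)))
        ≤ ρ * a (k + 1) * (β * cc * (ρ ^ k - 1) + D (r + 1) - ρ ^ k * D (r + (k + 1))) :=
      mul_le_mul_of_nonneg_right h2 h3
    have e4 : ρ * a (k + 1) * (β * cc * (ρ ^ k - 1) + D (r + 1) - ρ ^ k * D (r + (k + 1)))
          + a (k + 1) * (β + δ r)
        = a (k + 1) * (β * cc * (ρ ^ (k + 1) - 1) + D r - ρ ^ (k + 1) * D (r + (k + 1)))
          - a (k + 1) * (β * (cc * (ρ - 1) - 1) + (D r - ρ * D (r + 1) - δ r)) := by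
      rw [pow_succ]; ring
    have h5 : 0 ≤ a (k + 1) * (β * (cc * (ρ - 1) - 1) + (D r - ρ * D (r + 1) - δ r)) := by
      apply mul_nonneg (ha _)
      have h51 := mul_nonneg hβ (by linarith : (0 : ℝ) ≤ cc * (ρ - 1) - 1)
      have h52 := hD r hr
      linarith
    linarith

/-- the survival weights decay at most geometrically, with a general ratio -/
lemma num1_r (a : ℕ → ℝ) (β ρ cc : ℝ) (δ D : ℕ → ℝ) (k : ℕ) (h0 : a 0 = 1)
    (ha : ∀ i, 0 ≤ a i) (hβ : 0 ≤ β) (hρ : 1 ≤ ρ) (hcc0 : 0 ≤ cc) (hcc : 1 ≤ cc * (ρ - 1))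
    (hδ0 : ∀ r, 0 ≤ δ r) (hD0 : ∀ r, 0 ≤ D r)
    (hD : ∀ r, 1 ≤ r → ρ * D (r + 1) + δ r ≤ D r)
    (hnum : ρ * (2 * (β + δ 1) + (8 * cc + 4) * β * ρ ^ k + 8 * D 1) ≤ ρ - 1)
    (hrec : ∀ t, a t * (1 - 2 * (β + δ 1)) - 4 * (β + δ (t + 1))
        - 8 * ∑ i ∈ range t, a (i + 1) * (β + δ (t - (i + 1) + 1)) ≤ a (t + 1)) :
    ∀ t, t < k → a t ≤ ρ * a (t + 1) := by
  have hρ0 : (0 : ℝ) ≤ ρ := by linarith
  intro t
  induction t using Nat.strong_induction_on with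
  | _ t ih =>
    intro ht
    have hch : ∀ i, i < t → a i ≤ ρ * a (i + 1) := fun i hi => ih i hi (lt_trans hi ht)
    have h1 := pow_chain a ρ hρ0 t hch
    rw [h0] at h1
    have h2 := geo_sum_r a β ρ cc δ D hβ hρ hcc0 hcc hδ0 hD ha t hch 1 (le_refl 1)
    have h3 := hrec t
    have hpow : ρ ^ t ≤ ρ ^ k := pow_le_pow_right₀ hρ ht.le
    have hρt : 1 ≤ ρ ^ t := one_le_pow₀ hρ
    have hat := ha t
    have hδD : δ (t + 1) ≤ D (t + 1) := by
      have h4 := hD (t + 1) (by omega)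
      have h5 := mul_nonneg hρ0 (hD0 (t + 1 + 1))
      linarith
    have e1t : 1 + t = t + 1 := by ring
    rw [e1t] at h2
    have hDt := hD0 (t + 1)
    -- the initial blocked set
    have h6 : 4 * (β + δ (t + 1)) ≤ a t * (4 * β * ρ ^ t + 4 * (ρ ^ t * D (t + 1))) := by
      have h61 : 4 * (β + δ (t + 1)) ≤ 4 * (β + D (t + 1)) := by linarith
      have h62 : 4 * (β + D (t + 1)) ≤ 4 * (β + D (t + 1)) * (ρ ^ t * a t) :=
        le_mul_of_one_le_right (by linarith) h1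
      have e : 4 * (β + D (t + 1)) * (ρ ^ t * a t)
          = a t * (4 * β * ρ ^ t + 4 * (ρ ^ t * D (t + 1))) := by ring
      linarith
    -- total loss
    have hρD : 0 ≤ ρ ^ t * D (t + 1) := mul_nonneg (by linarith) hDt
    have h7 : 4 * (β + δ (t + 1))
          + 8 * ∑ i ∈ range t, a (i + 1) * (β + δ (t - (i + 1) + 1))
        ≤ a t * ((8 * cc + 4) * β * ρ ^ k + 8 * D 1) := by
      have h71 : 4 * (β + δ (t + 1))
            + 8 * ∑ i ∈ range t, a (i + 1) * (β + δ (t - (i + 1) + 1))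
          ≤ a t * (4 * β * ρ ^ t + 4 * (ρ ^ t * D (t + 1)))
            + 8 * (a t * (β * cc * (ρ ^ t - 1) + D 1 - ρ ^ t * D (t + 1))) := by linarith
      refine h71.trans ?_
      have e : a t * (4 * β * ρ ^ t + 4 * (ρ ^ t * D (t + 1)))
            + 8 * (a t * (β * cc * (ρ ^ t - 1) + D 1 - ρ ^ t * D (t + 1)))
          = a t * ((8 * cc + 4) * β * ρ ^ t + 8 * D 1 - 8 * β * cc - 4 * (ρ ^ t * D (t + 1))) := by
        ring
      rw [e]
      apply mul_le_mul_of_nonneg_left _ hat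
      have h72 : (8 * cc + 4) * β * ρ ^ t ≤ (8 * cc + 4) * β * ρ ^ k :=
        mul_le_mul_of_nonneg_left hpow (by positivity)
      have h73 : 0 ≤ 8 * β * cc := by positivity
      linarith
    have h8 : a t * (1 - (2 * (β + δ 1) + (8 * cc + 4) * β * ρ ^ k + 8 * D 1)) ≤ a (t + 1) := by
      have e : a t * (1 - (2 * (β + δ 1) + (8 * cc + 4) * β * ρ ^ k + 8 * D 1))
          = a t * (1 - 2 * (β + δ 1)) - a t * ((8 * cc + 4) * β * ρ ^ k + 8 * D 1) := by ring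
      rw [e]
      linarith
    have h9 : 1 ≤ ρ * (1 - (2 * (β + δ 1) + (8 * cc + 4) * β * ρ ^ k + 8 * D 1)) := by
      have e : ρ * (1 - (2 * (β + δ 1) + (8 * cc + 4) * β * ρ ^ k + 8 * D 1))
          = ρ - ρ * (2 * (β + δ 1) + (8 * cc + 4) * β * ρ ^ k + 8 * D 1) := by ring
      rw [e]
      linarith
    have h10 : a t ≤ a t * (ρ * (1 - (2 * (β + δ 1) + (8 * cc + 4) * β * ρ ^ k + 8 * D 1))) :=
      le_mul_of_one_le_right hat h9
    have h11 := mul_le_mul_of_nonneg_left h8 hρ0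
    have e12 : a t * (ρ * (1 - (2 * (β + δ 1) + (8 * cc + 4) * β * ρ ^ k + 8 * D 1)))
        = ρ * (a t * (1 - (2 * (β + δ 1) + (8 * cc + 4) * β * ρ ^ k + 8 * D 1))) := by ring
    linarith

/-- majorant of the weighted sums of `dl` with ratio `ρ`, with a general geometric factor -/
noncomputable def DK (ρ κ dinv ε : ℝ) (r : ℕ) : ℝ :=
  if r ≤ 1 then (1 + ρ) * dinv + κ * ρ ^ 2 * ε ^ 3
  else if r = 2 then dinv + κ * ρ * ε ^ 3 else κ * ε ^ r

lemma DK_one (ρ κ dinv ε : ℝ) : DK ρ κ dinv ε 1 = (1 + ρ) * dinv + κ * ρ ^ 2 * ε ^ 3 := by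
  unfold DK
  rw [if_pos (le_refl 1)]

lemma DK_nonneg (ρ κ dinv ε : ℝ) (h0 : 0 ≤ ρ) (hκ : 0 ≤ κ) (h1 : 0 ≤ dinv) (h2 : 0 ≤ ε)
    (r : ℕ) : 0 ≤ DK ρ κ dinv ε r := by
  unfold DK
  split_ifs <;> positivity

lemma DK_rec (ρ κ dinv ε : ℝ) (h0 : 0 ≤ ρ) (hκ : 0 ≤ κ) (h1 : 0 ≤ dinv) (h2 : 0 ≤ ε)
    (h3 : 1 ≤ κ * (1 - ρ * ε)) (r : ℕ) (hr : 1 ≤ r) :
    ρ * DK ρ κ dinv ε (r + 1) + dl dinv ε r ≤ DK ρ κ dinv ε r := by
  rcases Nat.lt_or_ge r 3 with h | h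
  · rcases Nat.lt_or_ge r 2 with h' | h'
    · have hr1 : r = 1 := by omega
      subst hr1
      unfold DK dl
      norm_num
      linarith
    · have hr2 : r = 2 := by omega
      subst hr2
      unfold DK dl
      norm_num
      linarith
  · unfold DK dl
    rw [if_neg (by omega), if_neg (by omega), if_neg (by omega), if_neg (by omega),
      if_neg (by omega)]
    have h4 : 0 ≤ ε ^ r := pow_nonneg h2 r
    have h5 := mul_nonneg h4 (sub_nonneg.2 h3)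
    have e : ρ * (κ * ε ^ (r + 1)) = ε ^ r * (κ * (ρ * ε)) := by rw [pow_succ]; ring
    rw [e]
    nlinarith

variable {V : Type*} [Fintype V] [DecidableEq V]
variable {G : SimpleGraph V} [DecidableRel G.Adj] {g : V → V} {d : ℕ} {lam : ℝ}

namespace Ctx

variable (c : Ctx G g d lam)
include c

/-- the chain of the pair walk with a general ratio, from the sharp one-step bounds -/
lemma gg_steps_r (F₀ : Finset V) (hF : F₀.card ≤ 2) (y y' : V) (k₁ : ℕ) (ρ κ cc : ℝ)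
    (hρ : 1 ≤ ρ) (hκ : 0 ≤ κ) (hcc0 : 0 ≤ cc) (hcc : 1 ≤ cc * (ρ - 1))
    (hκ1 : 1 ≤ κ * (1 - ρ * (lam / d)))
    (hnum : ρ * (2 * (1 / (Fintype.card V : ℝ) + dl (1 / (d : ℝ)) (lam / d) 1)
        + (8 * cc + 4) * (1 / (Fintype.card V : ℝ)) * ρ ^ k₁
        + 8 * DK ρ κ (1 / (d : ℝ)) (lam / d) 1) ≤ ρ - 1) :
    ∀ t, t < k₁ → S G g d t F₀ y y' (fun _ _ _ => 1)
      ≤ ρ * S G g d (t + 1) F₀ y y' (fun _ _ _ => 1) :=
  num1_r (fun t => S G g d t F₀ y y' (fun _ _ _ => 1)) (1 / (Fintype.card V : ℝ)) ρ cc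
    (dl (1 / (d : ℝ)) (lam / d)) (DK ρ κ (1 / (d : ℝ)) (lam / d)) k₁
    rfl (fun t => c.S_one_nonneg t F₀ y y') (by positivity) hρ hcc0 hcc
    (dl_nonneg _ _ (by positivity) c.ep_nonneg)
    (DK_nonneg ρ κ _ _ (by linarith) hκ (by positivity) c.ep_nonneg)
    (DK_rec ρ κ _ _ (by linarith) hκ (by positivity) c.ep_nonneg hκ1)
    hnum (fun t => c.gg_recs F₀ hF y y' t)

end Ctx

end Vale.Agent.Lib.P308
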