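import Vale.Agent.Lib.P308.VMain

namespace Vale.Agent.Lib.P308

open Finset

set_option linter.unusedSectionVars false
set_option linter.unusedVariables false

variable {V : Type*} [Fintype V] [DecidableEq V]

/-- first side of a colouring : the pairs whose two ends get different colours -/
def sd1 (g : V → V) (χ : V → Bool) : Finset V := univ.filter (fun z => χ z ≠ χ (g z))

/-- second side of a colouring : the pairs whose two ends get the same colour -/
def sd2 (g : V → V) (χ : V → Bool) : Finset V := univ.filter (fun z => χ z = χ (g z))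

lemma mem_sd1 {g : V → V} {χ : V → Bool} {z : V} : z ∈ sd1 g χ ↔ χ z ≠ χ (g z) := by
  simp [sd1]

lemma mem_sd2 {g : V → V} {χ : V → Bool} {z : V} : z ∈ sd2 g χ ↔ χ z = χ (g z) := by
  simp [sd2]

lemma sd_disj {g : V → V} {χ : V → Bool} : ∀ v ∈ sd1 g χ, v ∉ sd2 g χ := by
  intro v hv
  rw [mem_sd1] at hv
  rw [mem_sd2]
  exact hv

lemma sd1_closed {g : V → V} (hg : ∀ x, g (g x) = x) {χ : V → Bool} :
    ∀ v ∈ sd1 g χ, g v ∈ sd1 g χ := by
  intro v hv
  rw [mem_sd1] at hv ⊢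
  rw [hg]
  exact fun h => hv h.symm

lemma sd2_closed {g : V → V} (hg : ∀ x, g (g x) = x) {χ : V → Bool} :
    ∀ v ∈ sd2 g χ, g v ∈ sd2 g χ := by
  intro v hv
  rw [mem_sd2] at hv ⊢
  rw [hg]
  exact hv.symm

/-- change the colour of one vertex -/
def flipAt (z : V) (χ : V → Bool) : V → Bool := Function.update χ z (!χ z)

lemma flipAt_self (z : V) (χ : V → Bool) : flipAt z χ z = !χ z := by
  simp [flipAt]

lemma flipAt_ne (z : V) (χ : V → Bool) {w : V} (h : w ≠ z) : flipAt z χ w = χ w := by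
  simp [flipAt, h]

lemma flipAt_flipAt (z : V) (χ : V → Bool) : flipAt z (flipAt z χ) = χ := by
  funext w
  by_cases h : w = z
  · subst h
    rw [flipAt_self, flipAt_self]
    simp
  · rw [flipAt_ne _ _ h, flipAt_ne _ _ h]

/-- changing one colour, as a bijection of the colourings -/
def flipEquiv (z : V) : (V → Bool) ≃ (V → Bool) :=
  ⟨flipAt z, flipAt z, flipAt_flipAt z, flipAt_flipAt z⟩

lemma mem_sd1_flip_self {g : V → V} {z : V} (hz : g z ≠ z) (χ : V → Bool) :
    z ∈ sd1 g (flipAt z χ) ↔ z ∉ sd1 g χ := by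
  rw [mem_sd1, mem_sd1, flipAt_self, flipAt_ne _ _ hz]
  cases χ z <;> cases χ (g z) <;> simp

lemma mem_sd1_flip_other {g : V → V} (hg : ∀ x, g (g x) = x) {z w : V} (h1 : w ≠ z)
    (h2 : w ≠ g z) (χ : V → Bool) : w ∈ sd1 g (flipAt z χ) ↔ w ∈ sd1 g χ := by
  have h3 : g w ≠ z := by
    intro hc
    apply h2
    rw [← hc, hg]
  rw [mem_sd1, mem_sd1, flipAt_ne _ _ h1, flipAt_ne _ _ h3]

lemma mem_sd2_flip_other {g : V → V} (hg : ∀ x, g (g x) = x) {z w : V} (h1 : w ≠ z)
    (h2 : w ≠ g z) (χ : V → Bool) : w ∈ sd2 g (flipAt z χ) ↔ w ∈ sd2 g χ := by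
  have h3 : g w ≠ z := by
    intro hc
    apply h2
    rw [← hc, hg]
  rw [mem_sd2, mem_sd2, flipAt_ne _ _ h1, flipAt_ne _ _ h3]

lemma mem_sd2_iff {g : V → V} {χ : V → Bool} {z : V} : z ∈ sd2 g χ ↔ z ∉ sd1 g χ := by
  rw [mem_sd1, mem_sd2]
  simp

/-- a quantity that does not depend on the colour of `z` is split evenly by the side of `z` -/
lemma col_half1 {g : V → V} {z : V} (hz : g z ≠ z) (X : (V → Bool) → ℝ)
    (hX : ∀ χ, X (flipAt z χ) = X χ) :
    ∑ χ : V → Bool, (if z ∈ sd1 g χ then X χ else 0) = (1 / 2) * ∑ χ : V → Bool, X χ := by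
  have h1 : ∑ χ : V → Bool, (if z ∈ sd1 g χ then X χ else 0)
      = ∑ χ : V → Bool, (if z ∈ sd1 g χ then 0 else X χ) := by
    have h2 := Equiv.sum_comp (flipEquiv z) (fun χ => if z ∈ sd1 g χ then X χ else 0)
    rw [← h2]
    apply Finset.sum_congr rfl
    intro χ _
    change (if z ∈ sd1 g (flipAt z χ) then X (flipAt z χ) else 0) = _
    rw [hX]
    by_cases h : z ∈ sd1 g χ
    · rw [if_pos h, if_neg ((mem_sd1_flip_self hz χ).not.2 (not_not.2 h))]
    · rw [if_neg h, if_pos ((mem_sd1_flip_self hz χ).2 h)]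
  have h3 : ∑ χ : V → Bool, X χ
      = ∑ χ : V → Bool, (if z ∈ sd1 g χ then X χ else 0)
        + ∑ χ : V → Bool, (if z ∈ sd1 g χ then 0 else X χ) := by
    rw [← Finset.sum_add_distrib]
    apply Finset.sum_congr rfl
    intro χ _
    split_ifs <;> ring
  rw [← h1] at h3
  linarith

lemma col_half2 {g : V → V} {z : V} (hz : g z ≠ z) (X : (V → Bool) → ℝ)
    (hX : ∀ χ, X (flipAt z χ) = X χ) :
    ∑ χ : V → Bool, (if z ∈ sd2 g χ then X χ else 0) = (1 / 2) * ∑ χ : V → Bool, X χ := by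
  have h1 := col_half1 (g := g) hz X hX
  have h3 : ∑ χ : V → Bool, X χ
      = ∑ χ : V → Bool, (if z ∈ sd1 g χ then X χ else 0)
        + ∑ χ : V → Bool, (if z ∈ sd2 g χ then X χ else 0) := by
    rw [← Finset.sum_add_distrib]
    apply Finset.sum_congr rfl
    intro χ _
    by_cases h : z ∈ sd1 g χ
    · rw [if_pos h, if_neg (fun hc => (mem_sd2_iff.1 hc) h)]; ring
    · rw [if_neg h, if_pos (mem_sd2_iff.2 h)]; ring
  linarith

variable {G : SimpleGraph V} [DecidableRel G.Adj] {g : V → V} {d : ℕ} {lam : ℝ}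

/-- the confined walk only depends on its side outside the blocked set -/
lemma pc_congr_Om (n : ℕ) : ∀ (Om Om' F : Finset V) (y w : V),
    (∀ v, v ∉ F → (v ∈ Om ↔ v ∈ Om')) → pc G g d Om n F y w = pc G g d Om' n F y w := by
  induction n with
  | zero => intro Om Om' F y w _; rfl
  | succ n ih =>
    intro Om Om' F y w h
    rw [pc_succ, pc_succ]
    have e : Om \ F = Om' \ F := by
      ext v
      simp only [mem_sdiff]
      constructor
      · rintro ⟨h1, h2⟩; exact ⟨(h v h2).1 h1, h2⟩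
      · rintro ⟨h1, h2⟩; exact ⟨(h v h2).2 h1, h2⟩
    rw [e]
    apply Finset.sum_congr rfl
    intro z _
    rw [ih Om Om' (F ∪ {z, g z}) z w]
    intro v hv
    exact h v (fun hc => hv (Finset.mem_union_left _ hc))

lemma ptot_congr_Om (n : ℕ) (Om Om' F : Finset V) (y : V)
    (h : ∀ v, v ∉ F → (v ∈ Om ↔ v ∈ Om')) : ptot G g d Om n F y = ptot G g d Om' n F y := by
  unfold ptot
  apply Finset.sum_congr rfl
  intro w _
  exact pc_congr_Om n Om Om' F y w h

lemma ptot_congr_F (n : ℕ) (Om F F' : Finset V) (y : V)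
    (h : ∀ v ∈ Om, v ∈ F ↔ v ∈ F') : ptot G g d Om n F y = ptot G g d Om n F' y := by
  unfold ptot
  apply Finset.sum_congr rfl
  intro w _
  exact pc_congr Om n F F' y w h

/-- the sum over all colourings of the product of the survival weights of the two confined
walks, with `j` and `i` rounds -/
noncomputable def AA (G : SimpleGraph V) [DecidableRel G.Adj] (g : V → V) (d : ℕ) (j i : ℕ)
    (F : Finset V) (a b : V) : ℝ :=
  ∑ χ : V → Bool, ptot G g d (sd1 g χ) j F a * ptot G g d (sd2 g χ) i F b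

lemma AA_nonneg (j i : ℕ) (F : Finset V) (a b : V) : 0 ≤ AA G g d j i F a b :=
  Finset.sum_nonneg (fun χ _ => mul_nonneg (ptot_nonneg _ _ _) (ptot_nonneg _ _ _))

lemma sum_sdiff_univ (F : Finset V) (f : V → ℝ) :
    ∑ z ∈ univ \ F, f z = ∑ z : V, (if z ∉ F then f z else 0) := by
  rw [Finset.sdiff_eq_filter, Finset.sum_filter]

lemma sum_side_sdiff (O F : Finset V) (f : V → ℝ) :
    ∑ z ∈ O \ F, f z = ∑ z ∈ univ \ F, (if z ∈ O then f z else 0) := by
  rw [← Finset.sum_filter]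
  congr 1
  ext v
  simp only [mem_sdiff, mem_filter, mem_univ, true_and]
  tauto

lemma sum_okp (F : Finset V) (f : V × V → ℝ) :
    ∑ p ∈ okp g F, f p = ∑ z₁ ∈ univ \ F, ∑ z₂ ∈ univ \ (F ∪ {z₁, g z₁}), f (z₁, z₂) := by
  unfold okp
  rw [Finset.sum_filter, Fintype.sum_prod_type, sum_sdiff_univ]
  apply Finset.sum_congr rfl
  intro z₁ _
  by_cases h1 : z₁ ∈ F
  · rw [if_neg (not_not.2 h1)]
    apply Finset.sum_eq_zero
    intro z₂ _
    rw [if_neg]
    simp [h1]
  · rw [if_pos h1, sum_sdiff_univ]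
    apply Finset.sum_congr rfl
    intro z₂ _
    by_cases h2 : z₂ ∈ F ∪ {z₁, g z₁}
    · rw [if_neg (not_not.2 h2), if_neg]
      simp only [mem_union, mem_insert, mem_singleton] at h2
      tauto
    · rw [if_pos h2, if_pos]
      simp only [mem_union, mem_insert, mem_singleton, not_or] at h2
      exact ⟨h1, h2.1, h2.2.1, h2.2.2⟩

lemma AA_zero (F : Finset V) (a b : V) :
    AA G g d 0 0 F a b = (2 : ℝ) ^ Fintype.card V := by
  unfold AA
  simp only [ptot_zero, mul_one, Finset.sum_const, Finset.card_univ, nsmul_eq_mul]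
  rw [Fintype.card_fun, Fintype.card_bool]
  push_cast
  ring

/-- first recursion : the first walker makes a round -/
lemma AA_rec1 (hg : ∀ x, g (g x) = x) (hfix : ∀ x, g x ≠ x) (j i : ℕ) (F : Finset V)
    (a b : V) :
    AA G g d (j + 1) i F a b
      = (1 / 2) * ∑ z ∈ univ \ F, pw1 G g d a z * AA G g d j i (F ∪ {z, g z}) z b := by
  unfold AA
  have h1 : ∀ χ : V → Bool, ptot G g d (sd1 g χ) (j + 1) F a * ptot G g d (sd2 g χ) i F b
      = ∑ z ∈ univ \ F, (if z ∈ sd1 g χ then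
          pw1 G g d a z * (ptot G g d (sd1 g χ) j (F ∪ {z, g z}) z
            * ptot G g d (sd2 g χ) i (F ∪ {z, g z}) b) else 0) := by
    intro χ
    rw [ptot_succ, sum_side_sdiff, Finset.sum_mul]
    apply Finset.sum_congr rfl
    intro z _
    by_cases hz : z ∈ sd1 g χ
    · rw [if_pos hz, if_pos hz]
      have e : ptot G g d (sd2 g χ) i F b = ptot G g d (sd2 g χ) i (F ∪ {z, g z}) b := by
        apply ptot_congr_F
        intro v hv
        have n1 : v ≠ z := fun hc => sd_disj z hz (hc ▸ hv)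
        have n2 : v ≠ g z := fun hc => sd_disj (g z) (sd1_closed hg z hz) (hc ▸ hv)
        simp only [mem_union, mem_insert, mem_singleton]
        tauto
      rw [e]; ring
    · rw [if_neg hz, if_neg hz, zero_mul]
  rw [Finset.sum_congr rfl (fun χ _ => h1 χ), Finset.sum_comm, Finset.mul_sum]
  apply Finset.sum_congr rfl
  intro z hz
  have h2 := col_half1 (g := g) (hfix z)
    (fun χ => pw1 G g d a z * (ptot G g d (sd1 g χ) j (F ∪ {z, g z}) z
      * ptot G g d (sd2 g χ) i (F ∪ {z, g z}) b)) ?_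
  · rw [h2, ← Finset.mul_sum]
  · intro χ
    have e1 : ptot G g d (sd1 g (flipAt z χ)) j (F ∪ {z, g z}) z
        = ptot G g d (sd1 g χ) j (F ∪ {z, g z}) z := by
      apply ptot_congr_Om
      intro v hv
      simp only [mem_union, mem_insert, mem_singleton, not_or] at hv
      exact mem_sd1_flip_other hg hv.2.1 hv.2.2 χ
    have e2 : ptot G g d (sd2 g (flipAt z χ)) i (F ∪ {z, g z}) b
        = ptot G g d (sd2 g χ) i (F ∪ {z, g z}) b := by
      apply ptot_congr_Om
      intro v hv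
      simp only [mem_union, mem_insert, mem_singleton, not_or] at hv
      exact mem_sd2_flip_other hg hv.2.1 hv.2.2 χ
    simp only [e1, e2]

/-- second recursion : the second walker makes a round -/
lemma AA_rec2 (hg : ∀ x, g (g x) = x) (hfix : ∀ x, g x ≠ x) (j i : ℕ) (F : Finset V)
    (a b : V) :
    AA G g d j (i + 1) F a b
      = (1 / 2) * ∑ z ∈ univ \ F, pw1 G g d b z * AA G g d j i (F ∪ {z, g z}) a z := by
  unfold AA
  have h1 : ∀ χ : V → Bool, ptot G g d (sd1 g χ) j F a * ptot G g d (sd2 g χ) (i + 1) F b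
      = ∑ z ∈ univ \ F, (if z ∈ sd2 g χ then
          pw1 G g d b z * (ptot G g d (sd1 g χ) j (F ∪ {z, g z}) a
            * ptot G g d (sd2 g χ) i (F ∪ {z, g z}) z) else 0) := by
    intro χ
    rw [ptot_succ (Om := sd2 g χ) i F b, sum_side_sdiff, Finset.mul_sum]
    apply Finset.sum_congr rfl
    intro z _
    by_cases hz : z ∈ sd2 g χ
    · rw [if_pos hz, if_pos hz]
      have e : ptot G g d (sd1 g χ) j F a = ptot G g d (sd1 g χ) j (F ∪ {z, g z}) a := by
        apply ptot_congr_F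
        intro v hv
        have n1 : v ≠ z := fun hc => sd_disj v hv (hc ▸ hz)
        have n2 : v ≠ g z := fun hc => sd_disj v hv (hc ▸ sd2_closed hg z hz)
        simp only [mem_union, mem_insert, mem_singleton]
        tauto
      rw [e]; ring
    · rw [if_neg hz, if_neg hz, mul_zero]
  rw [Finset.sum_congr rfl (fun χ _ => h1 χ), Finset.sum_comm, Finset.mul_sum]
  apply Finset.sum_congr rfl
  intro z hz
  have h2 := col_half2 (g := g) (hfix z)
    (fun χ => pw1 G g d b z * (ptot G g d (sd1 g χ) j (F ∪ {z, g z}) a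
      * ptot G g d (sd2 g χ) i (F ∪ {z, g z}) z)) ?_
  · rw [h2, ← Finset.mul_sum]
  · intro χ
    have e1 : ptot G g d (sd1 g (flipAt z χ)) j (F ∪ {z, g z}) a
        = ptot G g d (sd1 g χ) j (F ∪ {z, g z}) a := by
      apply ptot_congr_Om
      intro v hv
      simp only [mem_union, mem_insert, mem_singleton, not_or] at hv
      exact mem_sd1_flip_other hg hv.2.1 hv.2.2 χ
    have e2 : ptot G g d (sd2 g (flipAt z χ)) i (F ∪ {z, g z}) z
        = ptot G g d (sd2 g χ) i (F ∪ {z, g z}) z := by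
      apply ptot_congr_Om
      intro v hv
      simp only [mem_union, mem_insert, mem_singleton, not_or] at hv
      exact mem_sd2_flip_other hg hv.2.1 hv.2.2 χ
    simp only [e1, e2]

/-- the colourings average the two confined walks to the pair walk -/
lemma AA_diag (hg : ∀ x, g (g x) = x) (hfix : ∀ x, g x ≠ x) (n : ℕ) :
    ∀ (F : Finset V) (a b : V), AA G g d n n F a b
      = (2 : ℝ) ^ Fintype.card V * (1 / 4) ^ n * S G g d n F a b (fun _ _ _ => 1) := by
  induction n with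
  | zero =>
    intro F a b
    rw [AA_zero, S_zero]
    ring
  | succ n ih =>
    intro F a b
    have hS : S G g d (n + 1) F a b (fun _ _ _ => 1)
        = ∑ z₁ ∈ univ \ F, ∑ z₂ ∈ univ \ (F ∪ {z₁, g z₁}),
            pw1 G g d a z₁ * pw1 G g d b z₂
              * S G g d n (F ∪ blk g (z₁, z₂)) z₁ z₂ (fun _ _ _ => 1) := by
      rw [S_succ]
      exact sum_okp F (fun p => pw1 G g d a p.1 * pw1 G g d b p.2
        * S G g d n (F ∪ blk g p) p.1 p.2 (fun _ _ _ => 1))
    rw [hS, AA_rec1 hg hfix n (n + 1) F a b, Finset.mul_sum, Finset.mul_sum]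
    apply Finset.sum_congr rfl
    intro z₁ _
    rw [AA_rec2 hg hfix n n (F ∪ {z₁, g z₁}) z₁ b]
    simp only [Finset.mul_sum]
    apply Finset.sum_congr rfl
    intro z₂ _
    rw [ih]
    have e : F ∪ {z₁, g z₁} ∪ {z₂, g z₂} = F ∪ blk g (z₁, z₂) := by
      ext v
      simp only [blk, mem_union, mem_insert, mem_singleton]
      tauto
    rw [e]
    ring

namespace Ctx

variable (c : Ctx G g d lam)
include c

lemma sum_sdiff_pw1_le (F : Finset V) (a : V) : ∑ z ∈ univ \ F, pw1 G g d a z ≤ 1 := by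
  rw [← c.pw1_row a]
  exact Finset.sum_le_sum_of_subset_of_nonneg (Finset.subset_univ _)
    (fun z _ _ => pw1_nonneg _ _)

lemma AA_r0 (hfix : ∀ x, g x ≠ x) (r : ℕ) : ∀ (F : Finset V) (a b : V),
    AA G g d r 0 F a b ≤ (1 / 2) ^ r * (2 : ℝ) ^ Fintype.card V := by
  induction r with
  | zero =>
    intro F a b
    rw [AA_zero]
    simp
  | succ r ih =>
    intro F a b
    rw [AA_rec1 c.inv hfix r 0 F a b]
    have h1 : ∑ z ∈ univ \ F, pw1 G g d a z * AA G g d r 0 (F ∪ {z, g z}) z b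
        ≤ ∑ z ∈ univ \ F, pw1 G g d a z * ((1 / 2) ^ r * (2 : ℝ) ^ Fintype.card V) :=
      Finset.sum_le_sum (fun z _ => mul_le_mul_of_nonneg_left (ih _ _ _) (pw1_nonneg _ _))
    have h2 := c.sum_sdiff_pw1_le F a
    rw [← Finset.sum_mul] at h1
    have h3 : (0 : ℝ) ≤ (1 / 2) ^ r * (2 : ℝ) ^ Fintype.card V := by positivity
    have h4 := mul_le_mul_of_nonneg_right h2 h3
    rw [pow_succ]
    linarith

lemma AA_0r (hfix : ∀ x, g x ≠ x) (r : ℕ) : ∀ (F : Finset V) (a b : V),
    AA G g d 0 r F a b ≤ (1 / 2) ^ r * (2 : ℝ) ^ Fintype.card V := by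
  induction r with
  | zero =>
    intro F a b
    rw [AA_zero]
    simp
  | succ r ih =>
    intro F a b
    rw [AA_rec2 c.inv hfix 0 r F a b]
    have h1 : ∑ z ∈ univ \ F, pw1 G g d b z * AA G g d 0 r (F ∪ {z, g z}) a z
        ≤ ∑ z ∈ univ \ F, pw1 G g d b z * ((1 / 2) ^ r * (2 : ℝ) ^ Fintype.card V) :=
      Finset.sum_le_sum (fun z _ => mul_le_mul_of_nonneg_left (ih _ _ _) (pw1_nonneg _ _))
    have h2 := c.sum_sdiff_pw1_le F b
    rw [← Finset.sum_mul] at h1
    have h3 : (0 : ℝ) ≤ (1 / 2) ^ r * (2 : ℝ) ^ Fintype.card V := by positivity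
    have h4 := mul_le_mul_of_nonneg_right h2 h3
    rw [pow_succ]
    linarith

lemma AA_off1 (hfix : ∀ x, g x ≠ x) (r l : ℕ) : ∀ (F : Finset V) (a b : V),
    AA G g d (l + r) l F a b ≤ (1 / 2) ^ r * AA G g d l l F a b := by
  induction l with
  | zero =>
    intro F a b
    rw [Nat.zero_add, AA_zero]
    exact c.AA_r0 hfix r F a b
  | succ l ih =>
    intro F a b
    have e : l + 1 + r = (l + r) + 1 := by ring
    rw [e, AA_rec1 c.inv hfix (l + r) (l + 1) F a b, AA_rec1 c.inv hfix l (l + 1) F a b]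
    have h1 : ∀ z ∈ univ \ F, pw1 G g d a z * AA G g d (l + r) (l + 1) (F ∪ {z, g z}) z b
        ≤ pw1 G g d a z * ((1 / 2) ^ r * AA G g d l (l + 1) (F ∪ {z, g z}) z b) := by
      intro z _
      apply mul_le_mul_of_nonneg_left _ (pw1_nonneg _ _)
      rw [AA_rec2 c.inv hfix (l + r) l, AA_rec2 c.inv hfix l l]
      have h2 : ∑ z₂ ∈ univ \ (F ∪ {z, g z}), pw1 G g d b z₂
            * AA G g d (l + r) l (F ∪ {z, g z} ∪ {z₂, g z₂}) z z₂
          ≤ ∑ z₂ ∈ univ \ (F ∪ {z, g z}), pw1 G g d b z₂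
            * ((1 / 2) ^ r * AA G g d l l (F ∪ {z, g z} ∪ {z₂, g z₂}) z z₂) :=
        Finset.sum_le_sum (fun z₂ _ => mul_le_mul_of_nonneg_left (ih _ _ _) (pw1_nonneg _ _))
      have e2 : ∑ z₂ ∈ univ \ (F ∪ {z, g z}), pw1 G g d b z₂
            * ((1 / 2) ^ r * AA G g d l l (F ∪ {z, g z} ∪ {z₂, g z₂}) z z₂)
          = (1 / 2) ^ r * ∑ z₂ ∈ univ \ (F ∪ {z, g z}), pw1 G g d b z₂
            * AA G g d l l (F ∪ {z, g z} ∪ {z₂, g z₂}) z z₂ := by
        rw [Finset.mul_sum]
        apply Finset.sum_congr rfl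
        intro z₂ _
        ring
      rw [e2] at h2
      linarith
    have h3 := Finset.sum_le_sum h1
    have e3 : ∑ z ∈ univ \ F, pw1 G g d a z
          * ((1 / 2) ^ r * AA G g d l (l + 1) (F ∪ {z, g z}) z b)
        = (1 / 2) ^ r * ∑ z ∈ univ \ F, pw1 G g d a z
          * AA G g d l (l + 1) (F ∪ {z, g z}) z b := by
      rw [Finset.mul_sum]
      apply Finset.sum_congr rfl
      intro z _
      ring
    rw [e3] at h3
    linarith

lemma AA_off2 (hfix : ∀ x, g x ≠ x) (r l : ℕ) : ∀ (F : Finset V) (a b : V),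
    AA G g d l (l + r) F a b ≤ (1 / 2) ^ r * AA G g d l l F a b := by
  induction l with
  | zero =>
    intro F a b
    rw [Nat.zero_add, AA_zero]
    exact c.AA_0r hfix r F a b
  | succ l ih =>
    intro F a b
    have e : l + 1 + r = (l + r) + 1 := by ring
    rw [e, AA_rec2 c.inv hfix (l + 1) (l + r) F a b, AA_rec2 c.inv hfix (l + 1) l F a b]
    have h1 : ∀ z ∈ univ \ F, pw1 G g d b z * AA G g d (l + 1) (l + r) (F ∪ {z, g z}) a z
        ≤ pw1 G g d b z * ((1 / 2) ^ r * AA G g d (l + 1) l (F ∪ {z, g z}) a z) := by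
      intro z _
      apply mul_le_mul_of_nonneg_left _ (pw1_nonneg _ _)
      rw [AA_rec1 c.inv hfix l (l + r), AA_rec1 c.inv hfix l l]
      have h2 : ∑ z₁ ∈ univ \ (F ∪ {z, g z}), pw1 G g d a z₁
            * AA G g d l (l + r) (F ∪ {z, g z} ∪ {z₁, g z₁}) z₁ z
          ≤ ∑ z₁ ∈ univ \ (F ∪ {z, g z}), pw1 G g d a z₁
            * ((1 / 2) ^ r * AA G g d l l (F ∪ {z, g z} ∪ {z₁, g z₁}) z₁ z) :=
        Finset.sum_le_sum (fun z₁ _ => mul_le_mul_of_nonneg_left (ih _ _ _) (pw1_nonneg _ _))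
      have e2 : ∑ z₁ ∈ univ \ (F ∪ {z, g z}), pw1 G g d a z₁
            * ((1 / 2) ^ r * AA G g d l l (F ∪ {z, g z} ∪ {z₁, g z₁}) z₁ z)
          = (1 / 2) ^ r * ∑ z₁ ∈ univ \ (F ∪ {z, g z}), pw1 G g d a z₁
            * AA G g d l l (F ∪ {z, g z} ∪ {z₁, g z₁}) z₁ z := by
        rw [Finset.mul_sum]
        apply Finset.sum_congr rfl
        intro z₁ _
        ring
      rw [e2] at h2
      linarith
    have h3 := Finset.sum_le_sum h1
    have e3 : ∑ z ∈ univ \ F, pw1 G g d b z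
          * ((1 / 2) ^ r * AA G g d (l + 1) l (F ∪ {z, g z}) a z)
        = (1 / 2) ^ r * ∑ z ∈ univ \ F, pw1 G g d b z
          * AA G g d (l + 1) l (F ∪ {z, g z}) a z := by
      rw [Finset.mul_sum]
      apply Finset.sum_congr rfl
      intro z _
      ring
    rw [e3] at h3
    linarith

/-- the averaged product of the survival weights, for arbitrary numbers of rounds -/
lemma AA_le (hfix : ∀ x, g x ≠ x) (j i : ℕ) (F : Finset V) (a b : V) :
    AA G g d j i F a b ≤ (2 : ℝ) ^ Fintype.card V * (1 / 2) ^ (j + i)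
      * S G g d (min j i) F a b (fun _ _ _ => 1) := by
  rcases Nat.le_total j i with h | h
  · obtain ⟨r, rfl⟩ := Nat.exists_eq_add_of_le h
    rw [Nat.min_eq_left h]
    refine (c.AA_off2 hfix r j F a b).trans (le_of_eq ?_)
    rw [AA_diag c.inv hfix j F a b]
    have e : (1 / 4 : ℝ) ^ j = (1 / 2) ^ j * (1 / 2) ^ j := by
      rw [← mul_pow]; norm_num
    rw [e, pow_add, pow_add]
    ring
  · obtain ⟨r, rfl⟩ := Nat.exists_eq_add_of_le h
    rw [Nat.min_eq_right h]
    refine (c.AA_off1 hfix r i F a b).trans (le_of_eq ?_)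
    rw [AA_diag c.inv hfix i F a b]
    have e : (1 / 4 : ℝ) ^ i = (1 / 2) ^ i * (1 / 2) ^ i := by
      rw [← mul_pow]; norm_num
    rw [e, pow_add, pow_add]
    ring

end Ctx

end Vale.Agent.Lib.P308
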