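import Vale.Agent.Lib.P308.WChain
import Vale.Agent.Lib.P308.Cor

namespace Vale.Agent.Lib.P308

open Finset

set_option linter.unusedSectionVars false
set_option linter.unusedVariables false

lemma pow75 (m : ℕ) : (7 / 5 : ℝ) ^ m ≤ 2 ^ ((m + 1) / 2) := by
  obtain ⟨q, hq⟩ := Nat.even_or_odd' m
  have h2 : (7 / 5 : ℝ) ^ 2 ≤ 2 := by norm_num
  have hq2 : ((7 / 5 : ℝ) ^ 2) ^ q ≤ 2 ^ q := pow_le_pow_left₀ (by norm_num) h2 q
  rcases hq with rfl | rfl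
  · have e : (2 * q + 1) / 2 = q := by omega
    rw [e, pow_mul]
    exact hq2
  · have e : (2 * q + 1 + 1) / 2 = q + 1 := by omega
    rw [e, pow_succ, pow_mul, pow_succ]
    have h7 : (7 / 5 : ℝ) ≤ 2 := by norm_num
    have h8 : (0 : ℝ) ≤ 7 / 5 := by norm_num
    have h9 : (0 : ℝ) ≤ 2 ^ q := by positivity
    exact mul_le_mul hq2 h7 h8 h9

/-- absorbing a constant into a power of the number of vertices -/
lemma pow_absorb (N c a b : ℕ) (hN : 2 ≤ N) (hab : a ≤ b) (hc : c ≤ 2 ^ (b - a)) :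
    c * N ^ a ≤ N ^ b := by
  have h1 : 2 ^ (b - a) ≤ N ^ (b - a) := Nat.pow_le_pow_left hN _
  have e : N ^ b = N ^ (b - a) * N ^ a := by
    rw [← pow_add]
    congr 1
    omega
  rw [e]
  exact Nat.mul_le_mul_right _ (hc.trans h1)

variable {V : Type*} [Fintype V] [DecidableEq V]

/-- the chain of the pair walk with ratio `7 / 5` -/
lemma chain_r8 (G : SimpleGraph V) [DecidableRel G.Adj] (d : ℕ) (lam : ℝ) (m : ℕ)
    (hd : (128 : ℝ) ≤ (d : ℝ)) (hl : 8 * lam ≤ d)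
    (hN : 512 * (7 / 5 : ℝ) ^ m ≤ (Fintype.card V : ℝ)) :
    ∀ (g : V → V), Ctx G g d lam → ∀ (F₀ : Finset V), F₀.card ≤ 2 → ∀ (y y' : V) (j : ℕ),
      j < m → S G g d j F₀ y y' (fun _ _ _ => 1)
        ≤ (7 / 5) * S G g d (j + 1) F₀ y y' (fun _ _ _ => 1) := by
  intro g c F₀ hF y y'
  have hd' : (0 : ℝ) < (d : ℝ) := by linarith
  have hε0 := c.ep_nonneg
  have hε : lam / (d : ℝ) ≤ 1 / 8 := by
    rw [div_le_iff₀ hd']
    linarith
  have h75 : (1 : ℝ) ≤ (7 / 5 : ℝ) ^ m := one_le_pow₀ (by norm_num)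
  have hN512 : (512 : ℝ) ≤ (Fintype.card V : ℝ) := by linarith
  have hNpos : (0 : ℝ) < (Fintype.card V : ℝ) := by linarith
  apply c.gg_steps_r F₀ hF y y' m (7 / 5) (5 / 4) (5 / 2) (by norm_num) (by norm_num)
    (by norm_num) (by norm_num)
  · linarith
  · have e1 : dl (1 / (d : ℝ)) (lam / d) 1 = 1 / (d : ℝ) := by
      unfold dl
      rw [if_pos (by norm_num)]
    rw [e1, DK_one]
    have h1 : (1 / (Fintype.card V : ℝ)) * (7 / 5 : ℝ) ^ m ≤ 1 / 512 := by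
      rw [one_div_mul_eq_div, div_le_iff₀ hNpos]
      linarith
    have h1' : 1 / (Fintype.card V : ℝ) ≤ 1 / 512 :=
      one_div_le_one_div_of_le (by norm_num) hN512
    have h3 : 1 / (d : ℝ) ≤ 1 / 128 := one_div_le_one_div_of_le (by norm_num) hd
    have h4 : (lam / (d : ℝ)) ^ 3 ≤ 1 / 512 := by
      refine (pow_le_pow_left₀ hε0 hε 3).trans (le_of_eq ?_)
      norm_num
    have e : (8 * (5 / 2 : ℝ) + 4) * (1 / (Fintype.card V : ℝ)) * (7 / 5 : ℝ) ^ m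
        = 24 * ((1 / (Fintype.card V : ℝ)) * (7 / 5 : ℝ) ^ m) := by ring
    have e5 : (5 / 4 : ℝ) * (7 / 5) ^ 2 = 49 / 20 := by norm_num
    rw [e, e5]
    linarith

/-- the large sparse case of the uniform bound for `8 * lam ≤ d` -/
theorem near_le_large8 (G : SimpleGraph V) [DecidableRel G.Adj] (d : ℕ) (hd : 0 < d)
    (hreg : G.IsRegularOfDegree d) (lam : ℝ) (hlam : 0 ≤ lam)
    (hspec : ∀ x : V → ℝ, ∑ v, x v = 0 →
      ∑ v, ((G.adjMatrix ℝ).mulVec x v) ^ 2 ≤ lam ^ 2 * ∑ v, x v ^ 2)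
    (hl : 8 * lam ≤ d) (hd128 : (128 : ℝ) ≤ (d : ℝ)) (hN13 : 2 ^ 13 ≤ Fintype.card V) :
    ((NearInv G).card : ℝ) ≤ 56 * (Fintype.card V : ℝ) ^ 3 * ((PMinv G).card : ℝ) := by
  have hd' : (0 : ℝ) < (d : ℝ) := by exact_mod_cast hd
  have hNpos : (0 : ℝ) < (Fintype.card V : ℝ) := by
    have : 0 < Fintype.card V := lt_of_lt_of_le (by norm_num) hN13
    exact_mod_cast this
  have hL1 : 2 ^ Nat.log 2 (Fintype.card V) ≤ Fintype.card V :=
    Nat.pow_log_le_self 2 (by omega)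
  have hL2 : Fintype.card V < 2 ^ (Nat.log 2 (Fintype.card V) + 1) :=
    Nat.lt_pow_succ_log_self (by norm_num) _
  have hL13 : 13 ≤ Nat.log 2 (Fintype.card V) := by
    have h1 := lt_of_le_of_lt hN13 hL2
    have h2 := (Nat.pow_lt_pow_iff_right (by norm_num : 1 < 2)).1 h1
    omega
  obtain ⟨L, hLdef⟩ : ∃ L, L = Nat.log 2 (Fintype.card V) := ⟨_, rfl⟩
  rw [← hLdef] at hL1 hL2 hL13
  obtain ⟨m, hm⟩ : ∃ m, m = (L + 9) / 3 := ⟨_, rfl⟩
  have hm1 : L + 7 ≤ 3 * m := by omega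
  have hm2 : 3 * m ≤ L + 9 := by omega
  have hm3 : 9 + (m + 1) / 2 ≤ L := by omega
  have hε0 : 0 ≤ lam / (d : ℝ) := div_nonneg hlam hd'.le
  have hε : lam / (d : ℝ) ≤ 1 / 8 := by
    rw [div_le_iff₀ hd']
    linarith
  have hL1R : (2 : ℝ) ^ L ≤ (Fintype.card V : ℝ) := by exact_mod_cast hL1
  have hNm : 512 * (7 / 5 : ℝ) ^ m ≤ (Fintype.card V : ℝ) := by
    have h1 := pow75 m
    have h2 : (2 : ℝ) ^ ((m + 1) / 2) * 512 ≤ 2 ^ L := by
      have e : (2 : ℝ) ^ ((m + 1) / 2) * 512 = 2 ^ ((m + 1) / 2 + 9) := by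
        rw [pow_add 2 ((m + 1) / 2) 9]; norm_num
      rw [e]
      exact pow_le_pow_right₀ (by norm_num) (by omega)
    linarith
  have hchain := chain_r8 G d lam m hd128 hl hNm
  have hGb : (1 : ℝ) ≤ 20 / 13 * (1 - 2 * (7 / 5) * (lam / d)) := by linarith
  have hub : (Fintype.card V : ℝ) * (4 * (7 / 5 : ℝ) ^ 2 * (lam / d) ^ 2) ^ m
      ≤ (1 / 8 : ℝ) ^ 2 := by
    have h1 : 4 * (7 / 5 : ℝ) ^ 2 * (lam / d) ^ 2 ≤ 1 / 2 ^ 3 := by
      have h2 := pow_le_pow_left₀ hε0 hε 2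
      norm_num at h2 ⊢
      linarith
    have hp : (4 * (7 / 5 : ℝ) ^ 2 * (lam / d) ^ 2) ^ m ≤ (1 / 2 ^ 3 : ℝ) ^ m :=
      pow_le_pow_left₀ (by positivity) h1 m
    have e1 : (1 / 2 ^ 3 : ℝ) ^ m = 1 / 2 ^ (3 * m) := by
      rw [one_div_pow, ← pow_mul]
    have hN2 : 64 * (Fintype.card V : ℝ) ≤ 2 ^ (3 * m) := by
      have h3 : 64 * Fintype.card V ≤ 2 ^ (3 * m) := by
        have h4 : 64 * Fintype.card V ≤ 64 * 2 ^ (L + 1) :=
          Nat.mul_le_mul_left _ hL2.le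
        have e : 64 * 2 ^ (L + 1) = 2 ^ (6 + (L + 1)) := by
          rw [pow_add 2 6 (L + 1)]; norm_num
        rw [e] at h4
        exact h4.trans (Nat.pow_le_pow_right (by norm_num) (by omega))
      exact_mod_cast h3
    calc (Fintype.card V : ℝ) * (4 * (7 / 5 : ℝ) ^ 2 * (lam / d) ^ 2) ^ m
        ≤ (Fintype.card V : ℝ) * (1 / 2 ^ (3 * m)) := by
          rw [← e1]
          exact mul_le_mul_of_nonneg_left hp hNpos.le
      _ ≤ (1 / 8 : ℝ) ^ 2 := by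
          rw [mul_one_div, div_le_iff₀ (by positivity)]
          norm_num
          linarith
  have hK : (2 * (7 / 5 : ℝ) * (20 / 13) ^ 2 + 4 * (20 / 13) * (1 / 8) + (1 / 8) ^ 2)
      = 80169 / 10816 := by
    norm_num
  have hdK : (d : ℝ) / 14
      ≤ (d : ℝ) - lam * (2 * (7 / 5 : ℝ) * (20 / 13) ^ 2 + 4 * (20 / 13) * (1 / 8)
        + (1 / 8) ^ 2) := by
    rw [hK]
    linarith
  have hcount := caseR2_count G d hd hreg lam hlam hspec m (7 / 5) (20 / 13) (1 / 8)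
    (by norm_num) (by norm_num) hGb (by norm_num) hub (by linarith) hchain
  have hm8 : (8 : ℝ) ^ m ≤ 512 * (Fintype.card V : ℝ) := by
    have h1 : (8 : ℕ) ^ m ≤ 512 * Fintype.card V := by
      have e8 : (8 : ℕ) = 2 ^ 3 := by norm_num
      rw [e8, ← pow_mul]
      have h2 : 2 ^ (3 * m) ≤ 2 ^ (L + 9) := Nat.pow_le_pow_right (by norm_num) hm2
      have h3 : 2 ^ (L + 9) = 512 * 2 ^ L := by rw [pow_add 2 L 9]; ring
      calc 2 ^ (3 * m) ≤ 2 ^ (L + 9) := h2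
        _ = 512 * 2 ^ L := h3
        _ ≤ 512 * Fintype.card V := Nat.mul_le_mul_left _ hL1
    exact_mod_cast h1
  have hquarter : 1 / (8 : ℝ) ^ m ≤ (1 / 4 : ℝ) ^ m * (1 / (7 / 5)) ^ m := by
    rw [← mul_pow, ← one_div_pow]
    apply pow_le_pow_left₀ (by norm_num)
    norm_num
  have hcst : 1 / (56 * (Fintype.card V : ℝ) ^ 2)
      ≤ (1 / 4 : ℝ) ^ m * (1 / (7 / 5)) ^ m
        * ((d : ℝ) - lam * (2 * (7 / 5 : ℝ) * (20 / 13) ^ 2 + 4 * (20 / 13) * (1 / 8)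
          + (1 / 8) ^ 2)) / (Fintype.card V : ℝ) := by
    have h1 : 1 / (512 * (Fintype.card V : ℝ)) ≤ (1 / 4 : ℝ) ^ m * (1 / (7 / 5)) ^ m :=
      (one_div_le_one_div_of_le (by positivity) hm8).trans hquarter
    have h2 : (64 / 7 : ℝ)
        ≤ (d : ℝ) - lam * (2 * (7 / 5 : ℝ) * (20 / 13) ^ 2 + 4 * (20 / 13) * (1 / 8)
          + (1 / 8) ^ 2) := by
      linarith
    have e : 1 / (56 * (Fintype.card V : ℝ) ^ 2)
        = (1 / (512 * (Fintype.card V : ℝ))) * (64 / 7) / (Fintype.card V : ℝ) := by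
      field_simp
      ring
    rw [e]
    apply div_le_div_of_nonneg_right _ hNpos.le
    exact mul_le_mul h1 h2 (by norm_num) (by positivity)
  have h1 : ((NearInv G).card : ℝ) * (1 / (56 * (Fintype.card V : ℝ) ^ 2))
      ≤ (Fintype.card V : ℝ) * ((PMinv G).card : ℝ) :=
    (mul_le_mul_of_nonneg_left hcst (by positivity)).trans hcount
  have h2 := mul_le_mul_of_nonneg_right h1
    (by positivity : (0 : ℝ) ≤ 56 * (Fintype.card V : ℝ) ^ 2)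
  have e1 : ((NearInv G).card : ℝ) * (1 / (56 * (Fintype.card V : ℝ) ^ 2))
      * (56 * (Fintype.card V : ℝ) ^ 2) = ((NearInv G).card : ℝ) := by
    field_simp
  rw [e1] at h2
  refine h2.trans (le_of_eq ?_)
  ring

/-- graphs of intermediate size : three rounds of spectral vertex expansion -/
theorem near_le_mid8 (G : SimpleGraph V) [DecidableRel G.Adj] (d : ℕ)
    (hreg : G.IsRegularOfDegree d) (lam : ℝ) (hlam : 0 ≤ lam)
    (hspec : ∀ x : V → ℝ, ∑ v, x v = 0 →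
      ∑ v, ((G.adjMatrix ℝ).mulVec x v) ^ 2 ≤ lam ^ 2 * ∑ v, x v ^ 2)
    (hl : 8 * lam ≤ d) (hd1 : 1 ≤ d) (a₂ : ℕ) (hN8 : 256 ≤ Fintype.card V)
    (ha16 : 16 ≤ a₂) (hat : a₂ ≤ Fintype.card V / 8 + 1)
    (hA : (3 * (a₂ : ℝ) + 16) * ((Fintype.card V : ℝ) + 1008) ≤ 1024 * (Fintype.card V : ℝ))
    (hB : (3 * ((Fintype.card V : ℝ) / 8 + 1) + (a₂ : ℝ)) * ((Fintype.card V : ℝ) + 63 * (a₂ : ℝ))
      ≤ 64 * (a₂ : ℝ) * (Fintype.card V : ℝ)) :
    Set.ncard {M : G.Subgraph | M.IsMatching ∧ Set.ncard (M.verts)ᶜ = 2} ≤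
      Fintype.card V * (2 * d + 1) ^ 6 *
        Set.ncard {M : G.Subgraph | M.IsPerfectMatching} := by
  set N := Fintype.card V with hN
  set t := N / 8 + 1 with ht
  have ht1 : 8 * t ≤ N + 8 := by omega
  have ht2 : N < 8 * t := by omega
  set a : ℕ → ℕ := fun i => if i = 0 then 1 else if i = 1 then 16 else if i = 2 then a₂ else t
    with ha
  have hdR : (1 : ℝ) ≤ (d : ℝ) := by exact_mod_cast hd1
  have hNR : (256 : ℝ) ≤ (N : ℝ) := by exact_mod_cast hN8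
  have ht1R : 8 * (t : ℝ) ≤ (N : ℝ) + 8 := by exact_mod_cast ht1
  have ht2R : (N : ℝ) < 8 * (t : ℝ) := by exact_mod_cast ht2
  have ha16R : (16 : ℝ) ≤ (a₂ : ℝ) := by exact_mod_cast ha16
  have hatR : (a₂ : ℝ) ≤ (t : ℝ) := by exact_mod_cast hat
  have hL : 64 * lam ^ 2 ≤ (d : ℝ) ^ 2 := by nlinarith
  have hL0 : 0 ≤ lam ^ 2 := sq_nonneg lam
  have hD0 : 0 ≤ (d : ℝ) ^ 2 := sq_nonneg _
  have e0 : a 0 = 1 := by simp [ha]
  have e1 : a 1 = 16 := by simp [ha]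
  have e2 : a 2 = a₂ := by simp [ha]
  have e3 : a 3 = t := by simp [ha]
  have hgen : ∀ (x : ℝ), 0 ≤ x → x ≤ (N : ℝ) →
      lam ^ 2 * (N : ℝ) + ((d : ℝ) ^ 2 - lam ^ 2) * x
        ≤ (d : ℝ) ^ 2 * (((N : ℝ) + 63 * x) / 64) := by
    intro x hx0 hxN
    have h1 : 0 ≤ ((d : ℝ) ^ 2 - 64 * lam ^ 2) * ((N : ℝ) - x) :=
      mul_nonneg (by linarith) (by linarith)
    nlinarith
  have hmain := near_le_of_spectral_schedule G d hreg lam hspec a 3 e0 ?_ ?_ ?_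
  · simpa using hmain
  · intro i
    rcases Nat.lt_or_ge i 3 with h3 | h3
    · interval_cases i
      · rw [e0, e1]; norm_num
      · rw [e1, e2]; exact ha16
      · rw [e2, e3]; exact hat
    · simp only [ha]
      rw [if_neg (by omega), if_neg (by omega), if_neg (by omega), if_neg (by omega),
        if_neg (by omega), if_neg (by omega)]
  · intro i hi
    interval_cases i
    · rw [e0, e1]
      push_cast
      have h1 := hgen 1 (by norm_num) (by linarith)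
      have h2 : 0 ≤ (d : ℝ) ^ 2 * ((N : ℝ) - 256) := mul_nonneg hD0 (by linarith)
      nlinarith
    · rw [e1, e2]
      push_cast
      have h1 := hgen 16 (by norm_num) (by linarith)
      have h6 : (0 : ℝ) ≤ 3 * (a₂ : ℝ) + 16 := by positivity
      calc (3 * (a₂ : ℝ) + 16) * (lam ^ 2 * (N : ℝ) + ((d : ℝ) ^ 2 - lam ^ 2) * 16)
          ≤ (3 * (a₂ : ℝ) + 16) * ((d : ℝ) ^ 2 * (((N : ℝ) + 63 * 16) / 64)) :=
            mul_le_mul_of_nonneg_left h1 h6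
        _ = (d : ℝ) ^ 2 / 64 * ((3 * (a₂ : ℝ) + 16) * ((N : ℝ) + 1008)) := by ring
        _ ≤ (d : ℝ) ^ 2 / 64 * (1024 * (N : ℝ)) :=
            mul_le_mul_of_nonneg_left hA (by positivity)
        _ = (d : ℝ) ^ 2 * 16 * (N : ℝ) := by ring
    · rw [e2, e3]
      push_cast
      have h1 := hgen (a₂ : ℝ) (by linarith) (by linarith)
      have h6 : (0 : ℝ) ≤ 3 * (t : ℝ) + (a₂ : ℝ) := by positivity
      have h7 : 3 * (t : ℝ) + (a₂ : ℝ) ≤ 3 * ((N : ℝ) / 8 + 1) + (a₂ : ℝ) := by linarith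
      calc (3 * (t : ℝ) + (a₂ : ℝ)) * (lam ^ 2 * (N : ℝ) + ((d : ℝ) ^ 2 - lam ^ 2) * (a₂ : ℝ))
          ≤ (3 * (t : ℝ) + (a₂ : ℝ)) * ((d : ℝ) ^ 2 * (((N : ℝ) + 63 * (a₂ : ℝ)) / 64)) :=
            mul_le_mul_of_nonneg_left h1 h6
        _ ≤ (3 * ((N : ℝ) / 8 + 1) + (a₂ : ℝ)) * ((d : ℝ) ^ 2 * (((N : ℝ) + 63 * (a₂ : ℝ)) / 64)) :=
            mul_le_mul_of_nonneg_right h7 (by positivity)
        _ = (d : ℝ) ^ 2 / 64
            * ((3 * ((N : ℝ) / 8 + 1) + (a₂ : ℝ)) * ((N : ℝ) + 63 * (a₂ : ℝ))) := by ring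
        _ ≤ (d : ℝ) ^ 2 / 64 * (64 * (a₂ : ℝ) * (N : ℝ)) :=
            mul_le_mul_of_nonneg_left hB (by positivity)
        _ = (d : ℝ) ^ 2 * (a₂ : ℝ) * (N : ℝ) := by ring
  · rw [e3]
    have htpos : (0 : ℝ) < (t : ℝ) := by linarith
    have h1 : lam * (N : ℝ) ≤ (d : ℝ) / 8 * (N : ℝ) :=
      mul_le_mul_of_nonneg_right (by linarith) (by linarith)
    have h2 : (d : ℝ) / 8 * (N : ℝ) < (d : ℝ) * (t : ℝ) := by
      have h3 : (N : ℝ) / 8 < (t : ℝ) := by linarith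
      have h4 : (d : ℝ) * ((N : ℝ) / 8) < (d : ℝ) * (t : ℝ) :=
        mul_lt_mul_of_pos_left h3 (by linarith)
      linarith
    have h5 : 0 ≤ lam * (N : ℝ) := mul_nonneg hlam (by linarith)
    have h6 : (lam * (N : ℝ)) ^ 2 < ((d : ℝ) * (t : ℝ)) ^ 2 :=
      pow_lt_pow_left₀ (lt_of_le_of_lt h1 h2) h5 (by norm_num)
    calc lam ^ 2 * (N : ℝ) ^ 2 = (lam * (N : ℝ)) ^ 2 := by ring
      _ < ((d : ℝ) * (t : ℝ)) ^ 2 := h6
      _ = (d : ℝ) ^ 2 * (t : ℝ) * (t : ℝ) := by ring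

end Vale.Agent.Lib.P308
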