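import Vale.Agent.Lib.P308.WEight

namespace Vale.Agent.Lib.P308

open Finset

set_option linter.unusedSectionVars false
set_option linter.unusedVariables false

variable {V : Type*} [Fintype V] [DecidableEq V]

/-- the intermediate sizes, for `8 * lam ≤ d` -/
theorem near_le_mid8_all (G : SimpleGraph V) [DecidableRel G.Adj] (d : ℕ)
    (hreg : G.IsRegularOfDegree d) (lam : ℝ) (hlam : 0 ≤ lam)
    (hspec : ∀ x : V → ℝ, ∑ v, x v = 0 →
      ∑ v, ((G.adjMatrix ℝ).mulVec x v) ^ 2 ≤ lam ^ 2 * ∑ v, x v ^ 2)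
    (hl : 8 * lam ≤ d) (hd1 : 1 ≤ d) (hN8 : 256 ≤ Fintype.card V)
    (hN13 : Fintype.card V < 8192) :
    Set.ncard {M : G.Subgraph | M.IsMatching ∧ Set.ncard (M.verts)ᶜ = 2} ≤
      Fintype.card V * (2 * d + 1) ^ 6 *
        Set.ncard {M : G.Subgraph | M.IsPerfectMatching} := by
  have hNR : (256 : ℝ) ≤ (Fintype.card V : ℝ) := by exact_mod_cast hN8
  have hNR' : (Fintype.card V : ℝ) < 8192 := by exact_mod_cast hN13
  by_cases h10 : Fintype.card V < 1024
  · have h10R : (Fintype.card V : ℝ) < 1024 := by exact_mod_cast h10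
    apply near_le_mid8 G d hreg lam hlam hspec hl hd1 16 hN8 (le_refl 16) (by omega)
    · push_cast
      linarith
    · push_cast
      nlinarith [mul_nonneg (sub_nonneg.2 hNR) (sub_nonneg.2 h10R.le)]
  · have h10' : 1024 ≤ Fintype.card V := not_lt.1 h10
    have h10R : (1024 : ℝ) ≤ (Fintype.card V : ℝ) := by exact_mod_cast h10'
    by_cases h12 : Fintype.card V < 4096
    · have h12R : (Fintype.card V : ℝ) < 4096 := by exact_mod_cast h12
      apply near_le_mid8 G d hreg lam hlam hspec hl hd1 63 hN8 (by norm_num) (by omega)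
      · push_cast
        linarith
      · push_cast
        nlinarith [mul_nonneg (sub_nonneg.2 h10R) (sub_nonneg.2 h12R.le)]
    · have h12' : 4096 ≤ Fintype.card V := not_lt.1 h12
      have h12R : (4096 : ℝ) ≤ (Fintype.card V : ℝ) := by exact_mod_cast h12'
      apply near_le_mid8 G d hreg lam hlam hspec hl hd1 256 hN8 (by norm_num) (by omega)
      · push_cast
        linarith
      · push_cast
        nlinarith [mul_nonneg (sub_nonneg.2 h12R) (sub_nonneg.2 hNR'.le)]

/-- Regular graphs whose second singular value is at most `d / 8` : the near-perfect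
matchings are at most `N ^ 17` times as many as the perfect matchings, uniformly in `d`. -/
theorem near_le_uniform8 (G : SimpleGraph V) [DecidableRel G.Adj] (d : ℕ) (hd : 0 < d)
    (hreg : G.IsRegularOfDegree d) (lam : ℝ) (hlam : 0 ≤ lam)
    (hspec : ∀ x : V → ℝ, ∑ v, x v = 0 →
      ∑ v, ((G.adjMatrix ℝ).mulVec x v) ^ 2 ≤ lam ^ 2 * ∑ v, x v ^ 2)
    (hl : 8 * lam ≤ d) :
    Set.ncard {M : G.Subgraph | M.IsMatching ∧ Set.ncard (M.verts)ᶜ = 2} ≤
      Fintype.card V ^ 17 * Set.ncard {M : G.Subgraph | M.IsPerfectMatching} := by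
  rcases isEmpty_or_nonempty V with hV | hV
  · have he : {M : G.Subgraph | M.IsMatching ∧ Set.ncard (M.verts)ᶜ = 2} = ∅ := by
      ext M
      simp only [Set.mem_ofPred_eq, Set.mem_empty_iff_false, iff_false, not_and]
      intro _ h
      have h1 : (M.verts)ᶜ = ∅ := Set.eq_empty_of_isEmpty _
      rw [h1, Set.ncard_empty] at h
      exact absurd h (by norm_num)
    rw [he, Set.ncard_empty]
    exact Nat.zero_le _
  obtain ⟨u⟩ := hV
  have c : Ctx G id d lam := ⟨hreg, fun x => rfl, hd, hlam, hspec⟩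
  have hlow := c.spec_lower u
  have hdN : d + 1 ≤ Fintype.card V := by
    have h1 := G.degree_lt_card_verts u
    rw [hreg.degree_eq] at h1
    omega
  have hd' : (0 : ℝ) < (d : ℝ) := by exact_mod_cast hd
  have hdN' : (d : ℝ) + 1 ≤ (Fintype.card V : ℝ) := by exact_mod_cast hdN
  have hNpos : (0 : ℝ) < (Fintype.card V : ℝ) := by linarith
  have hN2 : 2 ≤ Fintype.card V := by omega
  have hlam' : lam ≤ (d : ℝ) / 8 := by linarith
  have hlam2 : lam ^ 2 ≤ (d : ℝ) ^ 2 / 64 := by
    have h1 : lam ^ 2 ≤ ((d : ℝ) / 8) ^ 2 := pow_le_pow_left₀ hlam hlam' 2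
    have e : ((d : ℝ) / 8) ^ 2 = (d : ℝ) ^ 2 / 64 := by
      rw [div_pow]; norm_num
    rw [e] at h1
    exact h1
  have hup : lam ^ 2 * ((Fintype.card V : ℝ) - 1)
      ≤ (d : ℝ) ^ 2 / 64 * ((Fintype.card V : ℝ) - 1) :=
    mul_le_mul_of_nonneg_right hlam2 (by linarith)
  by_cases hcase : Fintype.card V < 2 * d
  · -- the dense case
    have hcase' : (Fintype.card V : ℝ) < 2 * (d : ℝ) := by exact_mod_cast hcase
    have h64 : 64 * ((Fintype.card V : ℝ) - d) ≤ (d : ℝ) * ((Fintype.card V : ℝ) - 1) := by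
      by_contra hc
      have hc' : (d : ℝ) * ((Fintype.card V : ℝ) - 1) < 64 * ((Fintype.card V : ℝ) - d) :=
        not_le.1 hc
      have h1 := mul_lt_mul_of_pos_left hc' hd'
      have e : (d : ℝ) ^ 2 / 64 * ((Fintype.card V : ℝ) - 1)
          = (d : ℝ) * ((d : ℝ) * ((Fintype.card V : ℝ) - 1)) / 64 := by ring
      have h2 : (d : ℝ) * ((d : ℝ) * ((Fintype.card V : ℝ) - 1)) / 64
          < (d : ℝ) * (64 * ((Fintype.card V : ℝ) - d)) / 64 :=
        div_lt_div_of_pos_right h1 (by norm_num)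
      have e2 : (d : ℝ) * (64 * ((Fintype.card V : ℝ) - d)) / 64
          = (d : ℝ) * ((Fintype.card V : ℝ) - d) := by ring
      linarith
    have hd8 : (8 : ℝ) ≤ (d : ℝ) := by
      by_contra hc
      have hc' : (d : ℝ) < 8 := not_le.1 hc
      have h1 : 0 ≤ (64 - (d : ℝ)) * ((Fintype.card V : ℝ) - d - 1) :=
        mul_nonneg (by linarith) (by linarith)
      nlinarith
    have h3N : 3 * (Fintype.card V : ℝ) < 8 * (d : ℝ) - 24 := by
      by_cases h12 : (12 : ℝ) ≤ (d : ℝ)
      · linarith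
      · have h12' : (d : ℝ) < 12 := not_le.1 h12
        have h1 : 0 ≤ (12 - (d : ℝ)) * (Fintype.card V : ℝ) :=
          mul_nonneg (by linarith) hNpos.le
        have h2 : 52 * (Fintype.card V : ℝ) ≤ 63 * (d : ℝ) := by nlinarith
        linarith
    have hdense : 3 * lam * (Fintype.card V : ℝ) < (d : ℝ) * ((d : ℝ) - 3) := by
      have h1 : 3 * lam * (Fintype.card V : ℝ) ≤ 3 * ((d : ℝ) / 8) * (Fintype.card V : ℝ) :=
        mul_le_mul_of_nonneg_right (by linarith) hNpos.le
      have h2 : (d : ℝ) / 8 * (3 * (Fintype.card V : ℝ)) < (d : ℝ) / 8 * (8 * (d : ℝ) - 24) :=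
        mul_lt_mul_of_pos_left h3N (by positivity)
      have e1 : 3 * ((d : ℝ) / 8) * (Fintype.card V : ℝ)
          = (d : ℝ) / 8 * (3 * (Fintype.card V : ℝ)) := by ring
      have e2 : (d : ℝ) / 8 * (8 * (d : ℝ) - 24) = (d : ℝ) * ((d : ℝ) - 3) := by ring
      linarith
    have h := near_le_of_dense G d hreg lam hlam hspec hdense
    refine h.trans (Nat.mul_le_mul_right _ ?_)
    have h5 : 2 * d + 1 ≤ 2 * Fintype.card V := by omega
    calc Fintype.card V * (2 * d + 1) ^ 2
        ≤ Fintype.card V * (2 * Fintype.card V) ^ 2 :=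
          Nat.mul_le_mul_left _ (Nat.pow_le_pow_left h5 2)
      _ = 4 * Fintype.card V ^ 3 := by ring
      _ ≤ Fintype.card V ^ 17 := pow_absorb _ 4 3 17 hN2 (by norm_num) (by norm_num)
  · -- the sparse case
    have hcase' : 2 * d ≤ Fintype.card V := not_lt.1 hcase
    by_cases hsmall : d < 128
    · -- small degrees
      have h := near_le_of_eighth G d hd hreg lam hlam hl hspec
      refine h.trans (Nat.mul_le_mul_right _ ?_)
      have hL1 : 2 ^ Nat.log 2 (Fintype.card V) ≤ Fintype.card V :=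
        Nat.pow_log_le_self 2 (by omega)
      have h5 : 2 * d + 1 ≤ 2 ^ 8 := by
        have : (2 : ℕ) ^ 8 = 256 := by norm_num
        omega
      have h6 : (2 * d + 1) ^ (2 * Nat.log 2 (Fintype.card V))
          ≤ Fintype.card V ^ 16 := by
        calc (2 * d + 1) ^ (2 * Nat.log 2 (Fintype.card V))
            ≤ (2 ^ 8) ^ (2 * Nat.log 2 (Fintype.card V)) := Nat.pow_le_pow_left h5 _
          _ = (2 ^ Nat.log 2 (Fintype.card V)) ^ 16 := by
              rw [← pow_mul, ← pow_mul]
              congr 1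
              ring
          _ ≤ Fintype.card V ^ 16 := Nat.pow_le_pow_left hL1 16
      calc Fintype.card V * (2 * d + 1) ^ (2 * Nat.log 2 (Fintype.card V))
          ≤ Fintype.card V * Fintype.card V ^ 16 := Nat.mul_le_mul_left _ h6
        _ = Fintype.card V ^ 17 := by ring
    · have hd128n : 128 ≤ d := not_lt.1 hsmall
      have hd128 : (128 : ℝ) ≤ (d : ℝ) := by exact_mod_cast hd128n
      have hN8 : 256 ≤ Fintype.card V := by omega
      by_cases hmid : Fintype.card V < 8192
      · -- graphs of intermediate size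
        have h := near_le_mid8_all G d hreg lam hlam hspec hl hd hN8 hmid
        refine h.trans (Nat.mul_le_mul_right _ ?_)
        have h5 : 2 * d + 1 ≤ 2 * Fintype.card V := by omega
        calc Fintype.card V * (2 * d + 1) ^ 6
            ≤ Fintype.card V * (2 * Fintype.card V) ^ 6 :=
              Nat.mul_le_mul_left _ (Nat.pow_le_pow_left h5 6)
          _ = 64 * Fintype.card V ^ 7 := by ring
          _ ≤ Fintype.card V ^ 17 := pow_absorb _ 64 7 17 hN2 (by norm_num) (by norm_num)
      have hN13 : 2 ^ 13 ≤ Fintype.card V := by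
        have : (2 : ℕ) ^ 13 = 8192 := by norm_num
        omega
      have hnear := near_le_large8 G d hd hreg lam hlam hspec hl hd128 hN13
      have hnearN : (NearInv G).card ≤ 56 * Fintype.card V ^ 3 * (PMinv G).card := by
        exact_mod_cast hnear
      have hpoly : 56 * Fintype.card V ^ 3 ≤ Fintype.card V ^ 17 :=
        pow_absorb _ 56 3 17 hN2 (by norm_num) (by norm_num)
      calc Set.ncard {M : G.Subgraph | M.IsMatching ∧ Set.ncard (M.verts)ᶜ = 2}
          ≤ (NearInv G).card := ncard_near_le G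
        _ ≤ 56 * Fintype.card V ^ 3 * (PMinv G).card := hnearN
        _ ≤ 56 * Fintype.card V ^ 3 * Set.ncard {M : G.Subgraph | M.IsPerfectMatching} :=
            Nat.mul_le_mul_left _ (card_pmInv_le G)
        _ ≤ Fintype.card V ^ 17 * Set.ncard {M : G.Subgraph | M.IsPerfectMatching} :=
            Nat.mul_le_mul_right _ hpoly

end Vale.Agent.Lib.P308
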