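import Vale.Agent.Lib.P308.WMain

namespace Vale.Agent.Lib.P308

open Finset

set_option linter.unusedSectionVars false
set_option linter.unusedVariables false

variable {V : Type*} [Fintype V] [DecidableEq V]

/-- graphs of intermediate size : two rounds of spectral vertex expansion suffice -/
theorem near_le_mid16 (G : SimpleGraph V) [DecidableRel G.Adj] (d : ℕ)
    (hreg : G.IsRegularOfDegree d) (lam : ℝ) (hlam : 0 ≤ lam)
    (hspec : ∀ x : V → ℝ, ∑ v, x v = 0 →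
      ∑ v, ((G.adjMatrix ℝ).mulVec x v) ^ 2 ≤ lam ^ 2 * ∑ v, x v ^ 2)
    (hl : 16 * lam ≤ d) (hd1 : 1 ≤ d) (hN8 : 256 ≤ Fintype.card V)
    (hN13 : Fintype.card V < 8192) :
    Set.ncard {M : G.Subgraph | M.IsMatching ∧ Set.ncard (M.verts)ᶜ = 2} ≤
      Fintype.card V * (2 * d + 1) ^ 4 *
        Set.ncard {M : G.Subgraph | M.IsPerfectMatching} := by
  set N := Fintype.card V with hN
  set t := N / 8 with ht
  have ht1 : 8 * t ≤ N := by omega
  have ht2 : N ≤ 8 * t + 7 := by omega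
  set a : ℕ → ℕ := fun i => if i = 0 then 1 else if i = 1 then 32 else t with ha
  have hdR : (1 : ℝ) ≤ (d : ℝ) := by exact_mod_cast hd1
  have hNR : (256 : ℝ) ≤ (N : ℝ) := by exact_mod_cast hN8
  have hNR' : (N : ℝ) < 8192 := by exact_mod_cast hN13
  have ht1R : 8 * (t : ℝ) ≤ (N : ℝ) := by exact_mod_cast ht1
  have ht2R : (N : ℝ) ≤ 8 * (t : ℝ) + 7 := by exact_mod_cast ht2
  have hL : 256 * lam ^ 2 ≤ (d : ℝ) ^ 2 := by nlinarith
  have hL0 : 0 ≤ lam ^ 2 := sq_nonneg lam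
  have hD0 : 0 ≤ (d : ℝ) ^ 2 := sq_nonneg _
  have hmain := near_le_of_spectral_schedule G d hreg lam hspec a 2 ?_ ?_ ?_ ?_
  · simpa using hmain
  · simp [ha]
  · intro i
    simp only [ha]
    rcases Nat.eq_zero_or_pos i with h0 | h0
    · subst h0; simp
    · rcases Nat.lt_or_ge i 2 with h1 | h1
      · have hi : i = 1 := by omega
        subst hi
        simp
        omega
      · rw [if_neg (by omega), if_neg (by omega), if_neg (by omega), if_neg (by omega)]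
  · intro i hi
    rcases Nat.eq_zero_or_pos i with h0 | h0
    · subst h0
      have e0 : a 0 = 1 := by simp [ha]
      have e1 : a (0 + 1) = 32 := by simp [ha]
      rw [e0, e1]
      push_cast
      have h1 : 0 ≤ ((d : ℝ) ^ 2 - 256 * lam ^ 2) * ((N : ℝ) - 1) :=
        mul_nonneg (by linarith) (by linarith)
      have h2 : 0 ≤ (d : ℝ) ^ 2 * ((N : ℝ) - 256) := mul_nonneg hD0 (by linarith)
      nlinarith
    · have hi1 : i = 1 := by omega
      subst hi1
      have e0 : a 1 = 32 := by simp [ha]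
      have e1 : a (1 + 1) = t := by simp [ha]
      rw [e0, e1]
      push_cast
      have h1 : 0 ≤ ((d : ℝ) ^ 2 - 256 * lam ^ 2) * ((N : ℝ) - 32) :=
        mul_nonneg (by linarith) (by linarith)
      have h3 : lam ^ 2 * (N : ℝ) + ((d : ℝ) ^ 2 - lam ^ 2) * 32
          ≤ (d : ℝ) ^ 2 * 64 := by
        have h4 : 0 ≤ (d : ℝ) ^ 2 * (8192 - (N : ℝ)) := mul_nonneg hD0 (by linarith)
        nlinarith
      have h5 : 3 * (t : ℝ) + 32 ≤ (N : ℝ) / 2 := by linarith
      have h6 : (0 : ℝ) ≤ 3 * (t : ℝ) + 32 := by positivity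
      calc (3 * (t : ℝ) + 32) * (lam ^ 2 * (N : ℝ) + ((d : ℝ) ^ 2 - lam ^ 2) * 32)
          ≤ (3 * (t : ℝ) + 32) * ((d : ℝ) ^ 2 * 64) :=
            mul_le_mul_of_nonneg_left h3 h6
        _ ≤ ((N : ℝ) / 2) * ((d : ℝ) ^ 2 * 64) :=
            mul_le_mul_of_nonneg_right h5 (by positivity)
        _ = (d : ℝ) ^ 2 * 32 * (N : ℝ) := by ring
  · have e2 : a 2 = t := by simp [ha]
    rw [e2]
    have htpos : (0 : ℝ) < (t : ℝ) := by linarith
    have h1 : lam * (N : ℝ) ≤ (d : ℝ) / 16 * (N : ℝ) :=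
      mul_le_mul_of_nonneg_right (by linarith) (by linarith)
    have h2 : (d : ℝ) / 16 * (N : ℝ) < (d : ℝ) * (t : ℝ) := by
      have h3 : (N : ℝ) / 16 < (t : ℝ) := by linarith
      have h4 : (d : ℝ) * ((N : ℝ) / 16) < (d : ℝ) * (t : ℝ) :=
        mul_lt_mul_of_pos_left h3 (by linarith)
      linarith
    have h5 : 0 ≤ lam * (N : ℝ) := mul_nonneg hlam (by linarith)
    have h6 : (lam * (N : ℝ)) ^ 2 < ((d : ℝ) * (t : ℝ)) ^ 2 :=
      pow_lt_pow_left₀ (lt_of_le_of_lt h1 h2) h5 (by norm_num)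
    calc lam ^ 2 * (N : ℝ) ^ 2 = (lam * (N : ℝ)) ^ 2 := by ring
      _ < ((d : ℝ) * (t : ℝ)) ^ 2 := h6
      _ = (d : ℝ) ^ 2 * (t : ℝ) * (t : ℝ) := by ring

/-- the large sparse case of the uniform bound for `16 * lam ≤ d` -/
theorem near_le_large16 (G : SimpleGraph V) [DecidableRel G.Adj] (d : ℕ) (hd : 0 < d)
    (hreg : G.IsRegularOfDegree d) (lam : ℝ) (hlam : 0 ≤ lam)
    (hspec : ∀ x : V → ℝ, ∑ v, x v = 0 →
      ∑ v, ((G.adjMatrix ℝ).mulVec x v) ^ 2 ≤ lam ^ 2 * ∑ v, x v ^ 2)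
    (hl : 16 * lam ≤ d) (hd128 : (128 : ℝ) ≤ (d : ℝ)) (hN13 : 2 ^ 13 ≤ Fintype.card V) :
    ((NearInv G).card : ℝ) ≤ 6 * (Fintype.card V : ℝ) ^ 3 * ((PMinv G).card : ℝ) := by
  have hd' : (0 : ℝ) < (d : ℝ) := by exact_mod_cast hd
  have hNpos : (0 : ℝ) < (Fintype.card V : ℝ) := by
    have : 0 < Fintype.card V := lt_of_lt_of_le (by norm_num) hN13
    exact_mod_cast this
  have hL1 : 2 ^ Nat.log 2 (Fintype.card V) ≤ Fintype.card V :=
    Nat.pow_log_le_self 2 (by omega)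
  have hL2 : Fintype.card V < 2 ^ (Nat.log 2 (Fintype.card V) + 1) :=
    Nat.lt_pow_succ_log_self (by norm_num) _
  have hL13 : 13 ≤ Nat.log 2 (Fintype.card V) := by
    have h1 := lt_of_le_of_lt hN13 hL2
    have h2 := (Nat.pow_lt_pow_iff_right (by norm_num : 1 < 2)).1 h1
    omega
  set L := Nat.log 2 (Fintype.card V) with hLdef
  set m := L / 4 + 3 with hm
  have hε0 : 0 ≤ lam / (d : ℝ) := div_nonneg hlam hd'.le
  have hε : lam / (d : ℝ) ≤ 1 / 16 := by
    rw [div_le_iff₀ hd']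
    linarith
  have hNm : 128 * (2 : ℝ) ^ m ≤ (Fintype.card V : ℝ) := by
    have h1 : 128 * 2 ^ m ≤ Fintype.card V := by
      have e : 128 * 2 ^ m = 2 ^ (7 + m) := by rw [pow_add 2 7 m]; norm_num
      rw [e]
      exact (Nat.pow_le_pow_right (by norm_num) (by omega)).trans hL1
    exact_mod_cast h1
  have hchain := chain_two G d lam m hd128 hl hNm
  have hGb : (1 : ℝ) ≤ 4 / 3 * (1 - 2 * 2 * (lam / d)) := by linarith
  have hub : (Fintype.card V : ℝ) * (4 * (2 : ℝ) ^ 2 * (lam / d) ^ 2) ^ m ≤ (1 / 16 : ℝ) ^ 2 := by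
    have h1 : 4 * (2 : ℝ) ^ 2 * (lam / d) ^ 2 ≤ 1 / 2 ^ 4 := by
      have h2 := pow_le_pow_left₀ hε0 hε 2
      norm_num at h2 ⊢
      linarith
    have hp : (4 * (2 : ℝ) ^ 2 * (lam / d) ^ 2) ^ m ≤ (1 / 2 ^ 4 : ℝ) ^ m :=
      pow_le_pow_left₀ (by positivity) h1 m
    have e1 : (1 / 2 ^ 4 : ℝ) ^ m = 1 / 2 ^ (4 * m) := by
      rw [one_div_pow, ← pow_mul]
    have hN2 : 256 * (Fintype.card V : ℝ) ≤ 2 ^ (4 * m) := by
      have h3 : 256 * Fintype.card V ≤ 2 ^ (4 * m) := by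
        have h4 : 256 * Fintype.card V ≤ 256 * 2 ^ (L + 1) :=
          Nat.mul_le_mul_left _ hL2.le
        have e : 256 * 2 ^ (L + 1) = 2 ^ (8 + (L + 1)) := by rw [pow_add 2 8 (L + 1)]; norm_num
        rw [e] at h4
        exact h4.trans (Nat.pow_le_pow_right (by norm_num) (by omega))
      exact_mod_cast h3
    calc (Fintype.card V : ℝ) * (4 * (2 : ℝ) ^ 2 * (lam / d) ^ 2) ^ m
        ≤ (Fintype.card V : ℝ) * (1 / 2 ^ (4 * m)) := by
          rw [← e1]
          exact mul_le_mul_of_nonneg_left hp hNpos.le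
      _ ≤ (1 / 16 : ℝ) ^ 2 := by
          rw [mul_one_div, div_le_iff₀ (by positivity)]
          norm_num
          linarith
  have hK : (4 * 2 * (4 / 3 : ℝ) ^ 2 + 4 * (4 / 3) * (1 / 16) + (1 / 16) ^ 2) = 33545 / 2304 := by
    norm_num
  have hdK : (d : ℝ) / 12
      ≤ (d : ℝ) - lam * (4 * 2 * (4 / 3 : ℝ) ^ 2 + 4 * (4 / 3) * (1 / 16) + (1 / 16) ^ 2) := by
    rw [hK]
    linarith
  have hcount := caseR_count G d hd hreg lam hlam hspec m 2 (4 / 3) (1 / 16) (by norm_num)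
    (by norm_num) hGb (by norm_num) hub (by linarith) hchain
  have hm8 : (8 : ℝ) ^ m ≤ 64 * (Fintype.card V : ℝ) := by
    have h1 : (8 : ℕ) ^ m ≤ 64 * Fintype.card V := by
      have e8 : (8 : ℕ) = 2 ^ 3 := by norm_num
      rw [e8, ← pow_mul]
      have h2 : 2 ^ (3 * m) ≤ 2 ^ (L + 6) := Nat.pow_le_pow_right (by norm_num) (by omega)
      have h3 : 2 ^ (L + 6) = 64 * 2 ^ L := by rw [pow_add]; ring
      calc 2 ^ (3 * m) ≤ 2 ^ (L + 6) := h2
        _ = 64 * 2 ^ L := h3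
        _ ≤ 64 * Fintype.card V := Nat.mul_le_mul_left _ hL1
    exact_mod_cast h1
  have hquarter : (1 / 4 : ℝ) ^ m * (1 / 2) ^ m = 1 / 8 ^ m := by
    rw [← mul_pow]
    have e : (1 / 4 : ℝ) * (1 / 2) = 1 / 8 := by norm_num
    rw [e, one_div_pow]
  have hcst : 1 / (6 * (Fintype.card V : ℝ) ^ 2)
      ≤ (1 / 4 : ℝ) ^ m * (1 / 2) ^ m
        * ((d : ℝ) - lam * (4 * 2 * (4 / 3 : ℝ) ^ 2 + 4 * (4 / 3) * (1 / 16) + (1 / 16) ^ 2))
          / (Fintype.card V : ℝ) := by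
    have h1 : 1 / (64 * (Fintype.card V : ℝ)) ≤ (1 / 4 : ℝ) ^ m * (1 / 2) ^ m := by
      rw [hquarter]
      exact one_div_le_one_div_of_le (by positivity) hm8
    have h2 : (32 / 3 : ℝ)
        ≤ (d : ℝ) - lam * (4 * 2 * (4 / 3 : ℝ) ^ 2 + 4 * (4 / 3) * (1 / 16) + (1 / 16) ^ 2) := by
      linarith
    have e : 1 / (6 * (Fintype.card V : ℝ) ^ 2)
        = (1 / (64 * (Fintype.card V : ℝ))) * (32 / 3) / (Fintype.card V : ℝ) := by
      field_simp
      ring
    rw [e]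
    apply div_le_div_of_nonneg_right _ hNpos.le
    exact mul_le_mul h1 h2 (by norm_num) (by positivity)
  have h1 : ((NearInv G).card : ℝ) * (1 / (6 * (Fintype.card V : ℝ) ^ 2))
      ≤ (Fintype.card V : ℝ) * ((PMinv G).card : ℝ) :=
    (mul_le_mul_of_nonneg_left hcst (by positivity)).trans hcount
  have h2 := mul_le_mul_of_nonneg_right h1
    (by positivity : (0 : ℝ) ≤ 6 * (Fintype.card V : ℝ) ^ 2)
  have e1 : ((NearInv G).card : ℝ) * (1 / (6 * (Fintype.card V : ℝ) ^ 2))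
      * (6 * (Fintype.card V : ℝ) ^ 2) = ((NearInv G).card : ℝ) := by
    field_simp
  rw [e1] at h2
  refine h2.trans (le_of_eq ?_)
  ring

/-- Regular graphs whose second singular value is at most `d / 16` : the near-perfect
matchings are at most `16 N ^ 5` times as many as the perfect matchings, uniformly in `d`. -/
theorem near_le_uniform16 (G : SimpleGraph V) [DecidableRel G.Adj] (d : ℕ) (hd : 0 < d)
    (hreg : G.IsRegularOfDegree d) (lam : ℝ) (hlam : 0 ≤ lam)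
    (hspec : ∀ x : V → ℝ, ∑ v, x v = 0 →
      ∑ v, ((G.adjMatrix ℝ).mulVec x v) ^ 2 ≤ lam ^ 2 * ∑ v, x v ^ 2)
    (hl : 16 * lam ≤ d) :
    Set.ncard {M : G.Subgraph | M.IsMatching ∧ Set.ncard (M.verts)ᶜ = 2} ≤
      16 * Fintype.card V ^ 5 * Set.ncard {M : G.Subgraph | M.IsPerfectMatching} := by
  rcases isEmpty_or_nonempty V with hV | hV
  · have he : {M : G.Subgraph | M.IsMatching ∧ Set.ncard (M.verts)ᶜ = 2} = ∅ := by
      ext M
      simp only [Set.mem_ofPred_eq, Set.mem_empty_iff_false, iff_false, not_and]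
      intro _ h
      have h1 : (M.verts)ᶜ = ∅ := Set.eq_empty_of_isEmpty _
      rw [h1, Set.ncard_empty] at h
      exact absurd h (by norm_num)
    rw [he, Set.ncard_empty]
    exact Nat.zero_le _
  obtain ⟨u⟩ := hV
  have c : Ctx G id d lam := ⟨hreg, fun x => rfl, hd, hlam, hspec⟩
  have hlow := c.spec_lower u
  have hdN : d + 1 ≤ Fintype.card V := by
    have h1 := G.degree_lt_card_verts u
    rw [hreg.degree_eq] at h1
    omega
  have hd' : (0 : ℝ) < (d : ℝ) := by exact_mod_cast hd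
  have hdN' : (d : ℝ) + 1 ≤ (Fintype.card V : ℝ) := by exact_mod_cast hdN
  have hNpos : (0 : ℝ) < (Fintype.card V : ℝ) := by linarith
  have hN1 : 1 ≤ Fintype.card V := by omega
  have hlam' : lam ≤ (d : ℝ) / 16 := by linarith
  have hlam2 : lam ^ 2 ≤ (d : ℝ) ^ 2 / 2 ^ 8 := by
    have h1 : lam ^ 2 ≤ ((d : ℝ) / 16) ^ 2 := pow_le_pow_left₀ hlam hlam' 2
    have e : ((d : ℝ) / 16) ^ 2 = (d : ℝ) ^ 2 / 2 ^ 8 := by
      rw [div_pow]; norm_num
    rw [e] at h1
    exact h1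
  have hup : lam ^ 2 * ((Fintype.card V : ℝ) - 1)
      ≤ (d : ℝ) ^ 2 / 2 ^ 8 * ((Fintype.card V : ℝ) - 1) :=
    mul_le_mul_of_nonneg_right hlam2 (by linarith)
  have hpoly3 : 4 * Fintype.card V ^ 3 ≤ 16 * Fintype.card V ^ 5 := by
    have h1 : Fintype.card V ^ 3 ≤ Fintype.card V ^ 5 :=
      Nat.pow_le_pow_right hN1 (by norm_num)
    omega
  by_cases hcase : Fintype.card V < 2 * d
  · -- the dense case
    have hcase' : (Fintype.card V : ℝ) < 2 * (d : ℝ) := by exact_mod_cast hcase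
    have hd5 : (5 : ℝ) ≤ (d : ℝ) := by
      by_contra hc
      have hc' : (d : ℝ) < 5 := not_le.1 hc
      have h1 : (d : ℝ) * 1 ≤ (d : ℝ) * ((Fintype.card V : ℝ) - d) :=
        mul_le_mul_of_nonneg_left (by linarith) hd'.le
      have h2 : (d : ℝ) ^ 2 / 2 ^ 8 * ((Fintype.card V : ℝ) - 1) ≤ 25 / 2 ^ 8 * 9 := by
        apply mul_le_mul _ (by linarith) (by linarith) (by positivity)
        apply div_le_div_of_nonneg_right _ (by positivity)
        nlinarith
      have h3 : (1 : ℝ) ≤ (d : ℝ) := by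
        have : 1 ≤ d := hd
        exact_mod_cast this
      norm_num at h2
      linarith
    have hdense : 3 * lam * (Fintype.card V : ℝ) < (d : ℝ) * ((d : ℝ) - 3) := by
      have h1 : 3 * lam * (Fintype.card V : ℝ) ≤ 3 * ((d : ℝ) / 16) * (Fintype.card V : ℝ) :=
        mul_le_mul_of_nonneg_right (by linarith) hNpos.le
      have h2 : 3 * ((d : ℝ) / 16) * (Fintype.card V : ℝ)
          < 3 * ((d : ℝ) / 16) * (2 * (d : ℝ)) :=
        mul_lt_mul_of_pos_left hcase' (by positivity)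
      nlinarith
    have h := near_le_of_dense G d hreg lam hlam hspec hdense
    refine h.trans (Nat.mul_le_mul_right _ ?_)
    have h5 : 2 * d + 1 ≤ 2 * Fintype.card V := by omega
    calc Fintype.card V * (2 * d + 1) ^ 2
        ≤ Fintype.card V * (2 * Fintype.card V) ^ 2 :=
          Nat.mul_le_mul_left _ (Nat.pow_le_pow_left h5 2)
      _ = 4 * Fintype.card V ^ 3 := by ring
      _ ≤ 16 * Fintype.card V ^ 5 := hpoly3
  · -- the sparse case
    have hcase' : 2 * d ≤ Fintype.card V := not_lt.1 hcase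
    have hcaseR : 2 * (d : ℝ) ≤ (Fintype.card V : ℝ) := by exact_mod_cast hcase'
    have hd7 : (2 : ℝ) ^ 7 ≤ (d : ℝ) := by
      by_contra hc
      have hc' : (d : ℝ) < 2 ^ 7 := not_le.1 hc
      have h1 : (d : ℝ) * ((Fintype.card V : ℝ) / 2) ≤ (d : ℝ) * ((Fintype.card V : ℝ) - d) :=
        mul_le_mul_of_nonneg_left (by linarith) hd'.le
      have h2 : (d : ℝ) ^ 2 / 2 ^ 8 * ((Fintype.card V : ℝ) - 1)
          ≤ (d : ℝ) ^ 2 / 2 ^ 8 * (Fintype.card V : ℝ) :=
        mul_le_mul_of_nonneg_left (by linarith) (by positivity)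
      have h3 : 0 < (d : ℝ) * (Fintype.card V : ℝ) * (2 ^ 7 - (d : ℝ)) :=
        mul_pos (mul_pos hd' hNpos) (by linarith)
      have e : (d : ℝ) * ((Fintype.card V : ℝ) / 2) - (d : ℝ) ^ 2 / 2 ^ 8 * (Fintype.card V : ℝ)
          = (d : ℝ) * (Fintype.card V : ℝ) * (2 ^ 7 - (d : ℝ)) / 2 ^ 8 := by ring
      have h4 : 0 < (d : ℝ) * (Fintype.card V : ℝ) * (2 ^ 7 - (d : ℝ)) / 2 ^ 8 := by
        positivity
      linarith
    have hd7n : 2 ^ 7 ≤ d := by exact_mod_cast hd7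
    have hN8 : 2 ^ 8 ≤ Fintype.card V := by
      have : 2 ^ 8 = 2 * 2 ^ 7 := by norm_num
      omega
    by_cases hmid : Fintype.card V < 8192
    · -- graphs of intermediate size
      have h := near_le_mid16 G d hreg lam hlam hspec hl hd (by omega) hmid
      refine h.trans (Nat.mul_le_mul_right _ ?_)
      have h5 : 2 * d + 1 ≤ 2 * Fintype.card V := by omega
      calc Fintype.card V * (2 * d + 1) ^ 4
          ≤ Fintype.card V * (2 * Fintype.card V) ^ 4 :=
            Nat.mul_le_mul_left _ (Nat.pow_le_pow_left h5 4)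
        _ = 16 * Fintype.card V ^ 5 := by ring
    have hN13 : 2 ^ 13 ≤ Fintype.card V := by
      have : (2 : ℕ) ^ 13 = 8192 := by norm_num
      omega
    have hd128 : (128 : ℝ) ≤ (d : ℝ) := by
      have : (2 : ℝ) ^ 7 = 128 := by norm_num
      linarith
    have hnear := near_le_large16 G d hd hreg lam hlam hspec hl hd128 hN13
    have hnearN : (NearInv G).card ≤ 6 * Fintype.card V ^ 3 * (PMinv G).card := by
      exact_mod_cast hnear
    have hpoly : 6 * Fintype.card V ^ 3 ≤ 16 * Fintype.card V ^ 5 := by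
      have h1 : Fintype.card V ^ 3 ≤ Fintype.card V ^ 5 :=
        Nat.pow_le_pow_right hN1 (by norm_num)
      omega
    calc Set.ncard {M : G.Subgraph | M.IsMatching ∧ Set.ncard (M.verts)ᶜ = 2}
        ≤ (NearInv G).card := ncard_near_le G
      _ ≤ 6 * Fintype.card V ^ 3 * (PMinv G).card := hnearN
      _ ≤ 6 * Fintype.card V ^ 3 * Set.ncard {M : G.Subgraph | M.IsPerfectMatching} :=
          Nat.mul_le_mul_left _ (card_pmInv_le G)
      _ ≤ 16 * Fintype.card V ^ 5 * Set.ncard {M : G.Subgraph | M.IsPerfectMatching} :=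
          Nat.mul_le_mul_right _ hpoly

end Vale.Agent.Lib.P308
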