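import Vale.Agent.Lib.P308.WColor

namespace Vale.Agent.Lib.P308

open Finset

set_option linter.unusedSectionVars false
set_option linter.unusedVariables false

/-- geometric sums with a general bound -/
lemma geo_gen (x Gb : ℝ) (h0 : 0 ≤ x) (hG : 0 ≤ Gb) (h1 : 1 ≤ Gb * (1 - x)) (m : ℕ) :
    ∑ a ∈ range m, x ^ a ≤ Gb := by
  have h : ∀ m : ℕ, ∑ a ∈ range m, x ^ a + Gb * x ^ m ≤ Gb := by
    intro m
    induction m with
    | zero => simp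
    | succ m ih =>
      rw [Finset.sum_range_succ, pow_succ]
      have h2 : 0 ≤ x ^ m := pow_nonneg h0 m
      nlinarith [mul_nonneg h2 (sub_nonneg.2 h1)]
  have h3 := h m
  have h4 : 0 ≤ Gb * x ^ m := mul_nonneg hG (pow_nonneg h0 m)
  linarith

/-- expansion of the sum, over an index set, of products of two weighted sums -/
lemma sum_TT_expand {ι : Type*} [Fintype ι] (m : ℕ) (ε e : ℝ) (p1 p2 : ι → ℕ → ℝ)
    (h10 : ∀ χ, p1 χ 0 = 1) (h20 : ∀ χ, p2 χ 0 = 1) :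
    ∑ χ, (∑ j ∈ range m, ε ^ (m - 1 - j) * p1 χ j + e)
        * (∑ i ∈ range m, ε ^ (m - 1 - i) * p2 χ i + e)
      = ∑ j ∈ range m, ∑ i ∈ range m,
          (ε ^ (m - 1 - j) * ε ^ (m - 1 - i)) * ∑ χ, p1 χ j * p2 χ i
        + e * ∑ j ∈ range m, ε ^ (m - 1 - j) * ∑ χ, p1 χ j * p2 χ 0
        + e * ∑ i ∈ range m, ε ^ (m - 1 - i) * ∑ χ, p1 χ 0 * p2 χ i
        + (Fintype.card ι : ℝ) * e ^ 2 := by
  have e1 : ∀ χ, (∑ j ∈ range m, ε ^ (m - 1 - j) * p1 χ j + e)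
        * (∑ i ∈ range m, ε ^ (m - 1 - i) * p2 χ i + e)
      = ∑ j ∈ range m, ∑ i ∈ range m,
          (ε ^ (m - 1 - j) * ε ^ (m - 1 - i)) * (p1 χ j * p2 χ i)
        + e * ∑ j ∈ range m, ε ^ (m - 1 - j) * (p1 χ j * p2 χ 0)
        + e * ∑ i ∈ range m, ε ^ (m - 1 - i) * (p1 χ 0 * p2 χ i)
        + e ^ 2 := by
    intro χ
    have e2 : (∑ j ∈ range m, ε ^ (m - 1 - j) * p1 χ j)
          * (∑ i ∈ range m, ε ^ (m - 1 - i) * p2 χ i)
        = ∑ j ∈ range m, ∑ i ∈ range m,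
            (ε ^ (m - 1 - j) * ε ^ (m - 1 - i)) * (p1 χ j * p2 χ i) := by
      rw [Finset.sum_mul_sum]
      apply Finset.sum_congr rfl
      intro j _
      apply Finset.sum_congr rfl
      intro i _
      ring
    rw [← e2]
    simp only [h10, h20, mul_one, one_mul]
    ring
  rw [Finset.sum_congr rfl (fun χ _ => e1 χ)]
  rw [Finset.sum_add_distrib, Finset.sum_add_distrib, Finset.sum_add_distrib]
  congr 1
  · congr 1
    · congr 1
      · rw [Finset.sum_comm]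
        apply Finset.sum_congr rfl
        intro j _
        rw [Finset.sum_comm]
        apply Finset.sum_congr rfl
        intro i _
        rw [Finset.mul_sum]
      · rw [← Finset.mul_sum]
        congr 1
        rw [Finset.sum_comm]
        apply Finset.sum_congr rfl
        intro j _
        rw [Finset.mul_sum]
    · rw [← Finset.mul_sum]
      congr 1
      rw [Finset.sum_comm]
      apply Finset.sum_congr rfl
      intro i _
      rw [Finset.mul_sum]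
  · rw [Finset.sum_const, Finset.card_univ, nsmul_eq_mul]

/-- powers of one half against powers of one quarter -/
lemma half_pow (p q m : ℕ) (h : p + q = 2 * m) :
    (1 / 2 : ℝ) ^ p = (1 / 4) ^ m * 2 ^ q := by
  have e1 : (1 / 2 : ℝ) ^ p * (1 / 2) ^ q = (1 / 4) ^ m := by
    rw [← pow_add, h, pow_mul]
    norm_num
  have e3 : (2 : ℝ) ^ q * (1 / 2) ^ q = 1 := by
    rw [← mul_pow]; norm_num
  calc (1 / 2 : ℝ) ^ p = (1 / 2 : ℝ) ^ p * ((2 : ℝ) ^ q * (1 / 2) ^ q) := by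
        rw [e3, mul_one]
    _ = ((1 / 2 : ℝ) ^ p * (1 / 2) ^ q) * 2 ^ q := by ring
    _ = (1 / 4) ^ m * 2 ^ q := by rw [e1]

/-- one term of the double sum -/
lemma avg_term1 (m j i : ℕ) (hj : j < m) (hi : i < m) (ε ρ P2 Aji slmin slm : ℝ)
    (hε : 0 ≤ ε) (hρ : 1 ≤ ρ) (hP2 : 0 ≤ P2) (hslm : 0 ≤ slm)
    (hA : Aji ≤ P2 * (1 / 2) ^ (j + i) * slmin)
    (hchain : slmin ≤ ρ ^ (m - min j i) * slm) :
    (ε ^ (m - 1 - j) * ε ^ (m - 1 - i)) * Aji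
      ≤ P2 * (1 / 4) ^ m * slm * (4 * ρ)
        * ((2 * ρ * ε) ^ (m - 1 - j) * (2 * ρ * ε) ^ (m - 1 - i)) := by
  obtain ⟨a, ha⟩ : ∃ a, a = m - 1 - j := ⟨_, rfl⟩
  obtain ⟨b, hb⟩ : ∃ b, b = m - 1 - i := ⟨_, rfl⟩
  rw [← ha, ← hb]
  have h1 := hA.trans (mul_le_mul_of_nonneg_left hchain (by positivity))
  have hexp : m - min j i ≤ a + b + 1 := by
    rcases Nat.le_total j i with h | h
    · rw [Nat.min_eq_left h]; omega
    · rw [Nat.min_eq_right h]; omega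
  have h2 : ρ ^ (m - min j i) ≤ ρ ^ (a + b + 1) := pow_le_pow_right₀ hρ hexp
  have hhalf : (1 / 2 : ℝ) ^ (j + i) = (1 / 4) ^ m * 2 ^ (a + b + 2) :=
    half_pow (j + i) (a + b + 2) m (by omega)
  have h3 : Aji ≤ P2 * ((1 / 4) ^ m * 2 ^ (a + b + 2)) * (ρ ^ (a + b + 1) * slm) := by
    rw [hhalf] at h1
    refine h1.trans ?_
    apply mul_le_mul_of_nonneg_left _ (by positivity)
    exact mul_le_mul_of_nonneg_right h2 hslm
  have h4 : 0 ≤ ε ^ a * ε ^ b := mul_nonneg (pow_nonneg hε _) (pow_nonneg hε _)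
  refine (mul_le_mul_of_nonneg_left h3 h4).trans (le_of_eq ?_)
  ring

/-- one term of the single sums -/
lemma avg_term3 (m j : ℕ) (hj : j < m) (ε ρ s P2 Bj slm : ℝ)
    (hε : 0 ≤ ε) (hρ : 1 ≤ ρ) (hs : 0 ≤ s) (hP2 : 0 ≤ P2) (hslm : 0 ≤ slm)
    (hB : Bj ≤ P2 * (1 / 2) ^ j) (h1m : 1 ≤ ρ ^ m * slm) :
    (ε ^ m * s) * (ε ^ (m - 1 - j) * Bj)
      ≤ P2 * (1 / 4) ^ m * slm * (2 * ((2 * ρ * ε) ^ m * s)) * (2 * ρ * ε) ^ (m - 1 - j) := by
  obtain ⟨a, ha⟩ : ∃ a, a = m - 1 - j := ⟨_, rfl⟩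
  rw [← ha]
  have hρ0 : (0 : ℝ) ≤ ρ := by linarith
  have hhalf : (1 / 2 : ℝ) ^ j = (1 / 4) ^ m * 2 ^ (a + 1 + m) :=
    half_pow j (a + 1 + m) m (by omega)
  have hW0 : 0 ≤ (ε ^ m * s) * ε ^ a := by positivity
  have h1 : (ε ^ m * s) * (ε ^ a * Bj)
      ≤ (ε ^ m * s) * ε ^ a * (P2 * ((1 / 4) ^ m * 2 ^ (a + 1 + m))) := by
    have := mul_le_mul_of_nonneg_left hB hW0
    rw [hhalf] at this
    refine le_trans (le_of_eq ?_) this
    ring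
  have hW1 : 0 ≤ (ε ^ m * s) * ε ^ a * (P2 * ((1 / 4) ^ m * 2 ^ (a + 1 + m))) := by
    positivity
  have h2 : (ε ^ m * s) * ε ^ a * (P2 * ((1 / 4) ^ m * 2 ^ (a + 1 + m)))
      ≤ (ε ^ m * s) * ε ^ a * (P2 * ((1 / 4) ^ m * 2 ^ (a + 1 + m)))
        * (ρ ^ m * slm) := le_mul_of_one_le_right hW1 h1m
  have e4 : (ε ^ m * s) * ε ^ a * (P2 * ((1 / 4) ^ m * 2 ^ (a + 1 + m)))
        * (ρ ^ m * slm)
      = P2 * (1 / 4) ^ m * slm * (2 * ((2 * ρ * ε) ^ m * s)) * (2 * ε) ^ a := by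
    ring
  have h5 : (2 * ε) ^ a ≤ (2 * ρ * ε) ^ a := by
    apply pow_le_pow_left₀ (by positivity)
    nlinarith
  have h6 : P2 * (1 / 4) ^ m * slm * (2 * ((2 * ρ * ε) ^ m * s)) * (2 * ε) ^ a
      ≤ P2 * (1 / 4) ^ m * slm * (2 * ((2 * ρ * ε) ^ m * s)) * (2 * ρ * ε) ^ a :=
    mul_le_mul_of_nonneg_left h5 (by positivity)
  linarith

/-- the constant term -/
lemma avg_term4 (m : ℕ) (ε ρ s P2 slm : ℝ) (hε : 0 ≤ ε) (hρ : 1 ≤ ρ) (hP2 : 0 ≤ P2)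
    (h1m : 1 ≤ ρ ^ m * slm) :
    P2 * (ε ^ m * s) ^ 2
      ≤ P2 * (1 / 4) ^ m * slm * (((2 * ρ * ε) ^ m * s) * ((2 * ρ * ε) ^ m * s)) := by
  have hq4 : (1 / 4 : ℝ) ^ m * ((2 : ℝ) ^ m * 2 ^ m) = 1 := by
    rw [← mul_pow, ← mul_pow]; norm_num
  have e5 : P2 * (1 / 4) ^ m * slm * (((2 * ρ * ε) ^ m * s) * ((2 * ρ * ε) ^ m * s))
      = P2 * (ε ^ m * s) ^ 2 * (ρ ^ m * (ρ ^ m * slm)) := by
    have e6 : P2 * (1 / 4) ^ m * slm * (((2 * ρ * ε) ^ m * s) * ((2 * ρ * ε) ^ m * s))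
        = P2 * (ε ^ m * s) ^ 2 * (ρ ^ m * (ρ ^ m * slm))
          * ((1 / 4 : ℝ) ^ m * ((2 : ℝ) ^ m * 2 ^ m)) := by
      ring
    rw [e6, hq4, mul_one]
  rw [e5]
  have hρm : 1 ≤ ρ ^ m := one_le_pow₀ hρ
  have h7 : 1 ≤ ρ ^ m * (ρ ^ m * slm) := by nlinarith
  exact le_mul_of_one_le_right (by positivity) h7

/-- the final comparison of the constants -/
lemma avg_fin (K0 ρ Gs Gb u0 ub : ℝ) (hK : 0 ≤ K0) (hρ : 0 ≤ ρ) (hGs0 : 0 ≤ Gs)
    (hGsb : Gs ≤ Gb) (hu00 : 0 ≤ u0) (hu0b : u0 ≤ ub) :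
    K0 * (4 * ρ) * (Gs * Gs) + K0 * (2 * u0) * Gs + K0 * (2 * u0) * Gs + K0 * (u0 * u0)
      ≤ K0 * (4 * ρ * Gb ^ 2 + 4 * Gb * ub + ub ^ 2) := by
  have hGb0 : 0 ≤ Gb := hGs0.trans hGsb
  have hub0 : 0 ≤ ub := hu00.trans hu0b
  have g1 : Gs * Gs ≤ Gb * Gb := mul_le_mul hGsb hGsb hGs0 hGb0
  have g2 : u0 * Gs ≤ ub * Gb := mul_le_mul hu0b hGsb hGs0 hub0
  have g3 : u0 * u0 ≤ ub * ub := mul_le_mul hu0b hu0b hu00 hub0
  have g1' := mul_le_mul_of_nonneg_left g1 (by positivity : (0 : ℝ) ≤ 4 * ρ)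
  have g4 : 4 * ρ * (Gs * Gs) + 4 * (u0 * Gs) + u0 * u0
      ≤ 4 * ρ * Gb ^ 2 + 4 * Gb * ub + ub ^ 2 := by
    have e1 : 4 * ρ * Gb ^ 2 + 4 * Gb * ub + ub ^ 2
        = 4 * ρ * (Gb * Gb) + 4 * (ub * Gb) + ub * ub := by ring
    rw [e1]
    linarith
  have g5 := mul_le_mul_of_nonneg_left g4 hK
  refine le_trans (le_of_eq ?_) g5
  ring

/-- the numerical heart of the averaged junction -/
lemma avg_num (m : ℕ) (ε ρ s Gb ub P2 : ℝ) (A : ℕ → ℕ → ℝ) (sl : ℕ → ℝ)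
    (hε : 0 ≤ ε) (hρ : 1 ≤ ρ) (hs : 0 ≤ s) (hP2 : 0 ≤ P2) (hGb0 : 0 ≤ Gb)
    (hGb : 1 ≤ Gb * (1 - 2 * ρ * ε)) (hub0 : 0 ≤ ub)
    (hub : s ^ 2 * (4 * ρ ^ 2 * ε ^ 2) ^ m ≤ ub ^ 2)
    (hsl0 : sl 0 = 1) (hslm : 0 ≤ sl m)
    (hch : ∀ j, j < m → sl j ≤ ρ * sl (j + 1))
    (hA : ∀ j i, A j i ≤ P2 * (1 / 2) ^ (j + i) * sl (min j i)) :
    ∑ j ∈ range m, ∑ i ∈ range m, (ε ^ (m - 1 - j) * ε ^ (m - 1 - i)) * A j i
        + (ε ^ m * s) * ∑ j ∈ range m, ε ^ (m - 1 - j) * A j 0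
        + (ε ^ m * s) * ∑ i ∈ range m, ε ^ (m - 1 - i) * A 0 i
        + P2 * (ε ^ m * s) ^ 2
      ≤ P2 * (1 / 4) ^ m * sl m * (4 * ρ * Gb ^ 2 + 4 * Gb * ub + ub ^ 2) := by
  have hρ0 : (0 : ℝ) ≤ ρ := by linarith
  have hx0 : 0 ≤ 2 * ρ * ε := by positivity
  have hGs0 : 0 ≤ ∑ a ∈ range m, (2 * ρ * ε) ^ a :=
    Finset.sum_nonneg (fun a _ => pow_nonneg hx0 a)
  have hGsb : ∑ a ∈ range m, (2 * ρ * ε) ^ a ≤ Gb := geo_gen (2 * ρ * ε) Gb hx0 hGb0 hGb m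
  have hu00 : 0 ≤ (2 * ρ * ε) ^ m * s := mul_nonneg (pow_nonneg hx0 m) hs
  have hu0b : (2 * ρ * ε) ^ m * s ≤ ub := by
    have e2 : ((2 * ρ * ε) ^ m * s) ^ 2 = s ^ 2 * (4 * ρ ^ 2 * ε ^ 2) ^ m := by
      rw [mul_pow, ← pow_mul, mul_comm m 2, pow_mul]
      ring
    have h3 : ((2 * ρ * ε) ^ m * s) ^ 2 ≤ ub ^ 2 := by rw [e2]; exact hub
    exact (abs_le_of_sq_le_sq' h3 hub0).2
  have hchain : ∀ l, l ≤ m → sl l ≤ ρ ^ (m - l) * sl m := by
    intro l hl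
    have h1 := chain_from sl ρ hρ0 l (m - l) (fun i _ hi => hch i (by omega))
    have e : l + (m - l) = m := by omega
    rw [e] at h1
    exact h1
  have h1m : 1 ≤ ρ ^ m * sl m := by
    have := hchain 0 (Nat.zero_le m)
    rwa [hsl0, Nat.sub_zero] at this
  have hK00 : 0 ≤ P2 * (1 / 4) ^ m * sl m := mul_nonneg (mul_nonneg hP2 (by positivity)) hslm
  have hS1 : ∑ j ∈ range m, ∑ i ∈ range m, (ε ^ (m - 1 - j) * ε ^ (m - 1 - i)) * A j i
      ≤ P2 * (1 / 4) ^ m * sl m * (4 * ρ)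
        * ((∑ a ∈ range m, (2 * ρ * ε) ^ a) * (∑ a ∈ range m, (2 * ρ * ε) ^ a)) := by
    have hT1 : ∀ j ∈ range m, ∀ i ∈ range m,
        (ε ^ (m - 1 - j) * ε ^ (m - 1 - i)) * A j i
          ≤ P2 * (1 / 4) ^ m * sl m * (4 * ρ)
            * ((2 * ρ * ε) ^ (m - 1 - j) * (2 * ρ * ε) ^ (m - 1 - i)) := by
      intro j hj i hi
      have hj' := Finset.mem_range.1 hj
      have hi' := Finset.mem_range.1 hi
      exact avg_term1 m j i hj' hi' ε ρ P2 (A j i) (sl (min j i)) (sl m) hε hρ hP2 hslm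
        (hA j i) (hchain (min j i) ((Nat.min_le_left j i).trans hj'.le))
    refine (Finset.sum_le_sum (fun j hj => Finset.sum_le_sum (fun i hi => hT1 j hj i hi))).trans
      (le_of_eq ?_)
    have e1 : ∑ j ∈ range m, ∑ i ∈ range m,
          P2 * (1 / 4) ^ m * sl m * (4 * ρ)
            * ((2 * ρ * ε) ^ (m - 1 - j) * (2 * ρ * ε) ^ (m - 1 - i))
        = P2 * (1 / 4) ^ m * sl m * (4 * ρ)
          * ((∑ j ∈ range m, (2 * ρ * ε) ^ (m - 1 - j))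
            * (∑ i ∈ range m, (2 * ρ * ε) ^ (m - 1 - i))) := by
      rw [Finset.sum_mul_sum, Finset.mul_sum]
      apply Finset.sum_congr rfl
      intro j _
      rw [Finset.mul_sum]
    rw [e1, Finset.sum_range_reflect (fun a => (2 * ρ * ε) ^ a) m]
  have hT3 : ∀ (B : ℕ → ℝ), (∀ j, B j ≤ P2 * (1 / 2) ^ j) →
      (ε ^ m * s) * ∑ j ∈ range m, ε ^ (m - 1 - j) * B j
        ≤ P2 * (1 / 4) ^ m * sl m * (2 * ((2 * ρ * ε) ^ m * s))
          * ∑ a ∈ range m, (2 * ρ * ε) ^ a := by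
    intro B hB
    rw [Finset.mul_sum]
    refine (Finset.sum_le_sum (fun j hj => avg_term3 m j (Finset.mem_range.1 hj) ε ρ s P2 (B j)
      (sl m) hε hρ hs hP2 hslm (hB j) h1m)).trans (le_of_eq ?_)
    rw [← Finset.mul_sum, Finset.sum_range_reflect (fun a => (2 * ρ * ε) ^ a) m]
  have hB1 : ∀ j, A j 0 ≤ P2 * (1 / 2) ^ j := by
    intro j
    have := hA j 0
    rwa [Nat.min_zero, hsl0, mul_one, Nat.add_zero] at this
  have hB2 : ∀ i, A 0 i ≤ P2 * (1 / 2) ^ i := by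
    intro i
    have := hA 0 i
    rwa [Nat.zero_min, hsl0, mul_one, Nat.zero_add] at this
  have hS2 := hT3 (fun j => A j 0) hB1
  have hS3 := hT3 (fun i => A 0 i) hB2
  have hS4 := avg_term4 m ε ρ s P2 (sl m) hε hρ hP2 h1m
  have hfin := avg_fin (P2 * (1 / 4) ^ m * sl m) ρ (∑ a ∈ range m, (2 * ρ * ε) ^ a) Gb
    ((2 * ρ * ε) ^ m * s) ub hK00 hρ0 hGs0 hGsb hu00 hu0b
  exact (add_le_add (add_le_add (add_le_add hS1 hS2) hS3) hS4).trans hfin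

variable {V : Type*} [Fintype V] [DecidableEq V]
variable {G : SimpleGraph V} [DecidableRel G.Adj] {g : V → V} {d : ℕ} {lam : ℝ}

namespace Ctx

variable (c : Ctx G g d lam)
include c

/-- the junction edge, averaged over all colourings : no first phase and no deviation terms -/
lemma avg_junction (hfix : ∀ x, g x ≠ x) (m : ℕ) (F : Finset V) (a b : V)
    (ρ Gb ub : ℝ) (hρ : 1 ≤ ρ) (hGb0 : 0 ≤ Gb)
    (hGb : 1 ≤ Gb * (1 - 2 * ρ * (lam / d))) (hub0 : 0 ≤ ub)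
    (hub : (Fintype.card V : ℝ) * (4 * ρ ^ 2 * (lam / d) ^ 2) ^ m ≤ ub ^ 2)
    (hch : ∀ j, j < m → S G g d j F a b (fun _ _ _ => 1)
      ≤ ρ * S G g d (j + 1) F a b (fun _ _ _ => 1)) :
    (1 / 4 : ℝ) ^ m * S G g d m F a b (fun _ _ _ => 1)
        * ((d : ℝ) - lam * (4 * ρ * Gb ^ 2 + 4 * Gb * ub + ub ^ 2)) / (Fintype.card V : ℝ)
      ≤ S G g d m F a b (fun _ a b => if G.Adj a b then 1 else 0) := by
  classical
  have hV : Nonempty V := ⟨a⟩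
  have hN : (0 : ℝ) < (Fintype.card V : ℝ) := by exact_mod_cast Fintype.card_pos
  have hε0 := c.ep_nonneg
  have hlam := c.lam0
  set s : ℝ := Real.sqrt (Fintype.card V : ℝ) with hsdef
  have hs0 : 0 ≤ s := Real.sqrt_nonneg _
  have hs2 : s ^ 2 = (Fintype.card V : ℝ) := Real.sq_sqrt hN.le
  have hP2 : (0 : ℝ) < (2 : ℝ) ^ Fintype.card V := by positivity
  have hpt : ∀ χ : V → Bool,
      ((d : ℝ) * (ptot G g d (sd1 g χ) m F a * ptot G g d (sd2 g χ) m F b)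
        - lam * (TT G g d lam (sd1 g χ) s F a m * TT G g d lam (sd2 g χ) s F b m))
          / (Fintype.card V : ℝ)
      ≤ S G g d m F a b (fun _ a b => if G.Adj a b then 1 else 0) := by
    intro χ
    obtain ⟨hT10, hT1⟩ := c.pc_norm_le (Om := sd1 g χ) s hs0 hs2.ge F a m
    obtain ⟨hT20, hT2⟩ := c.pc_norm_le (Om := sd2 g χ) s hs0 hs2.ge F b m
    have hj := c.junction_n (fun z => pc G g d (sd1 g χ) m F a z)
      (fun z => pc G g d (sd2 g χ) m F b z)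
      (fun z => pc_nonneg _ _ _ _) (fun z => pc_nonneg _ _ _ _)
      (TT G g d lam (sd1 g χ) s F a m) (TT G g d lam (sd2 g χ) s F b m) hT10 hT20 hT1 hT2
    have hJ := JJ_le_S (G := G) (g := g) (d := d) (sd1 g χ) (sd2 g χ) sd_disj
      (sd1_closed c.inv) (sd2_closed c.inv) m F a b
    have hj' : ((d : ℝ) * (ptot G g d (sd1 g χ) m F a * ptot G g d (sd2 g χ) m F b)
        - lam * (TT G g d lam (sd1 g χ) s F a m * TT G g d lam (sd2 g χ) s F b m))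
          / (Fintype.card V : ℝ) ≤ JJ G g d (sd1 g χ) (sd2 g χ) m F a b := hj
    exact hj'.trans hJ
  have hsum := Finset.sum_le_sum (fun χ (_ : χ ∈ (univ : Finset (V → Bool))) => hpt χ)
  rw [Finset.sum_const, Finset.card_univ, Fintype.card_fun, Fintype.card_bool,
    nsmul_eq_mul] at hsum
  push_cast at hsum
  have hL : ∑ χ : V → Bool,
        ((d : ℝ) * (ptot G g d (sd1 g χ) m F a * ptot G g d (sd2 g χ) m F b)
          - lam * (TT G g d lam (sd1 g χ) s F a m * TT G g d lam (sd2 g χ) s F b m))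
            / (Fintype.card V : ℝ)
      = ((d : ℝ) * AA G g d m m F a b
          - lam * ∑ χ : V → Bool,
              (TT G g d lam (sd1 g χ) s F a m * TT G g d lam (sd2 g χ) s F b m))
            / (Fintype.card V : ℝ) := by
    rw [← Finset.sum_div, Finset.sum_sub_distrib, ← Finset.mul_sum, ← Finset.mul_sum]
    rfl
  have hTT : ∑ χ : V → Bool,
        (TT G g d lam (sd1 g χ) s F a m * TT G g d lam (sd2 g χ) s F b m)
      ≤ (2 : ℝ) ^ Fintype.card V * (1 / 4) ^ m * S G g d m F a b (fun _ _ _ => 1)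
        * (4 * ρ * Gb ^ 2 + 4 * Gb * ub + ub ^ 2) := by
    have e1 : ∀ χ : V → Bool,
        TT G g d lam (sd1 g χ) s F a m * TT G g d lam (sd2 g χ) s F b m
        = (∑ j ∈ range m, (lam / d) ^ (m - 1 - j) * ptot G g d (sd1 g χ) j F a
            + (lam / d) ^ m * s)
          * (∑ i ∈ range m, (lam / d) ^ (m - 1 - i) * ptot G g d (sd2 g χ) i F b
            + (lam / d) ^ m * s) := by
      intro χ
      rw [TT_eq, TT_eq]
    rw [Finset.sum_congr rfl (fun χ _ => e1 χ)]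
    rw [sum_TT_expand m (lam / d) ((lam / d) ^ m * s)
      (fun χ j => ptot G g d (sd1 g χ) j F a) (fun χ i => ptot G g d (sd2 g χ) i F b)
      (fun χ => ptot_zero _ _) (fun χ => ptot_zero _ _)]
    have hcard : (Fintype.card (V → Bool) : ℝ) = (2 : ℝ) ^ Fintype.card V := by
      rw [Fintype.card_fun, Fintype.card_bool]
      push_cast
      ring
    rw [hcard]
    exact avg_num m (lam / d) ρ s Gb ub ((2 : ℝ) ^ Fintype.card V)
      (fun j i => AA G g d j i F a b) (fun l => S G g d l F a b (fun _ _ _ => 1))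
      hε0 hρ hs0 hP2.le hGb0 hGb hub0 (by rw [hs2]; exact hub) rfl
      (c.S_one_nonneg m F a b) hch (fun j i => c.AA_le hfix j i F a b)
  rw [hL, AA_diag c.inv hfix m F a b] at hsum
  have h1 := mul_le_mul_of_nonneg_left hTT hlam
  have h2 : (2 : ℝ) ^ Fintype.card V * ((1 / 4 : ℝ) ^ m * S G g d m F a b (fun _ _ _ => 1)
        * ((d : ℝ) - lam * (4 * ρ * Gb ^ 2 + 4 * Gb * ub + ub ^ 2)) / (Fintype.card V : ℝ))
      ≤ (2 : ℝ) ^ Fintype.card V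
        * S G g d m F a b (fun _ a b => if G.Adj a b then 1 else 0) := by
    refine le_trans ?_ hsum
    rw [← mul_div_assoc]
    apply div_le_div_of_nonneg_right _ hN.le
    linarith
  exact le_of_mul_le_mul_left h2 hP2

end Ctx

end Vale.Agent.Lib.P308
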