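import Vale.Agent.Lib.P308.WNorm

namespace Vale.Agent.Lib.P308

open Finset

set_option linter.unusedSectionVars false
set_option linter.unusedVariables false

/-- expansion of the sum, over an index set, of the majorants of the products of two
norm bounds -/
lemma sum_Z_expand {ι : Type*} [Fintype ι] (m : ℕ) (ε e θ : ℝ) (p1 p2 : ι → ℕ → ℝ)
    (h10 : ∀ χ, p1 χ 0 = 1) (h20 : ∀ χ, p2 χ 0 = 1) :
    ∑ χ, (θ * ((∑ j ∈ range m, ε ^ (m - 1 - j) * p1 χ j)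
            * (∑ i ∈ range m, ε ^ (m - 1 - i) * p2 χ i))
          + e * (∑ j ∈ range m, ε ^ (m - 1 - j) * p1 χ j)
          + e * (∑ i ∈ range m, ε ^ (m - 1 - i) * p2 χ i) + e ^ 2)
      = θ * ∑ j ∈ range m, ∑ i ∈ range m,
          (ε ^ (m - 1 - j) * ε ^ (m - 1 - i)) * ∑ χ, p1 χ j * p2 χ i
        + e * ∑ j ∈ range m, ε ^ (m - 1 - j) * ∑ χ, p1 χ j * p2 χ 0
        + e * ∑ i ∈ range m, ε ^ (m - 1 - i) * ∑ χ, p1 χ 0 * p2 χ i
        + (Fintype.card ι : ℝ) * e ^ 2 := by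
  have e1 : ∀ χ, (θ * ((∑ j ∈ range m, ε ^ (m - 1 - j) * p1 χ j)
            * (∑ i ∈ range m, ε ^ (m - 1 - i) * p2 χ i))
          + e * (∑ j ∈ range m, ε ^ (m - 1 - j) * p1 χ j)
          + e * (∑ i ∈ range m, ε ^ (m - 1 - i) * p2 χ i) + e ^ 2)
      = θ * ∑ j ∈ range m, ∑ i ∈ range m,
          (ε ^ (m - 1 - j) * ε ^ (m - 1 - i)) * (p1 χ j * p2 χ i)
        + e * ∑ j ∈ range m, ε ^ (m - 1 - j) * (p1 χ j * p2 χ 0)
        + e * ∑ i ∈ range m, ε ^ (m - 1 - i) * (p1 χ 0 * p2 χ i)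
        + e ^ 2 := by
    intro χ
    have e2 : (∑ j ∈ range m, ε ^ (m - 1 - j) * p1 χ j)
          * (∑ i ∈ range m, ε ^ (m - 1 - i) * p2 χ i)
        = ∑ j ∈ range m, ∑ i ∈ range m,
            (ε ^ (m - 1 - j) * ε ^ (m - 1 - i)) * (p1 χ j * p2 χ i) := by
      rw [Finset.sum_mul_sum]
      apply Finset.sum_congr rfl
      intro j _
      apply Finset.sum_congr rfl
      intro i _
      ring
    rw [← e2]
    simp only [h10, h20, mul_one, one_mul]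
  rw [Finset.sum_congr rfl (fun χ _ => e1 χ)]
  rw [Finset.sum_add_distrib, Finset.sum_add_distrib, Finset.sum_add_distrib]
  congr 1
  · congr 1
    · congr 1
      · rw [← Finset.mul_sum]
        congr 1
        rw [Finset.sum_comm]
        apply Finset.sum_congr rfl
        intro j _
        rw [Finset.sum_comm]
        apply Finset.sum_congr rfl
        intro i _
        rw [Finset.mul_sum]
      · rw [← Finset.mul_sum]
        congr 1
        rw [Finset.sum_comm]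
        apply Finset.sum_congr rfl
        intro j _
        rw [Finset.mul_sum]
    · rw [← Finset.mul_sum]
      congr 1
      rw [Finset.sum_comm]
      apply Finset.sum_congr rfl
      intro i _
      rw [Finset.mul_sum]
  · rw [Finset.sum_const, Finset.card_univ, nsmul_eq_mul]

/-- the final comparison of the constants, with the halved main term -/
lemma avg_fin2 (K0 ρ Gs Gb u0 ub : ℝ) (hK : 0 ≤ K0) (hρ : 0 ≤ ρ) (hGs0 : 0 ≤ Gs)
    (hGsb : Gs ≤ Gb) (hu00 : 0 ≤ u0) (hu0b : u0 ≤ ub) :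
    1 / 2 * (K0 * (4 * ρ) * (Gs * Gs)) + K0 * (2 * u0) * Gs + K0 * (2 * u0) * Gs
        + K0 * (u0 * u0)
      ≤ K0 * (2 * ρ * Gb ^ 2 + 4 * Gb * ub + ub ^ 2) := by
  have hGb0 : 0 ≤ Gb := hGs0.trans hGsb
  have hub0 : 0 ≤ ub := hu00.trans hu0b
  have g1 : Gs * Gs ≤ Gb * Gb := mul_le_mul hGsb hGsb hGs0 hGb0
  have g2 : u0 * Gs ≤ ub * Gb := mul_le_mul hu0b hGsb hGs0 hub0
  have g3 : u0 * u0 ≤ ub * ub := mul_le_mul hu0b hu0b hu00 hub0
  have g1' := mul_le_mul_of_nonneg_left g1 (by positivity : (0 : ℝ) ≤ 2 * ρ)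
  have g4 : 2 * ρ * (Gs * Gs) + 4 * (u0 * Gs) + u0 * u0
      ≤ 2 * ρ * Gb ^ 2 + 4 * Gb * ub + ub ^ 2 := by
    have e1 : 2 * ρ * Gb ^ 2 + 4 * Gb * ub + ub ^ 2
        = 2 * ρ * (Gb * Gb) + 4 * (ub * Gb) + ub * ub := by ring
    rw [e1]
    linarith
  have g5 := mul_le_mul_of_nonneg_left g4 hK
  refine le_trans (le_of_eq ?_) g5
  ring

/-- the numerical heart of the averaged junction, with the halved main term -/
lemma avg_num2 (m : ℕ) (ε ρ s Gb ub P2 : ℝ) (A : ℕ → ℕ → ℝ) (sl : ℕ → ℝ)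
    (hε : 0 ≤ ε) (hρ : 1 ≤ ρ) (hs : 0 ≤ s) (hP2 : 0 ≤ P2) (hGb0 : 0 ≤ Gb)
    (hGb : 1 ≤ Gb * (1 - 2 * ρ * ε)) (hub0 : 0 ≤ ub)
    (hub : s ^ 2 * (4 * ρ ^ 2 * ε ^ 2) ^ m ≤ ub ^ 2)
    (hsl0 : sl 0 = 1) (hslm : 0 ≤ sl m)
    (hch : ∀ j, j < m → sl j ≤ ρ * sl (j + 1))
    (hA : ∀ j i, A j i ≤ P2 * (1 / 2) ^ (j + i) * sl (min j i)) :
    1 / 2 * ∑ j ∈ range m, ∑ i ∈ range m, (ε ^ (m - 1 - j) * ε ^ (m - 1 - i)) * A j i
        + (ε ^ m * s) * ∑ j ∈ range m, ε ^ (m - 1 - j) * A j 0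
        + (ε ^ m * s) * ∑ i ∈ range m, ε ^ (m - 1 - i) * A 0 i
        + P2 * (ε ^ m * s) ^ 2
      ≤ P2 * (1 / 4) ^ m * sl m * (2 * ρ * Gb ^ 2 + 4 * Gb * ub + ub ^ 2) := by
  have hρ0 : (0 : ℝ) ≤ ρ := by linarith
  have hx0 : 0 ≤ 2 * ρ * ε := by positivity
  have hGs0 : 0 ≤ ∑ a ∈ range m, (2 * ρ * ε) ^ a :=
    Finset.sum_nonneg (fun a _ => pow_nonneg hx0 a)
  have hGsb : ∑ a ∈ range m, (2 * ρ * ε) ^ a ≤ Gb := geo_gen (2 * ρ * ε) Gb hx0 hGb0 hGb m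
  have hu00 : 0 ≤ (2 * ρ * ε) ^ m * s := mul_nonneg (pow_nonneg hx0 m) hs
  have hu0b : (2 * ρ * ε) ^ m * s ≤ ub := by
    have e2 : ((2 * ρ * ε) ^ m * s) ^ 2 = s ^ 2 * (4 * ρ ^ 2 * ε ^ 2) ^ m := by
      rw [mul_pow, ← pow_mul, mul_comm m 2, pow_mul]
      ring
    have h3 : ((2 * ρ * ε) ^ m * s) ^ 2 ≤ ub ^ 2 := by rw [e2]; exact hub
    exact (abs_le_of_sq_le_sq' h3 hub0).2
  have hchain : ∀ l, l ≤ m → sl l ≤ ρ ^ (m - l) * sl m := by
    intro l hl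
    have h1 := chain_from sl ρ hρ0 l (m - l) (fun i _ hi => hch i (by omega))
    have e : l + (m - l) = m := by omega
    rw [e] at h1
    exact h1
  have h1m : 1 ≤ ρ ^ m * sl m := by
    have := hchain 0 (Nat.zero_le m)
    rwa [hsl0, Nat.sub_zero] at this
  have hK00 : 0 ≤ P2 * (1 / 4) ^ m * sl m := mul_nonneg (mul_nonneg hP2 (by positivity)) hslm
  have hS1 : ∑ j ∈ range m, ∑ i ∈ range m, (ε ^ (m - 1 - j) * ε ^ (m - 1 - i)) * A j i
      ≤ P2 * (1 / 4) ^ m * sl m * (4 * ρ)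
        * ((∑ a ∈ range m, (2 * ρ * ε) ^ a) * (∑ a ∈ range m, (2 * ρ * ε) ^ a)) := by
    have hT1 : ∀ j ∈ range m, ∀ i ∈ range m,
        (ε ^ (m - 1 - j) * ε ^ (m - 1 - i)) * A j i
          ≤ P2 * (1 / 4) ^ m * sl m * (4 * ρ)
            * ((2 * ρ * ε) ^ (m - 1 - j) * (2 * ρ * ε) ^ (m - 1 - i)) := by
      intro j hj i hi
      have hj' := Finset.mem_range.1 hj
      have hi' := Finset.mem_range.1 hi
      exact avg_term1 m j i hj' hi' ε ρ P2 (A j i) (sl (min j i)) (sl m) hε hρ hP2 hslm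
        (hA j i) (hchain (min j i) ((Nat.min_le_left j i).trans hj'.le))
    refine (Finset.sum_le_sum (fun j hj => Finset.sum_le_sum (fun i hi => hT1 j hj i hi))).trans
      (le_of_eq ?_)
    have e1 : ∑ j ∈ range m, ∑ i ∈ range m,
          P2 * (1 / 4) ^ m * sl m * (4 * ρ)
            * ((2 * ρ * ε) ^ (m - 1 - j) * (2 * ρ * ε) ^ (m - 1 - i))
        = P2 * (1 / 4) ^ m * sl m * (4 * ρ)
          * ((∑ j ∈ range m, (2 * ρ * ε) ^ (m - 1 - j))
            * (∑ i ∈ range m, (2 * ρ * ε) ^ (m - 1 - i))) := by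
      rw [Finset.sum_mul_sum, Finset.mul_sum]
      apply Finset.sum_congr rfl
      intro j _
      rw [Finset.mul_sum]
    rw [e1, Finset.sum_range_reflect (fun a => (2 * ρ * ε) ^ a) m]
  have hT3 : ∀ (B : ℕ → ℝ), (∀ j, B j ≤ P2 * (1 / 2) ^ j) →
      (ε ^ m * s) * ∑ j ∈ range m, ε ^ (m - 1 - j) * B j
        ≤ P2 * (1 / 4) ^ m * sl m * (2 * ((2 * ρ * ε) ^ m * s))
          * ∑ a ∈ range m, (2 * ρ * ε) ^ a := by
    intro B hB
    rw [Finset.mul_sum]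
    refine (Finset.sum_le_sum (fun j hj => avg_term3 m j (Finset.mem_range.1 hj) ε ρ s P2 (B j)
      (sl m) hε hρ hs hP2 hslm (hB j) h1m)).trans (le_of_eq ?_)
    rw [← Finset.mul_sum, Finset.sum_range_reflect (fun a => (2 * ρ * ε) ^ a) m]
  have hB1 : ∀ j, A j 0 ≤ P2 * (1 / 2) ^ j := by
    intro j
    have := hA j 0
    rwa [Nat.min_zero, hsl0, mul_one, Nat.add_zero] at this
  have hB2 : ∀ i, A 0 i ≤ P2 * (1 / 2) ^ i := by
    intro i
    have := hA 0 i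
    rwa [Nat.zero_min, hsl0, mul_one, Nat.zero_add] at this
  have hS2 := hT3 (fun j => A j 0) hB1
  have hS3 := hT3 (fun i => A 0 i) hB2
  have hS4 := avg_term4 m ε ρ s P2 (sl m) hε hρ hP2 h1m
  have hfin := avg_fin2 (P2 * (1 / 4) ^ m * sl m) ρ (∑ a ∈ range m, (2 * ρ * ε) ^ a) Gb
    ((2 * ρ * ε) ^ m * s) ub hK00 hρ0 hGs0 hGsb hu00 hu0b
  have hS1' := mul_le_mul_of_nonneg_left hS1 (by norm_num : (0 : ℝ) ≤ 1 / 2)
  exact (add_le_add (add_le_add (add_le_add hS1' hS2) hS3) hS4).trans hfin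

variable {V : Type*} [Fintype V] [DecidableEq V]

/-- the two sides of a colouring cover the vertex set -/
lemma sd_card (g : V → V) (χ : V → Bool) :
    (sd1 g χ).card + (sd2 g χ).card = Fintype.card V := by
  have h1 : sd1 g χ = (sd2 g χ)ᶜ := by
    ext z
    rw [Finset.mem_compl, mem_sd1, mem_sd2]
  rw [h1, add_comm]
  exact Finset.card_add_card_compl _

/-- square roots of the densities of the two sides -/
lemma sd_rq [Nonempty V] (g : V → V) (χ : V → Bool) :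
    ∃ r1 r2 : ℝ, 0 ≤ r1 ∧ 0 ≤ r2 ∧ r1 ≤ 1 ∧ r2 ≤ 1 ∧ r1 * r2 ≤ 1 / 2
      ∧ ((sd1 g χ).card : ℝ) ≤ r1 ^ 2 * (Fintype.card V : ℝ)
      ∧ ((sd2 g χ).card : ℝ) ≤ r2 ^ 2 * (Fintype.card V : ℝ) := by
  have hN : (0 : ℝ) < (Fintype.card V : ℝ) := by exact_mod_cast Fintype.card_pos
  have hc := sd_card g χ
  have hcR : ((sd1 g χ).card : ℝ) + ((sd2 g χ).card : ℝ) = (Fintype.card V : ℝ) := by
    exact_mod_cast hc
  set a : ℝ := ((sd1 g χ).card : ℝ) / (Fintype.card V : ℝ) with ha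
  set b : ℝ := ((sd2 g χ).card : ℝ) / (Fintype.card V : ℝ) with hb
  have ha0 : 0 ≤ a := by positivity
  have hb0 : 0 ≤ b := by positivity
  have hab : a + b = 1 := by
    rw [ha, hb, ← add_div, hcR, div_self hN.ne']
  have hsa : Real.sqrt a ^ 2 = a := Real.sq_sqrt ha0
  have hsb : Real.sqrt b ^ 2 = b := Real.sq_sqrt hb0
  have hra : 0 ≤ Real.sqrt a := Real.sqrt_nonneg a
  have hrb : 0 ≤ Real.sqrt b := Real.sqrt_nonneg b
  refine ⟨Real.sqrt a, Real.sqrt b, hra, hrb, ?_, ?_, ?_, ?_, ?_⟩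
  · have h : Real.sqrt a ^ 2 ≤ 1 ^ 2 := by rw [hsa]; linarith
    exact (abs_le_of_sq_le_sq' h (by norm_num)).2
  · have h : Real.sqrt b ^ 2 ≤ 1 ^ 2 := by rw [hsb]; linarith
    exact (abs_le_of_sq_le_sq' h (by norm_num)).2
  · have h : (Real.sqrt a * Real.sqrt b) ^ 2 ≤ (1 / 2) ^ 2 := by
      rw [mul_pow, hsa, hsb]
      nlinarith [sq_nonneg (a - b)]
    exact (abs_le_of_sq_le_sq' h (by norm_num)).2
  · rw [hsa, ha, div_mul_cancel₀ _ hN.ne']
  · rw [hsb, hb, div_mul_cancel₀ _ hN.ne']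

variable {G : SimpleGraph V} [DecidableRel G.Adj] {g : V → V} {d : ℕ} {lam : ℝ}

namespace Ctx

variable (c : Ctx G g d lam)
include c

/-- the junction edge, averaged over all colourings, with the density-aware norm bound -/
lemma avg_junction2 (hfix : ∀ x, g x ≠ x) (m : ℕ) (F : Finset V) (a b : V)
    (ρ Gb ub : ℝ) (hρ : 1 ≤ ρ) (hGb0 : 0 ≤ Gb)
    (hGb : 1 ≤ Gb * (1 - 2 * ρ * (lam / d))) (hub0 : 0 ≤ ub)
    (hub : (Fintype.card V : ℝ) * (4 * ρ ^ 2 * (lam / d) ^ 2) ^ m ≤ ub ^ 2)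
    (hch : ∀ j, j < m → S G g d j F a b (fun _ _ _ => 1)
      ≤ ρ * S G g d (j + 1) F a b (fun _ _ _ => 1)) :
    (1 / 4 : ℝ) ^ m * S G g d m F a b (fun _ _ _ => 1)
        * ((d : ℝ) - lam * (2 * ρ * Gb ^ 2 + 4 * Gb * ub + ub ^ 2)) / (Fintype.card V : ℝ)
      ≤ S G g d m F a b (fun _ a b => if G.Adj a b then 1 else 0) := by
  classical
  have hV : Nonempty V := ⟨a⟩
  have hN : (0 : ℝ) < (Fintype.card V : ℝ) := by exact_mod_cast Fintype.card_pos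
  have hε0 := c.ep_nonneg
  have hlam := c.lam0
  set s : ℝ := Real.sqrt (Fintype.card V : ℝ) with hsdef
  have hs0 : 0 ≤ s := Real.sqrt_nonneg _
  have hs2 : s ^ 2 = (Fintype.card V : ℝ) := Real.sq_sqrt hN.le
  have hP2 : (0 : ℝ) < (2 : ℝ) ^ Fintype.card V := by positivity
  have he0 : 0 ≤ (lam / d) ^ m * s := mul_nonneg (pow_nonneg hε0 m) hs0
  have hpt : ∀ χ : V → Bool,
      ((d : ℝ) * (ptot G g d (sd1 g χ) m F a * ptot G g d (sd2 g χ) m F b)
        - lam * (1 / 2 * ((∑ j ∈ range m, (lam / d) ^ (m - 1 - j) * ptot G g d (sd1 g χ) j F a)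
              * (∑ i ∈ range m, (lam / d) ^ (m - 1 - i) * ptot G g d (sd2 g χ) i F b))
            + (lam / d) ^ m * s
              * (∑ j ∈ range m, (lam / d) ^ (m - 1 - j) * ptot G g d (sd1 g χ) j F a)
            + (lam / d) ^ m * s
              * (∑ i ∈ range m, (lam / d) ^ (m - 1 - i) * ptot G g d (sd2 g χ) i F b)
            + ((lam / d) ^ m * s) ^ 2))
          / (Fintype.card V : ℝ)
      ≤ S G g d m F a b (fun _ a b => if G.Adj a b then 1 else 0) := by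
    intro χ
    obtain ⟨r1, r2, hr1, hr2, hr1', hr2', hr12, hO1, hO2⟩ := sd_rq g χ
    obtain ⟨hT10, hT1⟩ := c.pc_norm_q (Om := sd1 g χ) r1 s hr1 hO1 hs0 hs2.ge F a m
    obtain ⟨hT20, hT2⟩ := c.pc_norm_q (Om := sd2 g χ) r2 s hr2 hO2 hs0 hs2.ge F b m
    have hj := c.junction_n (fun z => pc G g d (sd1 g χ) m F a z)
      (fun z => pc G g d (sd2 g χ) m F b z)
      (fun z => pc_nonneg _ _ _ _) (fun z => pc_nonneg _ _ _ _)
      (TQ G g d lam (sd1 g χ) r1 s F a m) (TQ G g d lam (sd2 g χ) r2 s F b m) hT10 hT20 hT1 hT2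
    have hJ := JJ_le_S (G := G) (g := g) (d := d) (sd1 g χ) (sd2 g χ) sd_disj
      (sd1_closed c.inv) (sd2_closed c.inv) m F a b
    have hj' : ((d : ℝ) * (ptot G g d (sd1 g χ) m F a * ptot G g d (sd2 g χ) m F b)
        - lam * (TQ G g d lam (sd1 g χ) r1 s F a m * TQ G g d lam (sd2 g χ) r2 s F b m))
          / (Fintype.card V : ℝ) ≤ JJ G g d (sd1 g χ) (sd2 g χ) m F a b := hj
    refine le_trans ?_ (hj'.trans hJ)
    apply div_le_div_of_nonneg_right _ hN.le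
    have hU1 : 0 ≤ ∑ j ∈ range m, (lam / d) ^ (m - 1 - j) * ptot G g d (sd1 g χ) j F a :=
      Finset.sum_nonneg (fun j _ => mul_nonneg (pow_nonneg hε0 _) (ptot_nonneg _ _ _))
    have hU2 : 0 ≤ ∑ i ∈ range m, (lam / d) ^ (m - 1 - i) * ptot G g d (sd2 g χ) i F b :=
      Finset.sum_nonneg (fun j _ => mul_nonneg (pow_nonneg hε0 _) (ptot_nonneg _ _ _))
    rw [TQ_eq, TQ_eq]
    set U1 : ℝ := ∑ j ∈ range m, (lam / d) ^ (m - 1 - j) * ptot G g d (sd1 g χ) j F a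
    set U2 : ℝ := ∑ i ∈ range m, (lam / d) ^ (m - 1 - i) * ptot G g d (sd2 g χ) i F b
    set e : ℝ := (lam / d) ^ m * s
    have ha1 : r1 * r2 * (U1 * U2) ≤ 1 / 2 * (U1 * U2) :=
      mul_le_mul_of_nonneg_right hr12 (mul_nonneg hU1 hU2)
    have ha2 : e * (r1 * U1) ≤ e * U1 :=
      mul_le_mul_of_nonneg_left (mul_le_of_le_one_left hU1 hr1') he0
    have ha3 : e * (r2 * U2) ≤ e * U2 :=
      mul_le_mul_of_nonneg_left (mul_le_of_le_one_left hU2 hr2') he0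
    have hTQ : (r1 * U1 + e) * (r2 * U2 + e)
        ≤ 1 / 2 * (U1 * U2) + e * U1 + e * U2 + e ^ 2 := by
      have e4 : (r1 * U1 + e) * (r2 * U2 + e)
          = r1 * r2 * (U1 * U2) + e * (r1 * U1) + e * (r2 * U2) + e ^ 2 := by ring
      rw [e4]
      linarith
    have h9 := mul_le_mul_of_nonneg_left hTQ hlam
    linarith
  have hsum := Finset.sum_le_sum (fun χ (_ : χ ∈ (univ : Finset (V → Bool))) => hpt χ)
  rw [Finset.sum_const, Finset.card_univ, Fintype.card_fun, Fintype.card_bool,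
    nsmul_eq_mul] at hsum
  push_cast at hsum
  rw [← Finset.sum_div, Finset.sum_sub_distrib, ← Finset.mul_sum, ← Finset.mul_sum] at hsum
  have hAA : ∑ χ : V → Bool, ptot G g d (sd1 g χ) m F a * ptot G g d (sd2 g χ) m F b
      = AA G g d m m F a b := rfl
  rw [hAA, AA_diag c.inv hfix m F a b] at hsum
  have hZ := sum_Z_expand m (lam / d) ((lam / d) ^ m * s) (1 / 2)
    (fun (χ : V → Bool) j => ptot G g d (sd1 g χ) j F a)
    (fun (χ : V → Bool) i => ptot G g d (sd2 g χ) i F b)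
    (fun χ => ptot_zero _ _) (fun χ => ptot_zero _ _)
  have hcard : (Fintype.card (V → Bool) : ℝ) = (2 : ℝ) ^ Fintype.card V := by
    rw [Fintype.card_fun, Fintype.card_bool]
    push_cast
    ring
  rw [hcard] at hZ
  have hnum := avg_num2 m (lam / d) ρ s Gb ub ((2 : ℝ) ^ Fintype.card V)
    (fun j i => AA G g d j i F a b) (fun l => S G g d l F a b (fun _ _ _ => 1))
    hε0 hρ hs0 hP2.le hGb0 hGb hub0 (by rw [hs2]; exact hub) rfl
    (c.S_one_nonneg m F a b) hch (fun j i => c.AA_le hfix j i F a b)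
  have hTT : ∑ χ : V → Bool,
        (1 / 2 * ((∑ j ∈ range m, (lam / d) ^ (m - 1 - j) * ptot G g d (sd1 g χ) j F a)
              * (∑ i ∈ range m, (lam / d) ^ (m - 1 - i) * ptot G g d (sd2 g χ) i F b))
            + (lam / d) ^ m * s
              * (∑ j ∈ range m, (lam / d) ^ (m - 1 - j) * ptot G g d (sd1 g χ) j F a)
            + (lam / d) ^ m * s
              * (∑ i ∈ range m, (lam / d) ^ (m - 1 - i) * ptot G g d (sd2 g χ) i F b)
            + ((lam / d) ^ m * s) ^ 2)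
      ≤ (2 : ℝ) ^ Fintype.card V * (1 / 4) ^ m * S G g d m F a b (fun _ _ _ => 1)
        * (2 * ρ * Gb ^ 2 + 4 * Gb * ub + ub ^ 2) := by
    rw [hZ]
    exact hnum
  have h1 := mul_le_mul_of_nonneg_left hTT hlam
  have h2 : (2 : ℝ) ^ Fintype.card V * ((1 / 4 : ℝ) ^ m * S G g d m F a b (fun _ _ _ => 1)
        * ((d : ℝ) - lam * (2 * ρ * Gb ^ 2 + 4 * Gb * ub + ub ^ 2)) / (Fintype.card V : ℝ))
      ≤ (2 : ℝ) ^ Fintype.card V
        * S G g d m F a b (fun _ a b => if G.Adj a b then 1 else 0) := by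
    refine le_trans ?_ hsum
    rw [← mul_div_assoc]
    apply div_le_div_of_nonneg_right _ hN.le
    linarith
  exact le_of_mul_le_mul_left h2 hP2

end Ctx

/-- the counting bound obtained from the averaged junction with the density-aware norm
bound, for a general chain ratio -/
theorem caseR2_count (G : SimpleGraph V) [DecidableRel G.Adj] (d : ℕ) (hd : 0 < d)
    (hreg : G.IsRegularOfDegree d) (lam : ℝ) (hlam : 0 ≤ lam)
    (hspec : ∀ x : V → ℝ, ∑ v, x v = 0 →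
      ∑ v, ((G.adjMatrix ℝ).mulVec x v) ^ 2 ≤ lam ^ 2 * ∑ v, x v ^ 2)
    (m : ℕ) (ρ Gb ub : ℝ) (hρ : 1 ≤ ρ) (hGb0 : 0 ≤ Gb)
    (hGb : 1 ≤ Gb * (1 - 2 * ρ * (lam / d))) (hub0 : 0 ≤ ub)
    (hub : (Fintype.card V : ℝ) * (4 * ρ ^ 2 * (lam / d) ^ 2) ^ m ≤ ub ^ 2)
    (hpos : 0 ≤ (d : ℝ) - lam * (2 * ρ * Gb ^ 2 + 4 * Gb * ub + ub ^ 2))
    (hch : ∀ (g : V → V), Ctx G g d lam → ∀ (F₀ : Finset V), F₀.card ≤ 2 → ∀ (y y' : V) (j : ℕ),
      j < m → S G g d j F₀ y y' (fun _ _ _ => 1)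
        ≤ ρ * S G g d (j + 1) F₀ y y' (fun _ _ _ => 1)) :
    ((NearInv G).card : ℝ)
        * ((1 / 4 : ℝ) ^ m * (1 / ρ) ^ m
          * ((d : ℝ) - lam * (2 * ρ * Gb ^ 2 + 4 * Gb * ub + ub ^ 2)) / (Fintype.card V : ℝ))
      ≤ (Fintype.card V : ℝ) * ((PMinv G).card : ℝ) := by
  apply count_main d hd hreg m
  intro s hs
  rw [mem_St] at hs
  obtain ⟨f, u, v⟩ := s
  obtain ⟨hf, hh, huv⟩ := hs
  simp only at hf hh huv
  obtain ⟨gi, gu, gv, gag⟩ := cls_inv hf hh huv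
  have c : Ctx G (cls f u v) d lam := ⟨hreg, gi, hd, hlam, hspec⟩
  have hfix : ∀ x, cls f u v x ≠ x := by
    intro x hx
    by_cases h1 : x = u
    · rw [h1, gu] at hx
      exact huv hx.symm
    · by_cases h2 : x = v
      · rw [h2, gv] at hx
        exact huv hx
      · have h3 : x ∉ ({u, v} : Finset V) := by simp [h1, h2]
        have h4 := gag x h3
        rw [hx] at h4
        have h5 : x ∈ holes f := mem_holes.2 h4
        rw [hh] at h5
        exact h3 h5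
  have hPI : PInv G (cls f u v) f {u, v} u v := by
    refine ⟨hf, hh, huv, by simp, by simp, ?_, gag⟩
    intro x hx
    simp only [mem_insert, mem_singleton] at hx ⊢
    rcases hx with hx | hx
    · right; rw [hx, gu]
    · left; rw [hx, gv]
  have hcard : ({u, v} : Finset V).card ≤ 2 := Finset.card_le_two
  have hchain := hch (cls f u v) c {u, v} hcard u v
  have h1 := c.avg_junction2 hfix m {u, v} u v ρ Gb ub hρ hGb0 hGb hub0 hub hchain
  have h4 := S_le_wc c m f {u, v} u v hPI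
  refine le_trans ?_ (h1.trans h4)
  have hρ0 : (0 : ℝ) < ρ := by linarith
  have hs1 : (1 : ℝ) ≤ ρ ^ m * S G (cls f u v) d m {u, v} u v (fun _ _ _ => 1) :=
    pow_chain (fun l => S G (cls f u v) d l {u, v} u v (fun _ _ _ => 1)) ρ hρ0.le m hchain
  have hs2 : (1 / ρ) ^ m ≤ S G (cls f u v) d m {u, v} u v (fun _ _ _ => 1) := by
    rw [one_div_pow, div_le_iff₀ (by positivity)]
    linarith
  have hV : Nonempty V := ⟨u⟩
  have hN : (0 : ℝ) < (Fintype.card V : ℝ) := by exact_mod_cast Fintype.card_pos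
  apply div_le_div_of_nonneg_right _ hN.le
  apply mul_le_mul_of_nonneg_right _ hpos
  exact mul_le_mul_of_nonneg_left hs2 (by positivity)

end Vale.Agent.Lib.P308
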