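import Vale.Agent.Lib.P308.WJunc

namespace Vale.Agent.Lib.P308

open Finset

set_option linter.unusedSectionVars false
set_option linter.unusedVariables false

variable {V : Type*} [Fintype V] [DecidableEq V]

/-- the counting bound obtained from the averaged junction, for a general chain ratio -/
theorem caseR_count (G : SimpleGraph V) [DecidableRel G.Adj] (d : ℕ) (hd : 0 < d)
    (hreg : G.IsRegularOfDegree d) (lam : ℝ) (hlam : 0 ≤ lam)
    (hspec : ∀ x : V → ℝ, ∑ v, x v = 0 →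
      ∑ v, ((G.adjMatrix ℝ).mulVec x v) ^ 2 ≤ lam ^ 2 * ∑ v, x v ^ 2)
    (m : ℕ) (ρ Gb ub : ℝ) (hρ : 1 ≤ ρ) (hGb0 : 0 ≤ Gb)
    (hGb : 1 ≤ Gb * (1 - 2 * ρ * (lam / d))) (hub0 : 0 ≤ ub)
    (hub : (Fintype.card V : ℝ) * (4 * ρ ^ 2 * (lam / d) ^ 2) ^ m ≤ ub ^ 2)
    (hpos : 0 ≤ (d : ℝ) - lam * (4 * ρ * Gb ^ 2 + 4 * Gb * ub + ub ^ 2))
    (hch : ∀ (g : V → V), Ctx G g d lam → ∀ (F₀ : Finset V), F₀.card ≤ 2 → ∀ (y y' : V) (j : ℕ),
      j < m → S G g d j F₀ y y' (fun _ _ _ => 1)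
        ≤ ρ * S G g d (j + 1) F₀ y y' (fun _ _ _ => 1)) :
    ((NearInv G).card : ℝ)
        * ((1 / 4 : ℝ) ^ m * (1 / ρ) ^ m
          * ((d : ℝ) - lam * (4 * ρ * Gb ^ 2 + 4 * Gb * ub + ub ^ 2)) / (Fintype.card V : ℝ))
      ≤ (Fintype.card V : ℝ) * ((PMinv G).card : ℝ) := by
  apply count_main d hd hreg m
  intro s hs
  rw [mem_St] at hs
  obtain ⟨f, u, v⟩ := s
  obtain ⟨hf, hh, huv⟩ := hs
  simp only at hf hh huv
  obtain ⟨gi, gu, gv, gag⟩ := cls_inv hf hh huv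
  have c : Ctx G (cls f u v) d lam := ⟨hreg, gi, hd, hlam, hspec⟩
  have hfix : ∀ x, cls f u v x ≠ x := by
    intro x hx
    by_cases h1 : x = u
    · rw [h1, gu] at hx
      exact huv hx.symm
    · by_cases h2 : x = v
      · rw [h2, gv] at hx
        exact huv hx
      · have h3 : x ∉ ({u, v} : Finset V) := by simp [h1, h2]
        have h4 := gag x h3
        rw [hx] at h4
        have h5 : x ∈ holes f := mem_holes.2 h4
        rw [hh] at h5
        exact h3 h5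
  have hPI : PInv G (cls f u v) f {u, v} u v := by
    refine ⟨hf, hh, huv, by simp, by simp, ?_, gag⟩
    intro x hx
    simp only [mem_insert, mem_singleton] at hx ⊢
    rcases hx with hx | hx
    · right; rw [hx, gu]
    · left; rw [hx, gv]
  have hcard : ({u, v} : Finset V).card ≤ 2 := Finset.card_le_two
  have hchain := hch (cls f u v) c {u, v} hcard u v
  have h1 := c.avg_junction hfix m {u, v} u v ρ Gb ub hρ hGb0 hGb hub0 hub hchain
  have h4 := S_le_wc c m f {u, v} u v hPI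
  refine le_trans ?_ (h1.trans h4)
  have hρ0 : (0 : ℝ) < ρ := by linarith
  have hs1 : (1 : ℝ) ≤ ρ ^ m * S G (cls f u v) d m {u, v} u v (fun _ _ _ => 1) :=
    pow_chain (fun l => S G (cls f u v) d l {u, v} u v (fun _ _ _ => 1)) ρ hρ0.le m hchain
  have hs2 : (1 / ρ) ^ m ≤ S G (cls f u v) d m {u, v} u v (fun _ _ _ => 1) := by
    rw [one_div_pow, div_le_iff₀ (by positivity)]
    linarith
  have hV : Nonempty V := ⟨u⟩
  have hN : (0 : ℝ) < (Fintype.card V : ℝ) := by exact_mod_cast Fintype.card_pos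
  apply div_le_div_of_nonneg_right _ hN.le
  apply mul_le_mul_of_nonneg_right _ hpos
  exact mul_le_mul_of_nonneg_left hs2 (by positivity)

/-- the chain of the pair walk with ratio two, from the sharp one-step bounds -/
lemma chain_two (G : SimpleGraph V) [DecidableRel G.Adj] (d : ℕ) (lam : ℝ) (m : ℕ)
    (hd : (128 : ℝ) ≤ (d : ℝ)) (hl : 16 * lam ≤ d)
    (hN : 128 * (2 : ℝ) ^ m ≤ (Fintype.card V : ℝ)) :
    ∀ (g : V → V), Ctx G g d lam → ∀ (F₀ : Finset V), F₀.card ≤ 2 → ∀ (y y' : V) (j : ℕ),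
      j < m → S G g d j F₀ y y' (fun _ _ _ => 1)
        ≤ 2 * S G g d (j + 1) F₀ y y' (fun _ _ _ => 1) := by
  intro g c F₀ hF y y'
  have hd' : (0 : ℝ) < (d : ℝ) := by linarith
  have hε0 := c.ep_nonneg
  have hε : lam / (d : ℝ) ≤ 1 / 16 := by
    rw [div_le_iff₀ hd']
    linarith
  have hNpos : (0 : ℝ) < (Fintype.card V : ℝ) := by
    have : (0 : ℝ) < (2 : ℝ) ^ m := by positivity
    linarith
  apply c.gg_steps F₀ hF y y' m (by linarith)
  have e1 : dl (1 / (d : ℝ)) (lam / d) 1 = 1 / (d : ℝ) := by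
    unfold dl
    rw [if_pos (by norm_num)]
  have e2 : DD 2 (1 / (d : ℝ)) (lam / d) 1 = (1 + 2) * (1 / (d : ℝ)) + 2 * 2 ^ 2 * (lam / d) ^ 3 := by
    unfold DD
    rw [if_pos (le_refl 1)]
  rw [e1, e2]
  have h1 : 14 * (1 / (Fintype.card V : ℝ)) * 2 ^ m ≤ 14 / 128 := by
    have h2 : (2 : ℝ) ^ m / (Fintype.card V : ℝ) ≤ 1 / 128 := by
      rw [div_le_iff₀ hNpos]
      linarith
    have e3 : 14 * (1 / (Fintype.card V : ℝ)) * 2 ^ m
        = 14 * ((2 : ℝ) ^ m / (Fintype.card V : ℝ)) := by ring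
    rw [e3]
    linarith
  have h3 : 1 / (d : ℝ) ≤ 1 / 128 := one_div_le_one_div_of_le (by norm_num) hd
  have h4 : (lam / (d : ℝ)) ^ 3 ≤ (1 / 16) ^ 3 := pow_le_pow_left₀ hε0 hε 3
  have h4' : (lam / (d : ℝ)) ^ 3 ≤ 1 / 4096 := by
    refine h4.trans (le_of_eq ?_)
    norm_num
  linarith

end Vale.Agent.Lib.P308
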