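import Vale.Agent.Lib.P308.WMain

namespace Vale.Agent.Lib.P308

open Finset

set_option linter.unusedSectionVars false
set_option linter.unusedVariables false

variable {V : Type*} [Fintype V] [DecidableEq V]

/-- recursive majorant of the (normalized) L2 norm of the confined walk, taking the density of
the side into account -/
noncomputable def TQ (G : SimpleGraph V) [DecidableRel G.Adj] (g : V → V) (d : ℕ) (lam : ℝ)
    (Om : Finset V) (rq s : ℝ) (F : Finset V) (y : V) : ℕ → ℝ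
  | 0 => s
  | (n + 1) => rq * ptot G g d Om n F y + (lam / d) * TQ G g d lam Om rq s F y n

variable {G : SimpleGraph V} [DecidableRel G.Adj] {g : V → V} {d : ℕ} {lam : ℝ}
variable {Om : Finset V}

lemma TQ_succ (rq s : ℝ) (F : Finset V) (y : V) (n : ℕ) :
    TQ G g d lam Om rq s F y (n + 1)
      = rq * ptot G g d Om n F y + (lam / d) * TQ G g d lam Om rq s F y n := rfl

lemma TQ_eq (rq s : ℝ) (F : Finset V) (y : V) (n : ℕ) :
    TQ G g d lam Om rq s F y n
      = rq * ∑ j ∈ range n, (lam / d) ^ (n - 1 - j) * ptot G g d Om j F y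
        + (lam / d) ^ n * s := by
  induction n with
  | zero => simp [TQ]
  | succ n ih =>
    rw [TQ_succ, ih, Finset.sum_range_succ]
    have e : ∀ j ∈ range n, (lam / d) ^ (n + 1 - 1 - j) * ptot G g d Om j F y
        = (lam / d) * ((lam / d) ^ (n - 1 - j) * ptot G g d Om j F y) := by
      intro j hj
      have hj' := Finset.mem_range.1 hj
      have h1 : n + 1 - 1 - j = (n - 1 - j) + 1 := by omega
      rw [h1, pow_succ]; ring
    rw [Finset.sum_congr rfl e, ← Finset.mul_sum]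
    have e2 : n + 1 - 1 - n = 0 := by omega
    rw [e2, pow_zero, one_mul, pow_succ]
    ring

/-- after at least one round the confined walk sits in its side -/
lemma pc_supp (n : ℕ) : ∀ (F : Finset V) (y w : V), w ∉ Om →
    pc G g d Om (n + 1) F y w = 0 := by
  induction n with
  | zero =>
    intro F y w hw
    rw [pc_succ]
    apply Finset.sum_eq_zero
    intro z hz
    rw [pc_zero, if_neg, mul_zero]
    intro hzw
    rw [Finset.mem_sdiff] at hz
    exact hw (hzw ▸ hz.1)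
  | succ n ih =>
    intro F y w hw
    rw [pc_succ]
    apply Finset.sum_eq_zero
    intro z _
    rw [ih _ _ _ hw, mul_zero]

namespace Ctx

variable (c : Ctx G g d lam)
include c

/-- one round of the walk followed by the restriction to a set `O` : the uniform part of the
L2 norm only pays for the density of `O` -/
lemma side_norm [Nonempty V] (x : V → ℝ) (hx : ∀ z, 0 ≤ x z) (O : Finset V) (rq T : ℝ)
    (hrq : 0 ≤ rq) (hO : (O.card : ℝ) ≤ rq ^ 2 * (Fintype.card V : ℝ)) (hT0 : 0 ≤ T)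
    (hT : (Fintype.card V : ℝ) * ∑ z, x z ^ 2 ≤ T ^ 2) :
    (Fintype.card V : ℝ) * ∑ w ∈ O, (∑ z, x z * pw1 G g d z w) ^ 2
      ≤ (rq * (∑ z, x z) + (lam / d) * T) ^ 2 := by
  have hN : (0 : ℝ) < (Fintype.card V : ℝ) := by exact_mod_cast Fintype.card_pos
  have hε0 := c.ep_nonneg
  have hP0 : 0 ≤ ∑ z, x z := Finset.sum_nonneg (fun z _ => hx z)
  have h1 := c.tcontr x
  have e2 := c.sum_sq_sub x
  set P : ℝ := ∑ z, x z with hP
  set m : ℝ := P / (Fintype.card V : ℝ) with hm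
  set R : ℝ := ∑ w, (∑ z, x z * pw1 G g d z w - m) ^ 2 with hRdef
  have hR0 : 0 ≤ R := Finset.sum_nonneg (fun w _ => sq_nonneg _)
  have hR : (Fintype.card V : ℝ) * R ≤ (lam / d) ^ 2 * T ^ 2 := by
    have h3 : R ≤ (lam / d) ^ 2 * ∑ z, x z ^ 2 := by
      refine h1.trans ?_
      apply mul_le_mul_of_nonneg_left _ (sq_nonneg _)
      rw [e2]
      have : 0 ≤ P ^ 2 / (Fintype.card V : ℝ) := by positivity
      linarith
    have h4 := mul_le_mul_of_nonneg_left h3 hN.le
    have h5 := mul_le_mul_of_nonneg_left hT (sq_nonneg (lam / d))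
    have e : (Fintype.card V : ℝ) * ((lam / d) ^ 2 * ∑ z, x z ^ 2)
        = (lam / d) ^ 2 * ((Fintype.card V : ℝ) * ∑ z, x z ^ 2) := by ring
    rw [e] at h4
    exact h4.trans h5
  set A : ℝ := ∑ w ∈ O, (∑ z, x z * pw1 G g d z w - m) with hA
  have hRO : ∑ w ∈ O, (∑ z, x z * pw1 G g d z w - m) ^ 2 ≤ R :=
    Finset.sum_le_sum_of_subset_of_nonneg (Finset.subset_univ O) (fun w _ _ => sq_nonneg _)
  have hCS : A ^ 2 ≤ (O.card : ℝ) * ∑ w ∈ O, (∑ z, x z * pw1 G g d z w - m) ^ 2 := by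
    have h := Finset.sum_mul_sq_le_sq_mul_sq O (fun _ => (1 : ℝ))
      (fun w => ∑ z, x z * pw1 G g d z w - m)
    simp only [one_mul, one_pow, Finset.sum_const, nsmul_eq_mul, mul_one] at h
    exact h
  have hA2 : A ^ 2 ≤ (rq * ((lam / d) * T)) ^ 2 := by
    have h6 : A ^ 2 ≤ (O.card : ℝ) * R :=
      hCS.trans (mul_le_mul_of_nonneg_left hRO (Nat.cast_nonneg _))
    have h7 : (O.card : ℝ) * R ≤ rq ^ 2 * (Fintype.card V : ℝ) * R :=
      mul_le_mul_of_nonneg_right hO hR0
    have h8 : rq ^ 2 * ((Fintype.card V : ℝ) * R) ≤ rq ^ 2 * ((lam / d) ^ 2 * T ^ 2) :=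
      mul_le_mul_of_nonneg_left hR (sq_nonneg _)
    have e : (rq * ((lam / d) * T)) ^ 2 = rq ^ 2 * ((lam / d) ^ 2 * T ^ 2) := by ring
    rw [e]
    linarith
  have hA1 : A ≤ rq * ((lam / d) * T) := (abs_le_of_sq_le_sq' hA2 (by positivity)).2
  have hexp : ∑ w ∈ O, (∑ z, x z * pw1 G g d z w) ^ 2
      = (O.card : ℝ) * m ^ 2 + 2 * m * A
        + ∑ w ∈ O, (∑ z, x z * pw1 G g d z w - m) ^ 2 := by
    have e : ∀ w ∈ O, (∑ z, x z * pw1 G g d z w) ^ 2
        = m ^ 2 + 2 * m * (∑ z, x z * pw1 G g d z w - m)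
          + (∑ z, x z * pw1 G g d z w - m) ^ 2 := by
      intro w _; ring
    rw [Finset.sum_congr rfl e, Finset.sum_add_distrib, Finset.sum_add_distrib,
      Finset.sum_const, nsmul_eq_mul, ← Finset.mul_sum]
  rw [hexp]
  have k1 : (Fintype.card V : ℝ) * ((O.card : ℝ) * m ^ 2) ≤ rq ^ 2 * P ^ 2 := by
    have e : (Fintype.card V : ℝ) * ((O.card : ℝ) * m ^ 2)
        = (O.card : ℝ) * P ^ 2 / (Fintype.card V : ℝ) := by
      rw [hm]; field_simp
    rw [e, div_le_iff₀ hN]
    have := mul_le_mul_of_nonneg_right hO (sq_nonneg P)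
    linarith
  have k2 : (Fintype.card V : ℝ) * (2 * m * A) ≤ 2 * P * (rq * ((lam / d) * T)) := by
    have e : (Fintype.card V : ℝ) * (2 * m * A) = 2 * P * A := by
      rw [hm]; field_simp
    rw [e]
    exact mul_le_mul_of_nonneg_left hA1 (by positivity)
  have k3 : (Fintype.card V : ℝ) * ∑ w ∈ O, (∑ z, x z * pw1 G g d z w - m) ^ 2
      ≤ (lam / d) ^ 2 * T ^ 2 :=
    (mul_le_mul_of_nonneg_left hRO hN.le).trans hR
  have e3 : (rq * P + (lam / d) * T) ^ 2
      = rq ^ 2 * P ^ 2 + 2 * P * (rq * ((lam / d) * T)) + (lam / d) ^ 2 * T ^ 2 := by ring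
  rw [e3, mul_add, mul_add]
  linarith

/-- the L2 norm of the confined walk is dominated by the majorant `TQ` -/
lemma pc_norm_q (rq s : ℝ) (hrq : 0 ≤ rq)
    (hO : (Om.card : ℝ) ≤ rq ^ 2 * (Fintype.card V : ℝ)) (hs0 : 0 ≤ s)
    (hs : (Fintype.card V : ℝ) ≤ s ^ 2) (F : Finset V) (y : V) (n : ℕ) :
    0 ≤ TQ G g d lam Om rq s F y n ∧
      (Fintype.card V : ℝ) * ∑ w, pc G g d Om n F y w ^ 2
        ≤ (TQ G g d lam Om rq s F y n) ^ 2 := by
  have : Nonempty V := ⟨y⟩
  have hN : (0 : ℝ) < (Fintype.card V : ℝ) := by exact_mod_cast Fintype.card_pos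
  induction n with
  | zero =>
    refine ⟨hs0, ?_⟩
    have h2 : ∑ w, pc G g d Om 0 F y w ^ 2 = 1 := by
      simp only [pc_zero]
      rw [Finset.sum_eq_single y]
      · simp
      · intro b _ hb; simp [Ne.symm hb]
      · intro h; exact absurd (Finset.mem_univ y) h
    rw [h2, mul_one]
    exact hs
  | succ n ih =>
    obtain ⟨ih0, ih1⟩ := ih
    have hP := ptot_nonneg (G := G) (g := g) (d := d) (Om := Om) n F y
    have hε := c.ep_nonneg
    rw [TQ_succ]
    have hεT : 0 ≤ (lam / d) * TQ G g d lam Om rq s F y n := mul_nonneg hε ih0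
    refine ⟨by positivity, ?_⟩
    have h1 : ∑ w, pc G g d Om (n + 1) F y w ^ 2
        = ∑ w ∈ Om, pc G g d Om (n + 1) F y w ^ 2 := by
      symm
      apply Finset.sum_subset (Finset.subset_univ Om)
      intro w _ hw
      rw [pc_supp n F y w hw]
      simp
    have h2 : ∑ w ∈ Om, pc G g d Om (n + 1) F y w ^ 2
        ≤ ∑ w ∈ Om, (∑ z, pc G g d Om n F y z * pw1 G g d z w) ^ 2 := by
      apply Finset.sum_le_sum
      intro w _
      exact pow_le_pow_left₀ (pc_nonneg _ _ _ _) (pc_step n F y w) 2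
    have h3 := c.side_norm (fun z => pc G g d Om n F y z) (fun z => pc_nonneg _ _ _ _) Om rq
      (TQ G g d lam Om rq s F y n) hrq hO ih0 ih1
    rw [h1]
    refine (mul_le_mul_of_nonneg_left h2 hN.le).trans ?_
    exact h3

end Ctx

end Vale.Agent.Lib.P308
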