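import Vale.Agent.Lib.P308.YColl

namespace Vale.Agent.Lib.P308

open Finset

set_option linter.unusedSectionVars false
set_option linter.unusedVariables false

variable {V : Type*} [Fintype V] [DecidableEq V]

/-- Cauchy-Schwarz with normalized L2 majorants -/
lemma cs_norm (x y : V → ℝ) (TA TB : ℝ) (hTA : 0 ≤ TA) (hTB : 0 ≤ TB)
    (hA : (Fintype.card V : ℝ) * ∑ z, x z ^ 2 ≤ TA ^ 2)
    (hB : (Fintype.card V : ℝ) * ∑ z, y z ^ 2 ≤ TB ^ 2) :
    (Fintype.card V : ℝ) * ∑ z, x z * y z ≤ TA * TB := by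
  have hN : (0 : ℝ) ≤ (Fintype.card V : ℝ) := by positivity
  have hcs := Finset.sum_mul_sq_le_sq_mul_sq univ x y
  have hx2 : 0 ≤ ∑ z, x z ^ 2 := Finset.sum_nonneg (fun z _ => sq_nonneg _)
  have hy2 : 0 ≤ ∑ z, y z ^ 2 := Finset.sum_nonneg (fun z _ => sq_nonneg _)
  have h1 : ((Fintype.card V : ℝ) * ∑ z, x z * y z) ^ 2 ≤ (TA * TB) ^ 2 := by
    calc ((Fintype.card V : ℝ) * ∑ z, x z * y z) ^ 2
        = (Fintype.card V : ℝ) ^ 2 * (∑ z, x z * y z) ^ 2 := by ring
      _ ≤ (Fintype.card V : ℝ) ^ 2 * ((∑ z, x z ^ 2) * (∑ z, y z ^ 2)) :=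
          mul_le_mul_of_nonneg_left hcs (sq_nonneg _)
      _ = ((Fintype.card V : ℝ) * ∑ z, x z ^ 2) * ((Fintype.card V : ℝ) * ∑ z, y z ^ 2) := by
          ring
      _ ≤ TA ^ 2 * TB ^ 2 := mul_le_mul hA hB (mul_nonneg hN hy2) (sq_nonneg _)
      _ = (TA * TB) ^ 2 := by ring
  exact (abs_le_of_sq_le_sq' h1 (mul_nonneg hTA hTB)).2

/-- linearity of the junction functional -/
lemma PLF.junction_lin {E : (Finset V → V → V → ℝ) → ℝ} (hE : PLF E) (m : ℕ) (dd ll NN : ℝ)
    (P T : Finset V → V → V → ℝ) (w : ℕ → ℕ → ℝ) (C : ℕ → ℕ → Finset V → V → V → ℝ) :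
    E (fun F a b => (dd * P F a b - ll * T F a b) / NN
        - dd * ∑ i ∈ range m, ∑ j ∈ range m, w i j * C i j F a b)
      = dd / NN * E P - ll / NN * E T
        - dd * ∑ i ∈ range m, ∑ j ∈ range m, w i j * E (C i j) := by
  have e : (fun F a b => (dd * P F a b - ll * T F a b) / NN
        - dd * ∑ i ∈ range m, ∑ j ∈ range m, w i j * C i j F a b)
      = (fun F a b => (dd / NN * P F a b - ll / NN * T F a b)
        - dd * ∑ i ∈ range m, ∑ j ∈ range m, w i j * C i j F a b) := by
    funext F a b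
    ring
  rw [e, hE.sub (fun F a b => dd / NN * P F a b - ll / NN * T F a b)
      (fun F a b => dd * ∑ i ∈ range m, ∑ j ∈ range m, w i j * C i j F a b),
    hE.sub (fun F a b => dd / NN * P F a b) (fun F a b => ll / NN * T F a b),
    hE.smul (dd / NN) P, hE.smul (ll / NN) T,
    hE.smul dd (fun F a b => ∑ i ∈ range m, ∑ j ∈ range m, w i j * C i j F a b),
    hE.sum_sum_smul (range m) (range m) w C]

/-- aggregated majorant of the expected product of the two L2 majorants -/
noncomputable def AggY (G : SimpleGraph V) [DecidableRel G.Adj] (g : V → V) (d : ℕ) (lam : ℝ)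
    (E : (Finset V → V → V → ℝ) → ℝ) (s Gg : ℝ) (n n' : ℕ) : ℝ :=
  ∑ l ∈ range n, ∑ l' ∈ range n', ((lam / d) ^ (n - 1 - l) * (lam / d) ^ (n' - 1 - l'))
      * Gam G g d E univ univ (min l l')
    + ((lam / d) ^ n * s * Gg + (lam / d) ^ n' * s * Gg
        + (lam / d) ^ n * s * ((lam / d) ^ n' * s)) * Gam G g d E univ univ 0

variable {G : SimpleGraph V} [DecidableRel G.Adj] {g : V → V} {d : ℕ} {lam : ℝ}

/-- the pair walk is dominated by two independent free walks -/
lemma S_le_free (n : ℕ) : ∀ (F : Finset V) (y y' : V) (φ : V → V → ℝ), (∀ a b, 0 ≤ φ a b) →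
    S G g d n F y y' (fun _ a b => φ a b)
      ≤ ∑ q : V × V, pw G g d n y q.1 * pw G g d n y' q.2 * φ q.1 q.2 := by
  induction n with
  | zero =>
    intro F y y' φ hφ
    rw [S_zero]
    apply le_of_eq
    symm
    rw [Fintype.sum_prod_type]
    simp only [pw_zero]
    rw [Finset.sum_eq_single y]
    · rw [Finset.sum_eq_single y']
      · simp
      · intro b _ hb; simp [Ne.symm hb]
      · intro h; exact absurd (Finset.mem_univ y') h
    · intro a _ ha
      apply Finset.sum_eq_zero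
      intro b _
      simp [Ne.symm ha]
    · intro h; exact absurd (Finset.mem_univ y) h
  | succ n ih =>
    intro F y y' φ hφ
    rw [S_succ]
    have h1 : ∀ p ∈ okp g F, pw1 G g d y p.1 * pw1 G g d y' p.2
          * S G g d n (F ∪ blk g p) p.1 p.2 (fun _ a b => φ a b)
        ≤ pw1 G g d y p.1 * pw1 G g d y' p.2
          * ∑ q : V × V, pw G g d n p.1 q.1 * pw G g d n p.2 q.2 * φ q.1 q.2 := by
      intro p _
      exact mul_le_mul_of_nonneg_left (ih _ _ _ φ hφ) (ww_nonneg y y' p)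
    refine (Finset.sum_le_sum h1).trans ?_
    have h2 : ∑ p ∈ okp g F, pw1 G g d y p.1 * pw1 G g d y' p.2
          * ∑ q : V × V, pw G g d n p.1 q.1 * pw G g d n p.2 q.2 * φ q.1 q.2
        ≤ ∑ p : V × V, pw1 G g d y p.1 * pw1 G g d y' p.2
          * ∑ q : V × V, pw G g d n p.1 q.1 * pw G g d n p.2 q.2 * φ q.1 q.2 := by
      apply Finset.sum_le_sum_of_subset_of_nonneg (Finset.subset_univ _)
      intro p _ _
      apply mul_nonneg (ww_nonneg y y' p)
      apply Finset.sum_nonneg
      intro q _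
      exact mul_nonneg (mul_nonneg (pw_nonneg _ _ _) (pw_nonneg _ _ _)) (hφ _ _)
    refine h2.trans (le_of_eq ?_)
    simp_rw [Finset.mul_sum]
    rw [Finset.sum_comm]
    apply Finset.sum_congr rfl
    intro q _
    rw [pw_succ, pw_succ, Finset.sum_mul_sum, Finset.sum_mul, Fintype.sum_prod_type]
    apply Finset.sum_congr rfl
    intro z _
    rw [Finset.sum_mul]
    apply Finset.sum_congr rfl
    intro z' _
    ring

namespace Ctx

variable (c : Ctx G g d lam)
include c

/-- the chance that two independent walks meet, through the L2 majorants -/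
lemma coll_norm (s : ℝ) (hs0 : 0 ≤ s) (hs : (Fintype.card V : ℝ) ≤ s ^ 2) (F : Finset V)
    (a b : V) (i j : ℕ) :
    (Fintype.card V : ℝ) * ∑ q, pc G g d univ i F a q
        * (pc G g d univ j F b q + pc G g d univ j F b (g q))
      ≤ 2 * (TQ G g d lam univ 1 s F a i * TQ G g d lam univ 1 s F b j) := by
  have hcard : ((univ : Finset V).card : ℝ) ≤ (1 : ℝ) ^ 2 * (Fintype.card V : ℝ) := by
    rw [Finset.card_univ]; norm_num
  obtain ⟨hT10, hT1⟩ := c.pc_norm_q (Om := univ) 1 s (by norm_num) hcard hs0 hs F a i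
  obtain ⟨hT20, hT2⟩ := c.pc_norm_q (Om := univ) 1 s (by norm_num) hcard hs0 hs F b j
  have h1 := cs_norm (fun q => pc G g d univ i F a q) (fun q => pc G g d univ j F b q) _ _
    hT10 hT20 hT1 hT2
  have e2 : ∑ q, pc G g d univ j F b (g q) ^ 2 = ∑ q, pc G g d univ j F b q ^ 2 := by
    have h := Equiv.sum_comp c.perm (fun q => pc G g d univ j F b q ^ 2)
    exact h
  have hT2' : (Fintype.card V : ℝ) * ∑ q, pc G g d univ j F b (g q) ^ 2
      ≤ (TQ G g d lam univ 1 s F b j) ^ 2 := by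
    rw [e2]; exact hT2
  have h2 := cs_norm (fun q => pc G g d univ i F a q) (fun q => pc G g d univ j F b (g q)) _ _
    hT10 hT20 hT1 hT2'
  have e : ∑ q, pc G g d univ i F a q * (pc G g d univ j F b q + pc G g d univ j F b (g q))
      = ∑ q, pc G g d univ i F a q * pc G g d univ j F b q
        + ∑ q, pc G g d univ i F a q * pc G g d univ j F b (g q) := by
    rw [← Finset.sum_add_distrib]
    apply Finset.sum_congr rfl
    intro q _
    ring
  rw [e, mul_add]
  linarith

/-- two independent free walks meet with chance at most `1 / N + (lam / d) ^ (A + B)` -/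
lemma free_coll (π : Equiv.Perm V) (A B : ℕ) (y y' : V) :
    ∑ q, pw G g d A y q * pw G g d B y' (π q) ≤ c.bb (A + B) := by
  have hV : Nonempty V := ⟨y⟩
  have hN : (0 : ℝ) < (Fintype.card V : ℝ) := by exact_mod_cast Fintype.card_pos
  have hN' := hN.ne'
  have hε0 := c.ep_nonneg
  have r1 := c.pw_row A y
  have r2 : ∑ q, pw G g d B y' (π q) = 1 := by
    have h := Equiv.sum_comp π (fun q => pw G g d B y' q)
    rw [c.pw_row B y'] at h
    exact h
  have d1 := c.pw_dev A y
  have d2 : ∑ q, (pw G g d B y' (π q) - 1 / (Fintype.card V : ℝ)) ^ 2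
      ≤ (lam / d) ^ (2 * B) := by
    have h := Equiv.sum_comp π (fun q => (pw G g d B y' q - 1 / (Fintype.card V : ℝ)) ^ 2)
    have h' := c.pw_dev B y'
    rw [← h] at h'
    exact h'
  have e : ∑ q, pw G g d A y q * pw G g d B y' (π q)
      = 1 / (Fintype.card V : ℝ)
        + ∑ q, (pw G g d A y q - 1 / (Fintype.card V : ℝ))
            * (pw G g d B y' (π q) - 1 / (Fintype.card V : ℝ)) := by
    have e1 : ∀ q, (pw G g d A y q - 1 / (Fintype.card V : ℝ))
          * (pw G g d B y' (π q) - 1 / (Fintype.card V : ℝ))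
        = pw G g d A y q * pw G g d B y' (π q)
          - 1 / (Fintype.card V : ℝ) * pw G g d A y q
          - 1 / (Fintype.card V : ℝ) * pw G g d B y' (π q)
          + 1 / (Fintype.card V : ℝ) * (1 / (Fintype.card V : ℝ)) := by
      intro q; ring
    rw [Finset.sum_congr rfl (fun q _ => e1 q), Finset.sum_add_distrib, Finset.sum_sub_distrib,
      Finset.sum_sub_distrib, ← Finset.mul_sum, ← Finset.mul_sum, r1, r2, Finset.sum_const,
      Finset.card_univ, nsmul_eq_mul]
    field_simp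
    ring
  have hcs := Finset.sum_mul_sq_le_sq_mul_sq univ
    (fun q => pw G g d A y q - 1 / (Fintype.card V : ℝ))
    (fun q => pw G g d B y' (π q) - 1 / (Fintype.card V : ℝ))
  have h0 : 0 ≤ ∑ q, (pw G g d B y' (π q) - 1 / (Fintype.card V : ℝ)) ^ 2 :=
    Finset.sum_nonneg (fun q _ => sq_nonneg _)
  have h3 : (∑ q, (pw G g d A y q - 1 / (Fintype.card V : ℝ))
        * (pw G g d B y' (π q) - 1 / (Fintype.card V : ℝ))) ^ 2
      ≤ ((lam / d) ^ (A + B)) ^ 2 := by
    refine hcs.trans ?_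
    have e2 : ((lam / d) ^ (A + B)) ^ 2 = (lam / d) ^ (2 * A) * (lam / d) ^ (2 * B) := by
      rw [← pow_mul, ← pow_add]
      congr 1
      ring
    rw [e2]
    exact mul_le_mul d1 d2 h0 (pow_nonneg hε0 _)
  have h4 := (abs_le_of_sq_le_sq' h3 (pow_nonneg hε0 _)).2
  rw [e]
  unfold bb
  linarith

/-- the expected chance that the two walks meet, through the free walks -/
lemma coll_free (k i j : ℕ) (F₀ : Finset V) (y y' : V) :
    S G g d k F₀ y y' (fun F a b => ∑ q, pc G g d univ i F a q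
        * (pc G g d univ j F b q + pc G g d univ j F b (g q)))
      ≤ 2 * c.bb (k + i + (k + j)) := by
  have hE := S_plf (G := G) (g := g) (d := d) k F₀ y y'
  have h1 : ∀ (F : Finset V) (a b : V), ∑ q, pc G g d univ i F a q
        * (pc G g d univ j F b q + pc G g d univ j F b (g q))
      ≤ ∑ q, pw G g d i a q * (pw G g d j b q + pw G g d j b (g q)) := by
    intro F a b
    apply Finset.sum_le_sum
    intro q _
    exact mul_le_mul (pc_le_pw i F a q)
      (add_le_add (pc_le_pw j F b q) (pc_le_pw j F b (g q)))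
      (add_nonneg (pc_nonneg _ _ _ _) (pc_nonneg _ _ _ _)) (pw_nonneg _ _ _)
  refine (hE.mono h1).trans ?_
  have h2 := S_le_free (G := G) (g := g) (d := d) k F₀ y y'
    (fun a b => ∑ q, pw G g d i a q * (pw G g d j b q + pw G g d j b (g q)))
    (fun a b => Finset.sum_nonneg (fun q _ => mul_nonneg (pw_nonneg _ _ _)
      (add_nonneg (pw_nonneg _ _ _) (pw_nonneg _ _ _))))
  refine h2.trans ?_
  have e : ∑ p : V × V, pw G g d k y p.1 * pw G g d k y' p.2
        * ∑ q, pw G g d i p.1 q * (pw G g d j p.2 q + pw G g d j p.2 (g q))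
      = ∑ q, pw G g d (k + i) y q * pw G g d (k + j) y' q
        + ∑ q, pw G g d (k + i) y q * pw G g d (k + j) y' (g q) := by
    rw [← Finset.sum_add_distrib]
    simp_rw [Finset.mul_sum]
    rw [Finset.sum_comm]
    apply Finset.sum_congr rfl
    intro q _
    rw [pw_add k i y q, pw_add k j y' q, pw_add k j y' (g q), ← mul_add,
      ← Finset.sum_add_distrib, Finset.sum_mul_sum, Fintype.sum_prod_type]
    apply Finset.sum_congr rfl
    intro z _
    apply Finset.sum_congr rfl
    intro z' _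
    ring
  rw [e]
  have f1 := c.free_coll (Equiv.refl V) (k + i) (k + j) y y'
  have f2 := c.free_coll c.perm (k + i) (k + j) y y'
  have f1' : ∑ q, pw G g d (k + i) y q * pw G g d (k + j) y' q ≤ c.bb (k + i + (k + j)) := f1
  have f2' : ∑ q, pw G g d (k + i) y q * pw G g d (k + j) y' (g q)
      ≤ c.bb (k + i + (k + j)) := f2
  linarith

/-- the product of the two L2 majorants, in terms of survival weights -/
lemma TQ_prod_le (s Gg : ℝ) (hs0 : 0 ≤ s) (hGg0 : 0 ≤ Gg) (hGg : 1 ≤ Gg * (1 - lam / d))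
    (F : Finset V) (a b : V) (n n' : ℕ) :
    TQ G g d lam univ 1 s F a n * TQ G g d lam univ 1 s F b n'
      ≤ ∑ l ∈ range n, ∑ l' ∈ range n', ((lam / d) ^ (n - 1 - l) * (lam / d) ^ (n' - 1 - l'))
            * (ptot G g d univ (min l l') F a * ptot G g d univ (min l l') F b)
        + ((lam / d) ^ n * s * Gg + (lam / d) ^ n' * s * Gg
            + (lam / d) ^ n * s * ((lam / d) ^ n' * s))
          * (ptot G g d univ 0 F a * ptot G g d univ 0 F b) := by
  have hε0 := c.ep_nonneg
  rw [TQ_eq, TQ_eq, one_mul, one_mul, ptot_zero, ptot_zero]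
  set ε : ℝ := lam / d with hεdef
  set U1 : ℝ := ∑ l ∈ range n, ε ^ (n - 1 - l) * ptot G g d univ l F a with hU1
  set U2 : ℝ := ∑ l' ∈ range n', ε ^ (n' - 1 - l') * ptot G g d univ l' F b with hU2
  have hU10 : 0 ≤ U1 := Finset.sum_nonneg (fun j _ =>
    mul_nonneg (pow_nonneg hε0 _) (ptot_nonneg _ _ _))
  have hU20 : 0 ≤ U2 := Finset.sum_nonneg (fun j _ =>
    mul_nonneg (pow_nonneg hε0 _) (ptot_nonneg _ _ _))
  have hgeo : ∀ k : ℕ, ∑ l ∈ range k, ε ^ (k - 1 - l) ≤ Gg := by
    intro k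
    rw [Finset.sum_range_reflect (fun a => ε ^ a) k]
    exact geo_gen ε Gg hε0 hGg0 hGg k
  have hU1G : U1 ≤ Gg := by
    refine le_trans ?_ (hgeo n)
    apply Finset.sum_le_sum
    intro j _
    exact mul_le_of_le_one_right (pow_nonneg hε0 _) (c.ptot_le_one j F a)
  have hU2G : U2 ≤ Gg := by
    refine le_trans ?_ (hgeo n')
    apply Finset.sum_le_sum
    intro j _
    exact mul_le_of_le_one_right (pow_nonneg hε0 _) (c.ptot_le_one j F b)
  have hUU : U1 * U2 ≤ ∑ l ∈ range n, ∑ l' ∈ range n', (ε ^ (n - 1 - l) * ε ^ (n' - 1 - l'))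
          * (ptot G g d univ (min l l') F a * ptot G g d univ (min l l') F b) := by
    rw [hU1, hU2, Finset.sum_mul_sum]
    apply Finset.sum_le_sum
    intro j _
    apply Finset.sum_le_sum
    intro i _
    have h1 := c.ptot_anti (Om := univ) (Nat.min_le_left j i) F a
    have h2 := c.ptot_anti (Om := univ) (Nat.min_le_right j i) F b
    have h3 : ptot G g d univ j F a * ptot G g d univ i F b
        ≤ ptot G g d univ (min j i) F a * ptot G g d univ (min j i) F b :=
      mul_le_mul h1 h2 (ptot_nonneg _ _ _) (ptot_nonneg _ _ _)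
    have h4 : 0 ≤ ε ^ (n - 1 - j) * ε ^ (n' - 1 - i) :=
      mul_nonneg (pow_nonneg hε0 _) (pow_nonneg hε0 _)
    have h5 := mul_le_mul_of_nonneg_left h3 h4
    refine le_trans (le_of_eq ?_) h5
    ring
  have he1 : 0 ≤ ε ^ n * s := mul_nonneg (pow_nonneg hε0 _) hs0
  have he2 : 0 ≤ ε ^ n' * s := mul_nonneg (pow_nonneg hε0 _) hs0
  have h6 : ε ^ n * s * U2 ≤ ε ^ n * s * Gg := mul_le_mul_of_nonneg_left hU2G he1
  have h7 : ε ^ n' * s * U1 ≤ ε ^ n' * s * Gg := mul_le_mul_of_nonneg_left hU1G he2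
  have e8 : (U1 + ε ^ n * s) * (U2 + ε ^ n' * s)
      = U1 * U2 + ε ^ n * s * U2 + ε ^ n' * s * U1 + ε ^ n * s * (ε ^ n' * s) := by ring
  rw [e8]
  linarith

/-- the expected product of the two L2 majorants -/
lemma E_TQ_le {E : (Finset V → V → V → ℝ) → ℝ} (hE : PLF E) (s Gg : ℝ) (hs0 : 0 ≤ s)
    (hGg0 : 0 ≤ Gg) (hGg : 1 ≤ Gg * (1 - lam / d)) (n n' : ℕ) :
    E (fun F a b => TQ G g d lam univ 1 s F a n * TQ G g d lam univ 1 s F b n')
      ≤ AggY G g d lam E s Gg n n' := by
  refine (hE.mono (fun F a b => c.TQ_prod_le s Gg hs0 hGg0 hGg F a b n n')).trans (le_of_eq ?_)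
  rw [hE.add (fun F a b => ∑ l ∈ range n, ∑ l' ∈ range n',
          ((lam / d) ^ (n - 1 - l) * (lam / d) ^ (n' - 1 - l'))
            * (ptot G g d univ (min l l') F a * ptot G g d univ (min l l') F b))
      (fun F a b => ((lam / d) ^ n * s * Gg + (lam / d) ^ n' * s * Gg
            + (lam / d) ^ n * s * ((lam / d) ^ n' * s))
          * (ptot G g d univ 0 F a * ptot G g d univ 0 F b)),
    hE.sum_sum_smul (range n) (range n')
      (fun l l' => (lam / d) ^ (n - 1 - l) * (lam / d) ^ (n' - 1 - l'))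
      (fun l l' F a b => ptot G g d univ (min l l') F a * ptot G g d univ (min l l') F b),
    hE.smul ((lam / d) ^ n * s * Gg + (lam / d) ^ n' * s * Gg
            + (lam / d) ^ n * s * ((lam / d) ^ n' * s))
      (fun F a b => ptot G g d univ 0 F a * ptot G g d univ 0 F b)]
  rfl

/-- the expected weight of the junction edge after both phases, aggregated -/
lemma agg_junction (k m Lq : ℕ) (F₀ : Finset V) (y y' : V) (s Gg : ℝ) (hs0 : 0 ≤ s)
    (hs : (Fintype.card V : ℝ) ≤ s ^ 2) (hGg0 : 0 ≤ Gg) (hGg : 1 ≤ Gg * (1 - lam / d)) :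
    (d : ℝ) / (Fintype.card V : ℝ) * Gam G g d (S G g d k F₀ y y') univ univ m
      - lam / (Fintype.card V : ℝ) * AggY G g d lam (S G g d k F₀ y y') s Gg m m
      - (d : ℝ) * ∑ i ∈ range m, ∑ j ∈ range m, c.bs ((m - 1 - i) + 1 + (m - 1 - j))
          * (if m ≤ i + Lq + 1 ∧ m ≤ j + Lq + 1
              then 2 / (Fintype.card V : ℝ)
                * AggY G g d lam (S G g d k F₀ y y') s Gg (i + 1) (j + 1)
              else 2 * c.bb (k + (i + 1) + (k + (j + 1))))
      ≤ S G g d (k + m) F₀ y y' (fun _ x x' => if G.Adj x x' then 1 else 0) := by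
  have hV : Nonempty V := ⟨y⟩
  have hN : (0 : ℝ) < (Fintype.card V : ℝ) := by exact_mod_cast Fintype.card_pos
  have hd := c.dpos'
  have hE := S_plf (G := G) (g := g) (d := d) k F₀ y y'
  rw [S_comp k m]
  have hlin := hE.junction_lin m (d : ℝ) lam (Fintype.card V : ℝ)
    (fun F a b => ptot G g d univ m F a * ptot G g d univ m F b)
    (fun F a b => TQ G g d lam univ 1 s F a m * TQ G g d lam univ 1 s F b m)
    (fun i j => c.bs ((m - 1 - i) + 1 + (m - 1 - j)))
    (fun i j F a b => ∑ q, pc G g d univ (i + 1) F a q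
        * (pc G g d univ (j + 1) F b q + pc G g d univ (j + 1) F b (g q)))
  beta_reduce at hlin
  refine le_trans ?_ (le_trans (le_of_eq hlin.symm)
    (hE.mono (fun F a b => c.pt_junction m F a b s hs0 hs)))
  have hT := c.E_TQ_le hE s Gg hs0 hGg0 hGg m m
  have hC : ∀ i j, S G g d k F₀ y y' (fun F a b => ∑ q, pc G g d univ (i + 1) F a q
        * (pc G g d univ (j + 1) F b q + pc G g d univ (j + 1) F b (g q)))
      ≤ (if m ≤ i + Lq + 1 ∧ m ≤ j + Lq + 1
          then 2 / (Fintype.card V : ℝ)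
            * AggY G g d lam (S G g d k F₀ y y') s Gg (i + 1) (j + 1)
          else 2 * c.bb (k + (i + 1) + (k + (j + 1)))) := by
    intro i j
    split_ifs with hlate
    · have hpt : ∀ (F : Finset V) (a b : V), ∑ q, pc G g d univ (i + 1) F a q
            * (pc G g d univ (j + 1) F b q + pc G g d univ (j + 1) F b (g q))
          ≤ 2 / (Fintype.card V : ℝ)
            * (TQ G g d lam univ 1 s F a (i + 1) * TQ G g d lam univ 1 s F b (j + 1)) := by
        intro F a b
        have h := c.coll_norm s hs0 hs F a b (i + 1) (j + 1)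
        rw [div_mul_eq_mul_div, le_div_iff₀ hN]
        linarith
      refine (hE.mono hpt).trans ?_
      rw [hE.smul]
      exact mul_le_mul_of_nonneg_left (c.E_TQ_le hE s Gg hs0 hGg0 hGg (i + 1) (j + 1))
        (by positivity)
    · exact c.coll_free k (i + 1) (j + 1) F₀ y y'
  have hlamN : 0 ≤ lam / (Fintype.card V : ℝ) := div_nonneg c.lam0 hN.le
  have h1 := mul_le_mul_of_nonneg_left hT hlamN
  have h2 : ∑ i ∈ range m, ∑ j ∈ range m, c.bs ((m - 1 - i) + 1 + (m - 1 - j))
        * S G g d k F₀ y y' (fun F a b => ∑ q, pc G g d univ (i + 1) F a q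
          * (pc G g d univ (j + 1) F b q + pc G g d univ (j + 1) F b (g q)))
      ≤ ∑ i ∈ range m, ∑ j ∈ range m, c.bs ((m - 1 - i) + 1 + (m - 1 - j))
        * (if m ≤ i + Lq + 1 ∧ m ≤ j + Lq + 1
            then 2 / (Fintype.card V : ℝ)
              * AggY G g d lam (S G g d k F₀ y y') s Gg (i + 1) (j + 1)
            else 2 * c.bb (k + (i + 1) + (k + (j + 1)))) := by
    apply Finset.sum_le_sum
    intro i _
    apply Finset.sum_le_sum
    intro j _
    exact mul_le_mul_of_nonneg_left (hC i j) (c.bs_nonneg _)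
  have h3 := mul_le_mul_of_nonneg_left h2 hd.le
  have e0 : S G g d k F₀ y y' (fun F a b => ptot G g d univ m F a * ptot G g d univ m F b)
      = Gam G g d (S G g d k F₀ y y') univ univ m := rfl
  rw [e0]
  linarith

end Ctx

end Vale.Agent.Lib.P308
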