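import Vale.Agent.Lib.P308.YAgg

namespace Vale.Agent.Lib.P308

open Finset

set_option linter.unusedSectionVars false
set_option linter.unusedVariables false

variable {V : Type*} [Fintype V] [DecidableEq V]

/-- the survival weights along both phases : the pair walk for the first `k` rounds, then
two independent self-avoiding walks -/
noncomputable def aY (G : SimpleGraph V) [DecidableRel G.Adj] (g : V → V) (d : ℕ) (k : ℕ)
    (F₀ : Finset V) (y y' : V) (t : ℕ) : ℝ :=
  S G g d (min t k) F₀ y y'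
    (fun F a b => ptot G g d univ (t - k) F a * ptot G g d univ (t - k) F b)

variable {G : SimpleGraph V} [DecidableRel G.Adj] {g : V → V} {d : ℕ} {lam : ℝ}

lemma aY_le {k t : ℕ} (h : t ≤ k) (F₀ : Finset V) (y y' : V) :
    aY G g d k F₀ y y' t = S G g d t F₀ y y' (fun _ _ _ => 1) := by
  unfold aY
  rw [Nat.min_eq_left h, Nat.sub_eq_zero_of_le h]
  congr 1
  funext F a b
  rw [ptot_zero, ptot_zero, mul_one]

lemma aY_add (k j : ℕ) (F₀ : Finset V) (y y' : V) :
    aY G g d k F₀ y y' (k + j) = Gam G g d (S G g d k F₀ y y') univ univ j := by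
  unfold aY
  rw [Nat.min_eq_right (Nat.le_add_right k j), Nat.add_sub_cancel_left]
  rfl

lemma aY_zero (k : ℕ) (F₀ : Finset V) (y y' : V) : aY G g d k F₀ y y' 0 = 1 := by
  rw [aY_le (Nat.zero_le k)]
  rfl

lemma aY_nonneg (k : ℕ) (F₀ : Finset V) (y y' : V) (t : ℕ) : 0 ≤ aY G g d k F₀ y y' t :=
  (S_plf (min t k) F₀ y y').nonneg
    (fun F a b => mul_nonneg (ptot_nonneg _ _ _) (ptot_nonneg _ _ _))

namespace Ctx

variable (c : Ctx G g d lam)
include c

/-- the recursion of the second phase, for two walks that are not confined to sides -/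
lemma Gam_rec_univ (k : ℕ) (F₀ : Finset V) (hF : F₀.card ≤ 2) (y y' : V) (j : ℕ) :
    Gam G g d (S G g d k F₀ y y') univ univ j
      - 4 * c.bs (k + (j + 1))
      - 8 * ∑ i ∈ range k, S G g d (i + 1) F₀ y y' (fun _ _ _ => 1)
          * c.bs (k - (i + 1) + (j + 1))
      - 4 * ∑ i ∈ range j, Gam G g d (S G g d k F₀ y y') univ univ (i + 1) * c.bs (j - i)
    ≤ Gam G g d (S G g d k F₀ y y') univ univ (j + 1) := by
  have hE := S_plf (G := G) (g := g) (d := d) k F₀ y y'
  have hE' := swapE_plf hE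
  have hstep := c.Gam_step (O1 := univ) (O2 := univ) hE j 1 1 (by norm_num) (le_refl 1)
    (by norm_num) (le_refl 1)
  have hs1 : ∀ z, sOm G g d univ z = 1 := fun z => c.pw1_row z
  simp only [hs1, sub_self, abs_zero, mul_zero, Finset.sum_const_zero, sub_zero, one_mul]
    at hstep
  have hx1 := c.XA_leg (O1 := univ) (O2 := univ) hE j
  have hx2 := c.XA_leg (O1 := univ) (O2 := univ) hE' j
  have l1 := c.Lam1g (j + 1) (by omega) k F₀ y y'
  have l2 := c.Lam2g (j + 1) (by omega) k F₀ y y'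
  have f1 := c.sum_F_les F₀ hF (k + (j + 1)) (by omega) y
  have f2 := c.sum_F_les F₀ hF (k + (j + 1)) (by omega) y'
  have e2 : swapE (S G g d k F₀ y y') (fun F a _ => ∑ q ∈ F, pw G g d (j + 1) a q)
      = S G g d k F₀ y y' (fun F _ b => ∑ q ∈ F, pw G g d (j + 1) b q) := rfl
  rw [e2] at hx2
  have e3 : ∑ i ∈ range j, Gam G g d (swapE (S G g d k F₀ y y')) univ univ (i + 1)
        * (2 * c.bs (j - i))
      = ∑ i ∈ range j, Gam G g d (S G g d k F₀ y y') univ univ (i + 1)
        * (2 * c.bs (j - i)) :=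
    Finset.sum_congr rfl (fun i _ => by rw [Gam_swap])
  rw [e3] at hx2
  have e4 : ∑ i ∈ range j, Gam G g d (S G g d k F₀ y y') univ univ (i + 1)
        * (2 * c.bs (j - i))
      = 2 * ∑ i ∈ range j, Gam G g d (S G g d k F₀ y y') univ univ (i + 1)
        * c.bs (j - i) := by
    rw [Finset.mul_sum]
    apply Finset.sum_congr rfl
    intro i _
    ring
  have e5 : ∑ i ∈ range k, S G g d (i + 1) F₀ y y' (fun _ _ _ => 1)
        * (4 * c.bs (k - (i + 1) + (j + 1)))
      = 4 * ∑ i ∈ range k, S G g d (i + 1) F₀ y y' (fun _ _ _ => 1)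
        * c.bs (k - (i + 1) + (j + 1)) := by
    rw [Finset.mul_sum]
    apply Finset.sum_congr rfl
    intro i _
    ring
  rw [e4] at hx1 hx2
  rw [e5] at l1 l2
  linarith

/-- the unified recursion of the survival weights along both phases -/
lemma aY_rec (k : ℕ) (F₀ : Finset V) (hF : F₀.card ≤ 2) (y y' : V) (t : ℕ) :
    aY G g d k F₀ y y' t * (1 - 2 * c.bs 1) - 4 * c.bs (t + 1)
      - 8 * ∑ i ∈ range t, aY G g d k F₀ y y' (i + 1) * c.bs (t - (i + 1) + 1)
    ≤ aY G g d k F₀ y y' (t + 1) := by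
  rcases Nat.lt_or_ge t k with h | h
  · rw [aY_le (G := G) (g := g) (d := d) h.le, aY_le (G := G) (g := g) (d := d) (Nat.succ_le_of_lt h)]
    have e : ∑ i ∈ range t, aY G g d k F₀ y y' (i + 1) * c.bs (t - (i + 1) + 1)
        = ∑ i ∈ range t, S G g d (i + 1) F₀ y y' (fun _ _ _ => 1)
            * c.bs (t - (i + 1) + 1) := by
      apply Finset.sum_congr rfl
      intro i hi
      have hi' := Finset.mem_range.1 hi
      rw [aY_le (G := G) (g := g) (d := d) (k := k) (t := i + 1) (by omega)]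
    rw [e]
    exact c.gg_recs F₀ hF y y' t
  · obtain ⟨j, rfl⟩ : ∃ j, t = k + j := ⟨t - k, by omega⟩
    have hrec := c.Gam_rec_univ k F₀ hF y y' j
    have e1 : k + j + 1 = k + (j + 1) := by ring
    rw [e1, aY_add, aY_add, Finset.sum_range_add]
    have ea : ∑ i ∈ range k, aY G g d k F₀ y y' (i + 1) * c.bs (k + j - (i + 1) + 1)
        = ∑ i ∈ range k, S G g d (i + 1) F₀ y y' (fun _ _ _ => 1)
            * c.bs (k - (i + 1) + (j + 1)) := by
      apply Finset.sum_congr rfl
      intro i hi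
      have hi' := Finset.mem_range.1 hi
      rw [aY_le (G := G) (g := g) (d := d) (k := k) (t := i + 1) (by omega)]
      have e : k + j - (i + 1) + 1 = k - (i + 1) + (j + 1) := by omega
      rw [e]
    have eb : ∑ i ∈ range j, aY G g d k F₀ y y' (k + i + 1) * c.bs (k + j - (k + i + 1) + 1)
        = ∑ i ∈ range j, Gam G g d (S G g d k F₀ y y') univ univ (i + 1) * c.bs (j - i) := by
      apply Finset.sum_congr rfl
      intro i hi
      have hi' := Finset.mem_range.1 hi
      have e : k + i + 1 = k + (i + 1) := by ring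
      rw [e, aY_add]
      have e' : k + j - (k + (i + 1)) + 1 = j - i := by omega
      rw [e']
    rw [ea, eb]
    have hG := Gam_nonneg (G := G) (g := g) (d := d) (O1 := univ) (O2 := univ)
      (S_plf (G := G) (g := g) (d := d) k F₀ y y') j
    have hb := c.bs_nonneg 1
    have hGb := mul_nonneg hG hb
    have hsum : 0 ≤ ∑ i ∈ range j, Gam G g d (S G g d k F₀ y y') univ univ (i + 1)
        * c.bs (j - i) :=
      Finset.sum_nonneg (fun i _ => mul_nonneg
        (Gam_nonneg (S_plf (G := G) (g := g) (d := d) k F₀ y y') _) (c.bs_nonneg _))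
    nlinarith

/-- the chain of one-step comparisons along both phases -/
lemma chainY (F₀ : Finset V) (hF : F₀.card ≤ 2) (y y' : V) (k m : ℕ) (ρ κ cc : ℝ)
    (hρ : 1 ≤ ρ) (hκ : 0 ≤ κ) (hcc0 : 0 ≤ cc) (hcc : 1 ≤ cc * (ρ - 1))
    (hκ1 : 1 ≤ κ * (1 - ρ * (lam / d)))
    (hnum : ρ * (2 * (1 / (Fintype.card V : ℝ) + dl (1 / (d : ℝ)) (lam / d) 1)
        + (8 * cc + 4) * (1 / (Fintype.card V : ℝ)) * ρ ^ (k + m)
        + 8 * DK ρ κ (1 / (d : ℝ)) (lam / d) 1) ≤ ρ - 1) :
    ∀ t, t < k + m → aY G g d k F₀ y y' t ≤ ρ * aY G g d k F₀ y y' (t + 1) :=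
  num1_r (fun t => aY G g d k F₀ y y' t) (1 / (Fintype.card V : ℝ)) ρ cc
    (dl (1 / (d : ℝ)) (lam / d)) (DK ρ κ (1 / (d : ℝ)) (lam / d)) (k + m)
    (aY_zero k F₀ y y') (fun t => aY_nonneg k F₀ y y' t) (by positivity) hρ hcc0 hcc
    (dl_nonneg _ _ (by positivity) c.ep_nonneg)
    (DK_nonneg ρ κ _ _ (by linarith) hκ (by positivity) c.ep_nonneg)
    (DK_rec ρ κ _ _ (by linarith) hκ (by positivity) c.ep_nonneg hκ1)
    hnum (fun t => c.aY_rec k F₀ hF y y' t)

end Ctx

end Vale.Agent.Lib.P308
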