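import Vale.Agent.Lib.P308.YHit

namespace Vale.Agent.Lib.P308

open Finset

set_option linter.unusedSectionVars false
set_option linter.unusedVariables false

variable {V : Type*} [Fintype V] [DecidableEq V]
variable {G : SimpleGraph V} [DecidableRel G.Adj] {g : V → V} {d : ℕ} {lam : ℝ}

/-- the pairs of independent self-avoiding walks are the disjoint pairs plus the pairs that
meet; the latter are bounded by a first entrance decomposition -/
lemma coll_pt (m : ℕ) (F : Finset V) (a b : V) (ψ : V → V → ℝ)
    (hψ : ∀ z z', 0 ≤ ψ z z') :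
    ∑ z, ∑ z', pc G g d univ m F a z * pc G g d univ m F b z' * ψ z z'
      ≤ V2 G g d m m F a b ψ
        + ∑ i ∈ range m, ∑ q, pc G g d univ (i + 1) F a q
            * ∑ j ∈ range m, (pc G g d univ (j + 1) F b q
                  * (∑ z, ∑ z', pw G g d (m - 1 - i) q z * pw G g d (m - 1 - j) q z' * ψ z z')
                + pc G g d univ (j + 1) F b (g q)
                  * (∑ z, ∑ z', pw G g d (m - 1 - i) q z * pw G g d (m - 1 - j) (g q) z'
                      * ψ z z')) := by
  set h : V → V → ℝ := fun q z => ∑ j ∈ range m, pc G g d univ (j + 1) F b q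
      * ∑ z', pw G g d (m - 1 - j) q z' * ψ z z' with hh
  have hh0 : ∀ q z, 0 ≤ h q z := by
    intro q z
    apply Finset.sum_nonneg; intro j _
    apply mul_nonneg (pc_nonneg _ _ _ _)
    apply Finset.sum_nonneg; intro z' _
    exact mul_nonneg (pw_nonneg _ _ _) (hψ _ _)
  have e1 : ∑ z, ∑ z', pc G g d univ m F a z * pc G g d univ m F b z' * ψ z z'
      = S1 G g d m F a (fun _ z => ∑ z', pc G g d univ m F b z' * ψ z z') := by
    rw [S1_const]
    apply Finset.sum_congr rfl
    intro z _
    rw [Finset.mul_sum]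
    apply Finset.sum_congr rfl
    intro z' _
    ring
  have h2 : S1 G g d m F a (fun _ z => ∑ z', pc G g d univ m F b z' * ψ z z')
      ≤ S1 G g d m F a (fun F' z => (∑ z', pc G g d univ m F' b z' * ψ z z')
          + ∑ q ∈ F' \ F, h q z) := by
    apply S1_mono
    intro F' hF' z
    have h3 : ∀ z', pc G g d univ m F b z' * ψ z z'
        ≤ pc G g d univ m F' b z' * ψ z z'
          + (∑ j ∈ range m, ∑ q ∈ F' \ F, pc G g d univ (j + 1) F b q
              * pw G g d (m - 1 - j) q z') * ψ z z' := by
      intro z'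
      rw [← add_mul]
      exact mul_le_mul_of_nonneg_right (pc_hit m F F' b z' hF') (hψ _ _)
    refine (Finset.sum_le_sum (fun z' _ => h3 z')).trans (le_of_eq ?_)
    rw [Finset.sum_add_distrib]
    congr 1
    have k1 : ∑ z', (∑ j ∈ range m, ∑ q ∈ F' \ F, pc G g d univ (j + 1) F b q
          * pw G g d (m - 1 - j) q z') * ψ z z'
        = ∑ j ∈ range m, ∑ q ∈ F' \ F, ∑ z', pc G g d univ (j + 1) F b q
          * (pw G g d (m - 1 - j) q z' * ψ z z') := by
      simp_rw [Finset.sum_mul]
      rw [Finset.sum_comm]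
      apply Finset.sum_congr rfl
      intro j _
      rw [Finset.sum_comm]
      apply Finset.sum_congr rfl
      intro q _
      apply Finset.sum_congr rfl
      intro z' _
      ring
    have k2 : ∑ q ∈ F' \ F, h q z
        = ∑ j ∈ range m, ∑ q ∈ F' \ F, ∑ z', pc G g d univ (j + 1) F b q
          * (pw G g d (m - 1 - j) q z' * ψ z z') := by
      simp only [hh]
      rw [Finset.sum_comm]
      apply Finset.sum_congr rfl
      intro j _
      apply Finset.sum_congr rfl
      intro q _
      rw [Finset.mul_sum]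
    rw [k1, k2]
  rw [S1_add] at h2
  have h5 := S1_path (G := G) (g := g) (d := d) m F a h hh0
  have k3 : ∀ (i : ℕ) (q q' : V), ∑ z, pw G g d (m - 1 - i) q z * h q' z
      = ∑ j ∈ range m, pc G g d univ (j + 1) F b q'
          * ∑ z, ∑ z', pw G g d (m - 1 - i) q z * pw G g d (m - 1 - j) q' z' * ψ z z' := by
    intro i q q'
    simp only [hh]
    simp_rw [Finset.mul_sum]
    rw [Finset.sum_comm]
    apply Finset.sum_congr rfl
    intro j _
    apply Finset.sum_congr rfl
    intro z _
    apply Finset.sum_congr rfl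
    intro z' _
    ring
  have h6 : ∑ i ∈ range m, ∑ q, pc G g d univ (i + 1) F a q
        * ∑ z, pw G g d (m - 1 - i) q z * (h q z + h (g q) z)
      = ∑ i ∈ range m, ∑ q, pc G g d univ (i + 1) F a q
          * ∑ j ∈ range m, (pc G g d univ (j + 1) F b q
                * (∑ z, ∑ z', pw G g d (m - 1 - i) q z * pw G g d (m - 1 - j) q z' * ψ z z')
              + pc G g d univ (j + 1) F b (g q)
                * (∑ z, ∑ z', pw G g d (m - 1 - i) q z * pw G g d (m - 1 - j) (g q) z'
                    * ψ z z')) := by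
    apply Finset.sum_congr rfl
    intro i _
    apply Finset.sum_congr rfl
    intro q _
    congr 1
    rw [Finset.sum_add_distrib, ← k3 i q q, ← k3 i q (g q), ← Finset.sum_add_distrib]
    apply Finset.sum_congr rfl
    intro z _
    ring
  rw [e1]
  rw [h6] at h5
  have e7 : V2 G g d m m F a b ψ
      = S1 G g d m F a (fun F' z => ∑ z', pc G g d univ m F' b z' * ψ z z') := rfl
  rw [e7]
  linarith

namespace Ctx

variable (c : Ctx G g d lam)
include c

/-- the pairs of walks that meet, with adjacent end points -/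
lemma coll_adj (m : ℕ) (F : Finset V) (a b : V) :
    ∑ z, ∑ z', pc G g d univ m F a z * pc G g d univ m F b z'
        * (if G.Adj z z' then (1 : ℝ) else 0)
      ≤ S G g d m F a b (fun _ x x' => if G.Adj x x' then 1 else 0)
        + (d : ℝ) * ∑ i ∈ range m, ∑ j ∈ range m, c.bs ((m - 1 - i) + 1 + (m - 1 - j))
            * ∑ q, pc G g d univ (i + 1) F a q
                * (pc G g d univ (j + 1) F b q + pc G g d univ (j + 1) F b (g q)) := by
  have hd := c.dpos'
  have h1 := coll_pt (G := G) (g := g) (d := d) m F a b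
    (fun z z' => if G.Adj z z' then (1 : ℝ) else 0)
    (fun z z' => by split_ifs <;> norm_num)
  rw [← S_eq_V2 c.inv m F a b (fun z z' => if G.Adj z z' then (1 : ℝ) else 0)] at h1
  refine h1.trans (add_le_add (le_refl _) ?_)
  rw [Finset.mul_sum]
  apply Finset.sum_le_sum
  intro i _
  have h2 : ∀ q, pc G g d univ (i + 1) F a q
        * ∑ j ∈ range m, (pc G g d univ (j + 1) F b q
              * (∑ z, ∑ z', pw G g d (m - 1 - i) q z * pw G g d (m - 1 - j) q z'
                  * (if G.Adj z z' then (1 : ℝ) else 0))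
            + pc G g d univ (j + 1) F b (g q)
              * (∑ z, ∑ z', pw G g d (m - 1 - i) q z * pw G g d (m - 1 - j) (g q) z'
                  * (if G.Adj z z' then (1 : ℝ) else 0)))
      ≤ ∑ j ∈ range m, (d : ℝ) * (c.bs ((m - 1 - i) + 1 + (m - 1 - j))
          * (pc G g d univ (i + 1) F a q
              * (pc G g d univ (j + 1) F b q + pc G g d univ (j + 1) F b (g q)))) := by
    intro q
    rw [Finset.mul_sum]
    apply Finset.sum_le_sum
    intro j _
    rw [c.adj_kernel, c.adj_kernel]
    have b1 := c.pw_le_bs ((m - 1 - i) + 1 + (m - 1 - j)) (by omega) q (g q)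
    have b2 := c.pw_le_bs ((m - 1 - i) + 1 + (m - 1 - j)) (by omega) q (g (g q))
    have p1 := pc_nonneg (G := G) (g := g) (d := d) (Om := univ) (i + 1) F a q
    have p2 := pc_nonneg (G := G) (g := g) (d := d) (Om := univ) (j + 1) F b q
    have p3 := pc_nonneg (G := G) (g := g) (d := d) (Om := univ) (j + 1) F b (g q)
    have q1 : pc G g d univ (j + 1) F b q
          * ((d : ℝ) * pw G g d ((m - 1 - i) + 1 + (m - 1 - j)) q (g q))
        ≤ pc G g d univ (j + 1) F b q
          * ((d : ℝ) * c.bs ((m - 1 - i) + 1 + (m - 1 - j))) :=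
      mul_le_mul_of_nonneg_left (mul_le_mul_of_nonneg_left b1 hd.le) p2
    have q2 : pc G g d univ (j + 1) F b (g q)
          * ((d : ℝ) * pw G g d ((m - 1 - i) + 1 + (m - 1 - j)) q (g (g q)))
        ≤ pc G g d univ (j + 1) F b (g q)
          * ((d : ℝ) * c.bs ((m - 1 - i) + 1 + (m - 1 - j))) :=
      mul_le_mul_of_nonneg_left (mul_le_mul_of_nonneg_left b2 hd.le) p3
    have q3 := mul_le_mul_of_nonneg_left (add_le_add q1 q2) p1
    refine q3.trans (le_of_eq ?_)
    ring
  refine (Finset.sum_le_sum (fun q _ => h2 q)).trans (le_of_eq ?_)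
  rw [Finset.sum_comm, Finset.mul_sum]
  apply Finset.sum_congr rfl
  intro j _
  rw [Finset.mul_sum, ← Finset.mul_sum]

/-- the junction of two walks after `m` rounds, pointwise in the starting state -/
lemma pt_junction (m : ℕ) (F : Finset V) (a b : V) (s : ℝ) (hs0 : 0 ≤ s)
    (hs : (Fintype.card V : ℝ) ≤ s ^ 2) :
    ((d : ℝ) * (ptot G g d univ m F a * ptot G g d univ m F b)
        - lam * (TQ G g d lam univ 1 s F a m * TQ G g d lam univ 1 s F b m))
          / (Fintype.card V : ℝ)
      - (d : ℝ) * ∑ i ∈ range m, ∑ j ∈ range m, c.bs ((m - 1 - i) + 1 + (m - 1 - j))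
            * ∑ q, pc G g d univ (i + 1) F a q
                * (pc G g d univ (j + 1) F b q + pc G g d univ (j + 1) F b (g q))
      ≤ S G g d m F a b (fun _ x x' => if G.Adj x x' then 1 else 0) := by
  have hcard : ((univ : Finset V).card : ℝ) ≤ (1 : ℝ) ^ 2 * (Fintype.card V : ℝ) := by
    rw [Finset.card_univ]; norm_num
  obtain ⟨hT10, hT1⟩ := c.pc_norm_q (Om := univ) 1 s (by norm_num) hcard hs0 hs F a m
  obtain ⟨hT20, hT2⟩ := c.pc_norm_q (Om := univ) 1 s (by norm_num) hcard hs0 hs F b m
  have hj := c.junction_n (fun z => pc G g d univ m F a z) (fun z => pc G g d univ m F b z)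
    (fun z => pc_nonneg _ _ _ _) (fun z => pc_nonneg _ _ _ _)
    (TQ G g d lam univ 1 s F a m) (TQ G g d lam univ 1 s F b m) hT10 hT20 hT1 hT2
  have hc := c.coll_adj m F a b
  have e : (∑ z, pc G g d univ m F a z) * (∑ z, pc G g d univ m F b z)
      = ptot G g d univ m F a * ptot G g d univ m F b := rfl
  rw [e] at hj
  linarith

end Ctx

end Vale.Agent.Lib.P308
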