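import Vale.Agent.Lib.P308.Main

namespace Vale.Agent.Lib.P308

open Finset

set_option linter.unusedSectionVars false
set_option linter.unusedVariables false

variable {V : Type*} [Fintype V] [DecidableEq V]

/-- Spectral form for `5 * lam ≤ d` with a general schedule : the first step may use the
degree, and Tanner's bound is also used for the final pair of sets. -/
theorem near_le_sched5 (G : SimpleGraph V) [DecidableRel G.Adj] (d : ℕ) (hd : 0 < d)
    (hreg : G.IsRegularOfDegree d) (lam : ℝ) (hlam : 0 ≤ lam)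
    (hspec : ∀ x : V → ℝ, ∑ v, x v = 0 →
      ∑ v, ((G.adjMatrix ℝ).mulVec x v) ^ 2 ≤ lam ^ 2 * ∑ v, x v ^ 2)
    (hl : 5 * lam ≤ d) (a : ℕ → ℕ) (j : ℕ) (ha0 : a 0 = 1) (hmono : ∀ i, a i ≤ a (i + 1))
    (hexp : ∀ i, i < j → (i = 0 ∧ 3 * a 1 ≤ d + 1) ∨
      (((3 * a (i + 1) + a i : ℕ) : ℝ) - 2) * ((Fintype.card V : ℝ) + 24 * (a i : ℝ))
        ≤ 25 * (a i : ℝ) * (Fintype.card V : ℝ))
    (hmix : (Fintype.card V : ℝ) < 6 * (a j : ℝ)) :
    Set.ncard {M : G.Subgraph | M.IsMatching ∧ Set.ncard (M.verts)ᶜ = 2} ≤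
      Fintype.card V * (2 * d + 1) ^ (2 * j) *
        Set.ncard {M : G.Subgraph | M.IsPerfectMatching} := by
  have hd' : (0 : ℝ) < (d : ℝ) := by exact_mod_cast hd
  have hlam2 : 25 * lam ^ 2 ≤ (d : ℝ) ^ 2 := by nlinarith
  have hN0 : (0 : ℝ) ≤ (Fintype.card V : ℝ) := Nat.cast_nonneg _
  have hapos : ∀ i, 1 ≤ a i := by
    intro i
    induction i with
    | zero => rw [ha0]
    | succ i ih => exact ih.trans (hmono i)
  have htan : ∀ S : Finset V, 25 * (S.card : ℝ) * (Fintype.card V : ℝ)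
      ≤ ((S.biUnion (fun x => G.neighborFinset x)).card : ℝ)
        * ((Fintype.card V : ℝ) + 24 * (S.card : ℝ)) := by
    intro S
    have ht := tanner G hreg lam hspec S
    have hSN : (S.card : ℝ) ≤ (Fintype.card V : ℝ) := by
      exact_mod_cast Finset.card_le_univ S
    have hNS : (0 : ℝ) ≤ ((S.biUnion (fun x => G.neighborFinset x)).card : ℝ) :=
      Nat.cast_nonneg _
    have hD : lam ^ 2 * (Fintype.card V : ℝ) + ((d : ℝ) ^ 2 - lam ^ 2) * (S.card : ℝ)
        ≤ (d : ℝ) ^ 2 / 25 * ((Fintype.card V : ℝ) + 24 * (S.card : ℝ)) := by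
      have h1 : 0 ≤ ((d : ℝ) ^ 2 - 25 * lam ^ 2) * ((Fintype.card V : ℝ) - (S.card : ℝ)) :=
        mul_nonneg (by linarith) (by linarith)
      nlinarith
    have h2 := ht.trans (mul_le_mul_of_nonneg_left hD hNS)
    have hd2 : (0 : ℝ) < (d : ℝ) ^ 2 := by positivity
    have h3 : (d : ℝ) ^ 2 * (25 * (S.card : ℝ) * (Fintype.card V : ℝ))
        ≤ (d : ℝ) ^ 2 * (((S.biUnion (fun x => G.neighborFinset x)).card : ℝ)
          * ((Fintype.card V : ℝ) + 24 * (S.card : ℝ))) := by
      have e : ((S.biUnion (fun x => G.neighborFinset x)).card : ℝ)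
            * ((d : ℝ) ^ 2 / 25 * ((Fintype.card V : ℝ) + 24 * (S.card : ℝ)))
          = (d : ℝ) ^ 2 * (((S.biUnion (fun x => G.neighborFinset x)).card : ℝ)
            * ((Fintype.card V : ℝ) + 24 * (S.card : ℝ))) / 25 := by ring
      rw [e] at h2
      rw [le_div_iff₀ (by norm_num)] at h2
      linarith
    exact le_of_mul_le_mul_left h3 hd2
  apply near_le_of_schedule G d (fun v => (hreg.degree_eq v).le) a j ha0 hmono
  · intro i hi S hS
    rcases hexp i hi with ⟨hi0, h1⟩ | h1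
    · subst hi0
      rw [ha0] at hS
      obtain ⟨v, rfl⟩ := Finset.card_eq_one.1 hS
      rw [Finset.singleton_biUnion, SimpleGraph.card_neighborFinset_eq_degree,
        hreg.degree_eq, ha0]
      have h1' : 3 * a (0 + 1) ≤ d + 1 := h1
      omega
    · have ht := htan S
      rw [hS] at ht
      have hai : (1 : ℝ) ≤ (a i : ℝ) := by exact_mod_cast hapos i
      have hD : (0 : ℝ) < (Fintype.card V : ℝ) + 24 * (a i : ℝ) := by linarith
      have hle : (((3 * a (i + 1) + a i : ℕ) : ℝ) - 2)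
          ≤ ((S.biUnion (fun x => G.neighborFinset x)).card : ℝ) :=
        le_of_mul_le_mul_right (h1.trans ht) hD
      have h5 : ((3 * a (i + 1) + a i : ℕ) : ℝ)
          ≤ (((S.biUnion (fun x => G.neighborFinset x)).card + 2 : ℕ) : ℝ) := by
        push_cast
        push_cast at hle
        linarith
      exact_mod_cast h5
  · intro S T hdisj hS hT
    by_contra hcon
    push Not at hcon
    have hNT : Disjoint (S.biUnion (fun x => G.neighborFinset x)) T := by
      rw [Finset.disjoint_left]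
      intro v hv hvT
      rw [Finset.mem_biUnion] at hv
      obtain ⟨s, hs, hvs⟩ := hv
      rw [SimpleGraph.mem_neighborFinset] at hvs
      exact hcon s hs v hvT hvs
    have hcard : (S.biUnion (fun x => G.neighborFinset x)).card + T.card
        ≤ Fintype.card V := by
      rw [← Finset.card_union_of_disjoint hNT]
      exact Finset.card_le_univ _
    rw [hT] at hcard
    have hcardR : ((S.biUnion (fun x => G.neighborFinset x)).card : ℝ) + (a j : ℝ)
        ≤ (Fintype.card V : ℝ) := by exact_mod_cast hcard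
    have ht := htan S
    rw [hS] at ht
    have haj : (1 : ℝ) ≤ (a j : ℝ) := by exact_mod_cast hapos j
    have h6 : ((S.biUnion (fun x => G.neighborFinset x)).card : ℝ)
          * ((Fintype.card V : ℝ) + 24 * (a j : ℝ))
        ≤ ((Fintype.card V : ℝ) - (a j : ℝ)) * ((Fintype.card V : ℝ) + 24 * (a j : ℝ)) :=
      mul_le_mul_of_nonneg_right (by linarith) (by linarith)
    nlinarith [mul_pos (sub_pos.2 hmix)
      (by linarith : (0 : ℝ) < 4 * (a j : ℝ) + (Fintype.card V : ℝ))]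

/-- one step from a vertex to a set that is larger than a sixth of the graph -/
theorem near_le_jump1 (G : SimpleGraph V) [DecidableRel G.Adj] (d : ℕ) (hd : 0 < d)
    (hreg : G.IsRegularOfDegree d) (lam : ℝ) (hlam : 0 ≤ lam)
    (hspec : ∀ x : V → ℝ, ∑ v, x v = 0 →
      ∑ v, ((G.adjMatrix ℝ).mulVec x v) ^ 2 ≤ lam ^ 2 * ∑ v, x v ^ 2)
    (hl : 5 * lam ≤ d) (A : ℕ) (hA1 : 1 ≤ A) (hA : 3 * A ≤ d + 1)
    (h6 : Fintype.card V < 6 * A) :
    Set.ncard {M : G.Subgraph | M.IsMatching ∧ Set.ncard (M.verts)ᶜ = 2} ≤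
      Fintype.card V * (2 * d + 1) ^ (2 * 1) *
        Set.ncard {M : G.Subgraph | M.IsPerfectMatching} := by
  apply near_le_sched5 G d hd hreg lam hlam hspec hl (fun i => if i = 0 then 1 else A) 1
  · simp
  · intro i
    by_cases hi : i = 0
    · subst hi
      simp [hA1]
    · simp [hi]
  · intro i hi
    left
    refine ⟨by omega, ?_⟩
    simp [hA]
  · simp only [one_ne_zero, if_false]
    exact_mod_cast h6

/-- a first step given by the degree, then `T` doublings, then a last step to a set that is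
larger than a sixth of the graph -/
theorem near_le_jump (G : SimpleGraph V) [DecidableRel G.Adj] (d : ℕ) (hd : 0 < d)
    (hreg : G.IsRegularOfDegree d) (lam : ℝ) (hlam : 0 ≤ lam)
    (hspec : ∀ x : V → ℝ, ∑ v, x v = 0 →
      ∑ v, ((G.adjMatrix ℝ).mulVec x v) ^ 2 ≤ lam ^ 2 * ∑ v, x v ^ 2)
    (hl : 5 * lam ≤ d) (A T : ℕ) (hA1 : 1 ≤ A) (hA : 3 * A ≤ d + 1)
    (hdbl : ∀ i, i < T → 28 * (A * 2 ^ i) ≤ 3 * Fintype.card V)
    (hE : A * 2 ^ T ≤ Fintype.card V / 6 + 1)
    (hfin : (((3 * (Fintype.card V / 6 + 1) + A * 2 ^ T : ℕ) : ℝ) - 2)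
        * ((Fintype.card V : ℝ) + 24 * ((A * 2 ^ T : ℕ) : ℝ))
      ≤ 25 * ((A * 2 ^ T : ℕ) : ℝ) * (Fintype.card V : ℝ)) :
    Set.ncard {M : G.Subgraph | M.IsMatching ∧ Set.ncard (M.verts)ᶜ = 2} ≤
      Fintype.card V * (2 * d + 1) ^ (2 * (T + 2)) *
        Set.ncard {M : G.Subgraph | M.IsPerfectMatching} := by
  obtain ⟨a, ha⟩ : ∃ a : ℕ → ℕ, a = fun i => if i = 0 then 1
      else if i ≤ T + 1 then A * 2 ^ (i - 1) else Fintype.card V / 6 + 1 := ⟨_, rfl⟩
  have e0 : a 0 = 1 := by rw [ha]; simp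
  have e1 : ∀ i, i ≤ T → a (i + 1) = A * 2 ^ i := by
    intro i hi
    rw [ha]
    simp only [Nat.add_eq_zero_iff, one_ne_zero, and_false, if_false, Nat.add_sub_cancel]
    rw [if_pos (by omega)]
  have e2 : ∀ i, T + 2 ≤ i → a i = Fintype.card V / 6 + 1 := by
    intro i hi
    rw [ha]
    simp only
    rw [if_neg (by omega), if_neg (by omega)]
  have hN0 : (0 : ℝ) ≤ (Fintype.card V : ℝ) := Nat.cast_nonneg _
  apply near_le_sched5 G d hd hreg lam hlam hspec hl a (T + 2) e0
  · intro i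
    rcases Nat.eq_zero_or_pos i with hi | hi
    · subst hi
      rw [e0, e1 0 (Nat.zero_le T)]
      simpa using hA1
    · obtain ⟨i', rfl⟩ : ∃ i', i = i' + 1 := ⟨i - 1, by omega⟩
      rcases Nat.lt_or_ge i' T with h | h
      · rw [e1 i' h.le, e1 (i' + 1) (by omega)]
        exact Nat.mul_le_mul_left _ (Nat.pow_le_pow_right (by norm_num) (Nat.le_succ i'))
      · rcases Nat.eq_or_lt_of_le h with h' | h'
        · subst h'
          rw [e1 T (le_refl T), e2 (T + 1 + 1) (by omega)]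
          exact hE
        · rw [e2 (i' + 1) (by omega), e2 (i' + 1 + 1) (by omega)]
  · intro i hi
    rcases Nat.eq_zero_or_pos i with hi0 | hi0
    · left
      refine ⟨hi0, ?_⟩
      rw [e1 0 (Nat.zero_le T)]
      simpa using hA
    · right
      obtain ⟨i', rfl⟩ : ∃ i', i = i' + 1 := ⟨i - 1, by omega⟩
      rcases Nat.lt_or_ge i' T with h | h
      · rw [e1 i' h.le, e1 (i' + 1) (by omega)]
        have hb := hdbl i' h
        obtain ⟨b, hbdef⟩ : ∃ b, b = A * 2 ^ i' := ⟨_, rfl⟩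
        have e3 : A * 2 ^ (i' + 1) = 2 * b := by rw [hbdef, pow_succ]; ring
        rw [e3, ← hbdef]
        rw [← hbdef] at hb
        have hbR : 28 * (b : ℝ) ≤ 3 * (Fintype.card V : ℝ) := by exact_mod_cast hb
        have hb0 : (0 : ℝ) ≤ (b : ℝ) := Nat.cast_nonneg _
        push_cast
        nlinarith [mul_nonneg hb0 (sub_nonneg.2 hbR)]
      · have h' : i' = T := by omega
        subst h'
        rw [e1 i' (le_refl i'), e2 (i' + 1 + 1) (by omega)]
        exact hfin
  · rw [e2 (T + 2) (le_refl _)]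
    have h : Fintype.card V < 6 * (Fintype.card V / 6 + 1) := by omega
    exact_mod_cast h

end Vale.Agent.Lib.P308
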