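import Vale.Agent.Lib.P308.YFall
import Vale.Agent.Lib.P308.UMain

namespace Vale.Agent.Lib.P308

open Finset

set_option linter.unusedSectionVars false
set_option linter.unusedVariables false

lemma five_le_d (d N : ℕ) (hdN : d + 1 ≤ N) (h25 : 25 * N + d ≤ d * N + 25 * d) : 5 ≤ d := by
  by_contra hc
  have hd4 : d ≤ 4 := by omega
  interval_cases d <;> omega

lemma N_ge_49 (d N A : ℕ) (hdN : d + 1 ≤ N) (h25 : 25 * N + d ≤ d * N + 25 * d)
    (hA' : d ≤ 3 * A + 1) (h28 : 28 * A ≤ 3 * N) : 49 ≤ N := by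
  by_contra hc
  have hN48 : N ≤ 48 := by omega
  have hd16 : d ≤ 16 := by omega
  interval_cases d <;> omega

/-- the last step of the schedule, from a set of moderate size -/
lemma fin_step_ii (N a : ℕ) (h1 : 3 * N < 28 * a) (h2 : 6 * a ≤ N) (hN : 12 ≤ N) :
    (((3 * (N / 6 + 1) + a : ℕ) : ℝ) - 2) * ((N : ℝ) + 24 * (a : ℝ))
      ≤ 25 * (a : ℝ) * (N : ℝ) := by
  have hdiv : 6 * (N / 6) ≤ N := Nat.mul_div_le N 6
  have hdivR : 6 * ((N / 6 : ℕ) : ℝ) ≤ (N : ℝ) := by exact_mod_cast hdiv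
  have h1R : 3 * (N : ℝ) < 28 * (a : ℝ) := by exact_mod_cast h1
  have h2R : 6 * (a : ℝ) ≤ (N : ℝ) := by exact_mod_cast h2
  have hNR : (12 : ℝ) ≤ (N : ℝ) := by exact_mod_cast hN
  have ha0 : (0 : ℝ) ≤ (a : ℝ) := Nat.cast_nonneg _
  have hE : (((3 * (N / 6 + 1) + a : ℕ) : ℝ) - 2) ≤ (N : ℝ) / 2 + 1 + (a : ℝ) := by
    push_cast
    linarith
  have h3 := mul_le_mul_of_nonneg_right hE (by linarith : (0 : ℝ) ≤ (N : ℝ) + 24 * (a : ℝ))
  refine h3.trans ?_
  nlinarith [mul_nonneg (by linarith : (0 : ℝ) ≤ (a : ℝ) - 3 * (N : ℝ) / 28)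
      (by linarith : (0 : ℝ) ≤ (N : ℝ) / 6 - (a : ℝ)),
    mul_nonneg (by linarith : (0 : ℝ) ≤ (N : ℝ))
      (by linarith : (0 : ℝ) ≤ (a : ℝ) - 3 * (N : ℝ) / 28),
    mul_nonneg (by linarith : (0 : ℝ) ≤ (N : ℝ)) (by linarith : (0 : ℝ) ≤ (N : ℝ) - 12)]

/-- the last step of the schedule, after the doublings -/
lemma fin_step_iii (N a : ℕ) (h1 : 28 * a ≤ 3 * N) (h2 : 3 * N < 56 * a) (hN : 49 ≤ N) :
    (((3 * (N / 6 + 1) + a : ℕ) : ℝ) - 2) * ((N : ℝ) + 24 * (a : ℝ))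
      ≤ 25 * (a : ℝ) * (N : ℝ) := by
  have hdiv : 6 * (N / 6) ≤ N := Nat.mul_div_le N 6
  have hdivR : 6 * ((N / 6 : ℕ) : ℝ) ≤ (N : ℝ) := by exact_mod_cast hdiv
  have h1R : 28 * (a : ℝ) ≤ 3 * (N : ℝ) := by exact_mod_cast h1
  have h2R : 3 * (N : ℝ) < 56 * (a : ℝ) := by exact_mod_cast h2
  have hNR : (49 : ℝ) ≤ (N : ℝ) := by exact_mod_cast hN
  have ha0 : (0 : ℝ) ≤ (a : ℝ) := Nat.cast_nonneg _
  have hE : (((3 * (N / 6 + 1) + a : ℕ) : ℝ) - 2) ≤ (N : ℝ) / 2 + 1 + (a : ℝ) := by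
    push_cast
    linarith
  have h3 := mul_le_mul_of_nonneg_right hE (by linarith : (0 : ℝ) ≤ (N : ℝ) + 24 * (a : ℝ))
  refine h3.trans ?_
  nlinarith [mul_nonneg (by linarith : (0 : ℝ) ≤ (a : ℝ) - 3 * (N : ℝ) / 56)
      (by linarith : (0 : ℝ) ≤ 3 * (N : ℝ) / 28 - (a : ℝ)),
    mul_nonneg (by linarith : (0 : ℝ) ≤ (N : ℝ))
      (by linarith : (0 : ℝ) ≤ (a : ℝ) - 3 * (N : ℝ) / 56),
    mul_nonneg (by linarith : (0 : ℝ) ≤ (N : ℝ)) (by linarith : (0 : ℝ) ≤ (N : ℝ) - 49)]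

variable {V : Type*} [Fintype V] [DecidableEq V]

/-- sparse regular graphs with `5 * lam ≤ d` : a schedule of spectral vertex expansion whose
length is controlled through the degree -/
theorem near_le_fall5 (G : SimpleGraph V) [DecidableRel G.Adj] (d : ℕ) (hd : 0 < d)
    (hreg : G.IsRegularOfDegree d) (lam : ℝ) (hlam : 0 ≤ lam)
    (hspec : ∀ x : V → ℝ, ∑ v, x v = 0 →
      ∑ v, ((G.adjMatrix ℝ).mulVec x v) ^ 2 ≤ lam ^ 2 * ∑ v, x v ^ 2)
    (hl : 5 * lam ≤ d) (u : V) :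
    5 ≤ d ∧ ∃ j, 2 ^ j * (2 * d + 1) ≤ 8 * Fintype.card V ∧
      Set.ncard {M : G.Subgraph | M.IsMatching ∧ Set.ncard (M.verts)ᶜ = 2} ≤
        Fintype.card V * (2 * d + 1) ^ (2 * j) *
          Set.ncard {M : G.Subgraph | M.IsPerfectMatching} := by
  have c : Ctx G id d lam := ⟨hreg, fun x => rfl, hd, hlam, hspec⟩
  have hlow := c.spec_lower u
  have hdN : d + 1 ≤ Fintype.card V := by
    have h1 := G.degree_lt_card_verts u
    rw [hreg.degree_eq] at h1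
    omega
  have hd' : (0 : ℝ) < (d : ℝ) := by exact_mod_cast hd
  have hdN' : (d : ℝ) + 1 ≤ (Fintype.card V : ℝ) := by exact_mod_cast hdN
  have h25R : 25 * ((Fintype.card V : ℝ) - d) ≤ (d : ℝ) * ((Fintype.card V : ℝ) - 1) := by
    have hlam2 : lam ^ 2 ≤ (d : ℝ) ^ 2 / 25 := by nlinarith
    have h1 : lam ^ 2 * ((Fintype.card V : ℝ) - 1)
        ≤ (d : ℝ) ^ 2 / 25 * ((Fintype.card V : ℝ) - 1) :=
      mul_le_mul_of_nonneg_right hlam2 (by linarith)
    have h2 : (d : ℝ) * ((Fintype.card V : ℝ) - d)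
        ≤ (d : ℝ) * ((d : ℝ) * ((Fintype.card V : ℝ) - 1) / 25) := by
      have e : (d : ℝ) ^ 2 / 25 * ((Fintype.card V : ℝ) - 1)
          = (d : ℝ) * ((d : ℝ) * ((Fintype.card V : ℝ) - 1) / 25) := by ring
      linarith
    have h3 := le_of_mul_le_mul_left h2 hd'
    linarith
  have h25 : 25 * Fintype.card V + d ≤ d * Fintype.card V + 25 * d := by
    have h : (25 * (Fintype.card V : ℝ) + d) ≤ (d : ℝ) * (Fintype.card V : ℝ) + 25 * d := by
      linarith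
    exact_mod_cast h
  have hd5 : 5 ≤ d := five_le_d d (Fintype.card V) hdN h25
  refine ⟨hd5, ?_⟩
  obtain ⟨A, hAdef⟩ : ∃ A, A = (d + 1) / 3 := ⟨_, rfl⟩
  have hA : 3 * A ≤ d + 1 := by omega
  have hA' : d ≤ 3 * A + 1 := by omega
  have hA2 : 2 ≤ A := by omega
  by_cases h6 : Fintype.card V < 6 * A
  · refine ⟨1, ?_, near_le_jump1 G d hd hreg lam hlam hspec hl A (by omega) hA h6⟩
    rw [pow_one]
    omega
  · have h6' : 6 * A ≤ Fintype.card V := not_lt.1 h6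
    by_cases h28 : 3 * Fintype.card V < 28 * A
    · have hE : A * 2 ^ 0 ≤ Fintype.card V / 6 + 1 := by
        rw [pow_zero, mul_one]
        omega
      have hfin : (((3 * (Fintype.card V / 6 + 1) + A * 2 ^ 0 : ℕ) : ℝ) - 2)
            * ((Fintype.card V : ℝ) + 24 * ((A * 2 ^ 0 : ℕ) : ℝ))
          ≤ 25 * ((A * 2 ^ 0 : ℕ) : ℝ) * (Fintype.card V : ℝ) := by
        rw [pow_zero, mul_one]
        exact fin_step_ii (Fintype.card V) A h28 h6' (by omega)
      refine ⟨2, ?_, near_le_jump G d hd hreg lam hlam hspec hl A 0 (by omega) hA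
        (by intro i hi; omega) hE hfin⟩
      have e : (2 : ℕ) ^ 2 = 4 := by norm_num
      rw [e]
      omega
    · have h28' : 28 * A ≤ 3 * Fintype.card V := not_lt.1 h28
      have hApos : 0 < 28 * A := by omega
      have hq0 : 3 * Fintype.card V / (28 * A) ≠ 0 :=
        (Nat.div_pos h28' hApos).ne'
      obtain ⟨T, hT⟩ : ∃ T, T = Nat.log 2 (3 * Fintype.card V / (28 * A)) := ⟨_, rfl⟩
      have hT1 : 2 ^ T ≤ 3 * Fintype.card V / (28 * A) := by
        rw [hT]; exact Nat.pow_log_le_self 2 hq0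
      have hT2 : 3 * Fintype.card V / (28 * A) < 2 ^ (T + 1) := by
        rw [hT]; exact Nat.lt_pow_succ_log_self (by norm_num) _
      have hT1' : 2 ^ T * (28 * A) ≤ 3 * Fintype.card V :=
        (Nat.le_div_iff_mul_le hApos).1 hT1
      have hT2' : 3 * Fintype.card V < 2 ^ (T + 1) * (28 * A) :=
        (Nat.div_lt_iff_lt_mul hApos).1 hT2
      obtain ⟨t, ht⟩ : ∃ t, t = 2 ^ T := ⟨_, rfl⟩
      obtain ⟨a, ha⟩ : ∃ a, a = A * 2 ^ T := ⟨_, rfl⟩
      have hat : a = A * t := by rw [ha, ht]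
      have h1 : 28 * a ≤ 3 * Fintype.card V := by
        have e : 28 * a = 2 ^ T * (28 * A) := by rw [ha]; ring
        rw [e]; exact hT1'
      have h2 : 3 * Fintype.card V < 56 * a := by
        have e : 56 * a = 2 ^ (T + 1) * (28 * A) := by rw [ha, pow_succ]; ring
        rw [e]; exact hT2'
      have h2t : 2 * t ≤ a := by
        rw [hat]; exact Nat.mul_le_mul_right t hA2
      have hN49 := N_ge_49 d (Fintype.card V) A hdN h25 hA' h28'
      have hdbl : ∀ i, i < T → 28 * (A * 2 ^ i) ≤ 3 * Fintype.card V := by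
        intro i hi
        have h3 : A * 2 ^ i ≤ a := by
          rw [ha]
          exact Nat.mul_le_mul_left _ (Nat.pow_le_pow_right (by norm_num) hi.le)
        omega
      have hE : A * 2 ^ T ≤ Fintype.card V / 6 + 1 := by
        rw [← ha]; omega
      have hfin : (((3 * (Fintype.card V / 6 + 1) + A * 2 ^ T : ℕ) : ℝ) - 2)
            * ((Fintype.card V : ℝ) + 24 * ((A * 2 ^ T : ℕ) : ℝ))
          ≤ 25 * ((A * 2 ^ T : ℕ) : ℝ) * (Fintype.card V : ℝ) := by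
        rw [← ha]
        exact fin_step_iii (Fintype.card V) a h1 h2 hN49
      refine ⟨T + 2, ?_, near_le_jump G d hd hreg lam hlam hspec hl A T (by omega) hA
        hdbl hE hfin⟩
      have e2 : 2 ^ (T + 2) = 4 * t := by rw [ht, pow_add]; ring
      rw [e2]
      have hm : t * (2 * d + 1) ≤ t * (6 * A + 3) := Nat.mul_le_mul_left t (by omega)
      have e3 : t * (6 * A + 3) = 6 * a + 3 * t := by rw [hat]; ring
      rw [e3] at hm
      nlinarith

end Vale.Agent.Lib.P308
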