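import Vale.Agent.Lib.P308.YLarge
import Vale.Agent.Lib.P308.YFallB
import Vale.Agent.Lib.P308.WEight

namespace Vale.Agent.Lib.P308

open Finset

set_option linter.unusedSectionVars false
set_option linter.unusedVariables false

/-- the polynomial bound obtained from a schedule whose length is controlled through the
degree -/
lemma fall_exp (d N j : ℕ) (hN2 : 2 ≤ N) (hd5 : 5 ≤ d)
    (hj : 2 ^ j * (2 * d + 1) ≤ 8 * N) (hcase : ¬ (2048 ≤ d ∧ 64 ^ 4 ≤ N)) :
    N * (2 * d + 1) ^ (2 * j) ≤ N ^ 25 := by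
  by_cases hsmall : d < 2048
  · have h1 : 2 * d + 1 ≤ 2 ^ 12 := by
      have : (2 : ℕ) ^ 12 = 4096 := by norm_num
      omega
    have h2 : 2 ^ j * 8 ≤ 2 ^ j * (2 * d + 1) := Nat.mul_le_mul_left _ (by omega)
    have h3 : 2 ^ j ≤ N := by omega
    have h4 : (2 * d + 1) ^ (2 * j) ≤ N ^ 24 := by
      calc (2 * d + 1) ^ (2 * j) ≤ (2 ^ 12) ^ (2 * j) := Nat.pow_le_pow_left h1 _
        _ = (2 ^ j) ^ 24 := by
            rw [← pow_mul, ← pow_mul]
            congr 1
            ring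
        _ ≤ N ^ 24 := Nat.pow_le_pow_left h3 24
    calc N * (2 * d + 1) ^ (2 * j) ≤ N * N ^ 24 := Nat.mul_le_mul_left _ h4
      _ = N ^ 25 := by ring
  · have hd2048 : 2048 ≤ d := not_lt.1 hsmall
    have hN24 : N < 64 ^ 4 := by
      by_contra hc
      exact hcase ⟨hd2048, not_lt.1 hc⟩
    have hNne : N ≠ 0 := by omega
    obtain ⟨n, hn⟩ : ∃ n, n = Nat.log 2 N := ⟨_, rfl⟩
    have hn1 : 2 ^ n ≤ N := by rw [hn]; exact Nat.pow_log_le_self 2 hNne
    have hn2 : N < 2 ^ (n + 1) := by rw [hn]; exact Nat.lt_pow_succ_log_self (by norm_num) _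
    have hn23 : n ≤ 23 := by
      have e : (64 : ℕ) ^ 4 = 2 ^ 24 := by norm_num
      rw [e] at hN24
      have h1 := lt_of_le_of_lt hn1 hN24
      have h2 := (Nat.pow_lt_pow_iff_right (by norm_num : 1 < 2)).1 h1
      omega
    have hn0 : 1 ≤ n := by
      by_contra hc
      have h0 : n = 0 := by omega
      rw [h0] at hn2
      norm_num at hn2
      omega
    have hDne : 2 * d + 1 ≠ 0 := by omega
    obtain ⟨Y, hY⟩ : ∃ Y, Y = Nat.log 2 (2 * d + 1) := ⟨_, rfl⟩
    have hY1 : 2 ^ Y ≤ 2 * d + 1 := by rw [hY]; exact Nat.pow_log_le_self 2 hDne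
    have hY2 : 2 * d + 1 < 2 ^ (Y + 1) := by
      rw [hY]; exact Nat.lt_pow_succ_log_self (by norm_num) _
    have hs : j + Y < n + 4 := by
      have h1 : 2 ^ (j + Y) ≤ 2 ^ j * (2 * d + 1) := by
        rw [pow_add]
        exact Nat.mul_le_mul_left _ hY1
      have h2 : 8 * N < 2 ^ (n + 4) := by
        have e : 2 ^ (n + 4) = 8 * 2 ^ (n + 1) := by
          rw [pow_add, pow_add]
          norm_num
          ring
        rw [e]
        omega
      have h3 : 2 ^ (j + Y) < 2 ^ (n + 4) := lt_of_le_of_lt (h1.trans hj) h2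
      exact (Nat.pow_lt_pow_iff_right (by norm_num : 1 < 2)).1 h3
    have hnsq : (n + 4) ^ 2 ≤ 32 * n := by
      interval_cases n <;> norm_num
    have h4 : 4 * j * (Y + 1) ≤ (j + (Y + 1)) ^ 2 := four_mul_le_sq_add j (Y + 1)
    have h5 : (j + (Y + 1)) ^ 2 ≤ (n + 4) ^ 2 := Nat.pow_le_pow_left (by omega) 2
    have hexp : (Y + 1) * (2 * j) ≤ 16 * n := by nlinarith
    have h6 : (2 * d + 1) ^ (2 * j) ≤ N ^ 16 := by
      calc (2 * d + 1) ^ (2 * j) ≤ (2 ^ (Y + 1)) ^ (2 * j) := Nat.pow_le_pow_left hY2.le _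
        _ = 2 ^ ((Y + 1) * (2 * j)) := by rw [← pow_mul]
        _ ≤ 2 ^ (16 * n) := Nat.pow_le_pow_right (by norm_num) hexp
        _ = (2 ^ n) ^ 16 := by
            rw [← pow_mul]
            congr 1
            ring
        _ ≤ N ^ 16 := Nat.pow_le_pow_left hn1 16
    calc N * (2 * d + 1) ^ (2 * j) ≤ N * N ^ 16 := Nat.mul_le_mul_left _ h6
      _ = N ^ 17 := by ring
      _ ≤ N ^ 25 := Nat.pow_le_pow_right (by omega) (by norm_num)

variable {V : Type*} [Fintype V] [DecidableEq V]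

/-- Regular graphs whose second singular value is at most `d / 5` : the near-perfect
matchings are at most `N ^ 25` times as many as the perfect matchings, uniformly in `d`. -/
theorem near_le_uniform5 (G : SimpleGraph V) [DecidableRel G.Adj] (d : ℕ) (hd : 0 < d)
    (hreg : G.IsRegularOfDegree d) (lam : ℝ) (hlam : 0 ≤ lam)
    (hspec : ∀ x : V → ℝ, ∑ v, x v = 0 →
      ∑ v, ((G.adjMatrix ℝ).mulVec x v) ^ 2 ≤ lam ^ 2 * ∑ v, x v ^ 2)
    (hl : 5 * lam ≤ d) :
    Set.ncard {M : G.Subgraph | M.IsMatching ∧ Set.ncard (M.verts)ᶜ = 2} ≤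
      Fintype.card V ^ 25 * Set.ncard {M : G.Subgraph | M.IsPerfectMatching} := by
  rcases isEmpty_or_nonempty V with hV | hV
  · have he : {M : G.Subgraph | M.IsMatching ∧ Set.ncard (M.verts)ᶜ = 2} = ∅ := by
      ext M
      simp only [Set.mem_ofPred_eq, Set.mem_empty_iff_false, iff_false, not_and]
      intro _ h
      have h1 : (M.verts)ᶜ = ∅ := Set.eq_empty_of_isEmpty _
      rw [h1, Set.ncard_empty] at h
      exact absurd h (by norm_num)
    rw [he, Set.ncard_empty]
    exact Nat.zero_le _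
  obtain ⟨u⟩ := hV
  have hdN : d + 1 ≤ Fintype.card V := by
    have h1 := G.degree_lt_card_verts u
    rw [hreg.degree_eq] at h1
    omega
  have hd' : (0 : ℝ) < (d : ℝ) := by exact_mod_cast hd
  have hdN' : (d : ℝ) + 1 ≤ (Fintype.card V : ℝ) := by exact_mod_cast hdN
  have hNpos : (0 : ℝ) < (Fintype.card V : ℝ) := by linarith
  have hN2 : 2 ≤ Fintype.card V := by omega
  by_cases hdense : 3 * Fintype.card V + 15 < 5 * d
  · -- the dense case
    have h1 : 3 * (Fintype.card V : ℝ) + 15 < 5 * (d : ℝ) := by exact_mod_cast hdense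
    have hdenseR : 3 * lam * (Fintype.card V : ℝ) < (d : ℝ) * ((d : ℝ) - 3) := by
      have h2 : 3 * lam * (Fintype.card V : ℝ) ≤ 3 * ((d : ℝ) / 5) * (Fintype.card V : ℝ) :=
        mul_le_mul_of_nonneg_right (by linarith) hNpos.le
      nlinarith [mul_pos hd' (by linarith : (0 : ℝ) < 5 * (d : ℝ) - 15 - 3 * (Fintype.card V : ℝ))]
    have h := near_le_of_dense G d hreg lam hlam hspec hdenseR
    refine h.trans (Nat.mul_le_mul_right _ ?_)
    have h5 : 2 * d + 1 ≤ 2 * Fintype.card V := by omega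
    calc Fintype.card V * (2 * d + 1) ^ 2
        ≤ Fintype.card V * (2 * Fintype.card V) ^ 2 :=
          Nat.mul_le_mul_left _ (Nat.pow_le_pow_left h5 2)
      _ = 4 * Fintype.card V ^ 3 := by ring
      _ ≤ Fintype.card V ^ 25 := pow_absorb _ 4 3 25 hN2 (by norm_num) (by norm_num)
  · -- the sparse case
    by_cases hbig : 2048 ≤ d ∧ 64 ^ 4 ≤ Fintype.card V
    · obtain ⟨hd2048n, hN24⟩ := hbig
      have hd2048 : (2048 : ℝ) ≤ (d : ℝ) := by exact_mod_cast hd2048n
      have hnear := near_le_large5 G d hd hreg lam hlam hspec hl hd2048 hN24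
      have hnearN : (NearInv G).card ≤ Fintype.card V ^ 3 * (PMinv G).card := by
        exact_mod_cast hnear
      have hpoly : Fintype.card V ^ 3 ≤ Fintype.card V ^ 25 :=
        Nat.pow_le_pow_right (by omega) (by norm_num)
      calc Set.ncard {M : G.Subgraph | M.IsMatching ∧ Set.ncard (M.verts)ᶜ = 2}
          ≤ (NearInv G).card := ncard_near_le G
        _ ≤ Fintype.card V ^ 3 * (PMinv G).card := hnearN
        _ ≤ Fintype.card V ^ 3 * Set.ncard {M : G.Subgraph | M.IsPerfectMatching} :=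
            Nat.mul_le_mul_left _ (card_pmInv_le G)
        _ ≤ Fintype.card V ^ 25 * Set.ncard {M : G.Subgraph | M.IsPerfectMatching} :=
            Nat.mul_le_mul_right _ hpoly
    · obtain ⟨hd5, j, hj, hnear⟩ := near_le_fall5 G d hd hreg lam hlam hspec hl u
      refine hnear.trans (Nat.mul_le_mul_right _ ?_)
      exact fall_exp d (Fintype.card V) j hN2 hd5 hj hbig

end Vale.Agent.Lib.P308
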