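import Vale.Agent.Lib.P308.YSeq

namespace Vale.Agent.Lib.P308

open Finset

set_option linter.unusedSectionVars false
set_option linter.unusedVariables false

variable {V : Type*} [Fintype V] [DecidableEq V]
variable {G : SimpleGraph V} [DecidableRel G.Adj] {g : V → V} {d : ℕ} {lam : ℝ}

/-- the self-avoiding walk is dominated by the free walk -/
lemma pc_le_pw {Om : Finset V} (n : ℕ) : ∀ (F : Finset V) (y w : V),
    pc G g d Om n F y w ≤ pw G g d n y w := by
  induction n with
  | zero => intro F y w; rw [pc_zero, pw_zero]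
  | succ n ih =>
    intro F y w
    rw [pc_succ, pw_succ]
    calc ∑ z ∈ Om \ F, pw1 G g d y z * pc G g d Om n (F ∪ {z, g z}) z w
        ≤ ∑ z ∈ Om \ F, pw1 G g d y z * pw G g d n z w :=
          Finset.sum_le_sum (fun z _ => mul_le_mul_of_nonneg_left (ih _ _ _) (pw1_nonneg _ _))
      _ ≤ ∑ z, pw1 G g d y z * pw G g d n z w :=
          Finset.sum_le_sum_of_subset_of_nonneg (Finset.subset_univ _)
            (fun z _ _ => mul_nonneg (pw1_nonneg _ _) (pw_nonneg _ _ _))

lemma pc_succ_sum (n : ℕ) (F : Finset V) (a : V) (Φ : V → ℝ) :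
    ∑ q, pc G g d univ (n + 1) F a q * Φ q
      = ∑ z ∈ univ \ F, pw1 G g d a z * ∑ q, pc G g d univ n (F ∪ {z, g z}) z q * Φ q := by
  simp_rw [pc_succ, Finset.sum_mul, Finset.mul_sum]
  rw [Finset.sum_comm]
  apply Finset.sum_congr rfl
  intro z _
  apply Finset.sum_congr rfl
  intro q _
  ring

lemma pc_one_of_mem (F : Finset V) (b z : V) (hz : z ∈ univ \ F) :
    pc G g d univ 1 F b z = pw1 G g d b z := by
  rw [pc_succ]
  simp only [pc_zero]
  rw [Finset.sum_eq_single_of_mem z hz]
  · simp
  · intro z' _ hz'; simp [hz']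

/-- first entrance decomposition : a walk avoiding `F` either avoids the larger set `F'` or
enters `F' \ F` at some round and then continues -/
lemma pc_hit (n : ℕ) : ∀ (F F' : Finset V) (b w : V), F ⊆ F' →
    pc G g d univ n F b w ≤ pc G g d univ n F' b w
      + ∑ j ∈ range n, ∑ q ∈ F' \ F, pc G g d univ (j + 1) F b q * pw G g d (n - 1 - j) q w := by
  induction n with
  | zero => intro F F' b w _; simp [pc_zero]
  | succ n ih =>
    intro F F' b w hFF
    have hsplit : ∑ z ∈ univ \ F, pw1 G g d b z * pc G g d univ n (F ∪ {z, g z}) z w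
        = ∑ z ∈ univ \ F', pw1 G g d b z * pc G g d univ n (F ∪ {z, g z}) z w
          + ∑ z ∈ F' \ F, pw1 G g d b z * pc G g d univ n (F ∪ {z, g z}) z w := by
      have hsub : F' \ F ⊆ univ \ F :=
        Finset.sdiff_subset_sdiff (Finset.subset_univ _) (Finset.Subset.refl _)
      have e := Finset.sum_sdiff
        (f := fun z => pw1 G g d b z * pc G g d univ n (F ∪ {z, g z}) z w) hsub
      have e2 : (univ \ F) \ (F' \ F) = univ \ F' := by
        ext v
        simp only [mem_sdiff, mem_univ, true_and, not_and, not_not]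
        constructor
        · rintro ⟨h1, h2⟩ h3
          exact h1 (h2 h3)
        · intro h
          exact ⟨fun h1 => h (hFF h1), fun h1 => absurd h1 h⟩
      rw [e2] at e
      exact e.symm
    have hz : ∀ z ∈ univ \ F', pw1 G g d b z * pc G g d univ n (F ∪ {z, g z}) z w
        ≤ pw1 G g d b z * pc G g d univ n (F' ∪ {z, g z}) z w
          + ∑ j ∈ range n, ∑ q ∈ F' \ F, (pw1 G g d b z
              * pc G g d univ (j + 1) (F ∪ {z, g z}) z q) * pw G g d (n - 1 - j) q w := by
      intro z _
      have h1 := ih (F ∪ {z, g z}) (F' ∪ {z, g z}) z w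
        (Finset.union_subset_union hFF (Finset.Subset.refl _))
      have h2 : ∑ j ∈ range n, ∑ q ∈ (F' ∪ {z, g z}) \ (F ∪ {z, g z}),
            pc G g d univ (j + 1) (F ∪ {z, g z}) z q * pw G g d (n - 1 - j) q w
          ≤ ∑ j ∈ range n, ∑ q ∈ F' \ F,
            pc G g d univ (j + 1) (F ∪ {z, g z}) z q * pw G g d (n - 1 - j) q w := by
        apply Finset.sum_le_sum
        intro j _
        apply Finset.sum_le_sum_of_subset_of_nonneg
        · intro v hv
          simp only [mem_sdiff, mem_union, mem_insert, mem_singleton, not_or] at hv ⊢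
          rcases hv with ⟨h3 | h3 | h3, h4, h5, h6⟩
          · exact ⟨h3, h4⟩
          · exact absurd h3 h5
          · exact absurd h3 h6
        · intro q _ _
          exact mul_nonneg (pc_nonneg _ _ _ _) (pw_nonneg _ _ _)
      have h3 := mul_le_mul_of_nonneg_left (h1.trans (add_le_add (le_refl _) h2))
        (pw1_nonneg (G := G) (g := g) (d := d) b z)
      refine h3.trans (le_of_eq ?_)
      rw [mul_add, Finset.mul_sum]
      congr 1
      apply Finset.sum_congr rfl
      intro j _
      rw [Finset.mul_sum]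
      apply Finset.sum_congr rfl
      intro q _
      ring
    have hp1 : ∑ z ∈ univ \ F', pw1 G g d b z * pc G g d univ n (F ∪ {z, g z}) z w
        ≤ pc G g d univ (n + 1) F' b w
          + ∑ j ∈ range n, ∑ q ∈ F' \ F, pc G g d univ (j + 1 + 1) F b q
              * pw G g d (n - 1 - j) q w := by
      refine (Finset.sum_le_sum hz).trans ?_
      rw [Finset.sum_add_distrib]
      apply add_le_add
      · exact le_of_eq (pc_succ n F' b w).symm
      · calc ∑ z ∈ univ \ F', ∑ j ∈ range n, ∑ q ∈ F' \ F, (pw1 G g d b z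
                * pc G g d univ (j + 1) (F ∪ {z, g z}) z q) * pw G g d (n - 1 - j) q w
            ≤ ∑ z ∈ univ \ F, ∑ j ∈ range n, ∑ q ∈ F' \ F, (pw1 G g d b z
                * pc G g d univ (j + 1) (F ∪ {z, g z}) z q) * pw G g d (n - 1 - j) q w := by
              apply Finset.sum_le_sum_of_subset_of_nonneg
              · exact Finset.sdiff_subset_sdiff (Finset.Subset.refl _) hFF
              · intro z _ _
                apply Finset.sum_nonneg; intro j _
                apply Finset.sum_nonneg; intro q _
                exact mul_nonneg (mul_nonneg (pw1_nonneg _ _) (pc_nonneg _ _ _ _))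
                  (pw_nonneg _ _ _)
          _ = ∑ j ∈ range n, ∑ q ∈ F' \ F, pc G g d univ (j + 1 + 1) F b q
                * pw G g d (n - 1 - j) q w := by
              rw [Finset.sum_comm]
              apply Finset.sum_congr rfl
              intro j _
              rw [Finset.sum_comm]
              apply Finset.sum_congr rfl
              intro q _
              rw [pc_succ (n := j + 1), Finset.sum_mul]
    have hp2 : ∑ z ∈ F' \ F, pw1 G g d b z * pc G g d univ n (F ∪ {z, g z}) z w
        ≤ ∑ q ∈ F' \ F, pc G g d univ (0 + 1) F b q * pw G g d n q w := by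
      apply Finset.sum_le_sum
      intro z hz'
      have hzF : z ∈ univ \ F := by
        rw [Finset.mem_sdiff] at hz' ⊢
        exact ⟨Finset.mem_univ _, hz'.2⟩
      rw [Nat.zero_add, pc_one_of_mem F b z hzF]
      exact mul_le_mul_of_nonneg_left (pc_le_pw n _ z w) (pw1_nonneg _ _)
    rw [pc_succ, hsplit, Finset.sum_range_succ']
    have e3 : ∀ j, n + 1 - 1 - (j + 1) = n - 1 - j := by intro j; omega
    have e4 : n + 1 - 1 - 0 = n := by omega
    simp only [e3, e4]
    linarith

/-- the expected sum of a function over the vertices visited by a self-avoiding walk -/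
lemma S1_path (n : ℕ) : ∀ (F : Finset V) (a : V) (h : V → V → ℝ), (∀ q z, 0 ≤ h q z) →
    S1 G g d n F a (fun F' z => ∑ q ∈ F' \ F, h q z)
      ≤ ∑ i ∈ range n, ∑ q, pc G g d univ (i + 1) F a q
          * ∑ z, pw G g d (n - 1 - i) q z * (h q z + h (g q) z) := by
  induction n with
  | zero => intro F a h _; simp [S1_zero]
  | succ n ih =>
    intro F a h hh
    rw [S1_succ]
    have hz : ∀ z₁ ∈ univ \ F, pw1 G g d a z₁
          * S1 G g d n (F ∪ {z₁, g z₁}) z₁ (fun F' z => ∑ q ∈ F' \ F, h q z)
        ≤ pw1 G g d a z₁ * (∑ z, pw G g d n z₁ z * (h z₁ z + h (g z₁) z))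
          + pw1 G g d a z₁ * ∑ i ∈ range n, ∑ q, pc G g d univ (i + 1) (F ∪ {z₁, g z₁}) z₁ q
              * ∑ z, pw G g d (n - 1 - i) q z * (h q z + h (g q) z) := by
      intro z₁ _
      rw [← mul_add]
      apply mul_le_mul_of_nonneg_left _ (pw1_nonneg _ _)
      have h1 : S1 G g d n (F ∪ {z₁, g z₁}) z₁ (fun F' z => ∑ q ∈ F' \ F, h q z)
          ≤ S1 G g d n (F ∪ {z₁, g z₁}) z₁ (fun F' z => (h z₁ z + h (g z₁) z)
              + ∑ q ∈ F' \ (F ∪ {z₁, g z₁}), h q z) := by
        apply S1_mono
        intro F' _ z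
        have hsub : F' \ F ⊆ (F' \ (F ∪ {z₁, g z₁})) ∪ {z₁, g z₁} := by
          intro v hv
          simp only [mem_sdiff, mem_union, mem_insert, mem_singleton, not_or] at hv ⊢
          by_cases k1 : v = z₁
          · right; left; exact k1
          · by_cases k2 : v = g z₁
            · right; right; exact k2
            · left; exact ⟨hv.1, hv.2, k1, k2⟩
        have h2 := Finset.sum_le_sum_of_subset_of_nonneg hsub (f := fun q => h q z)
          (fun q _ _ => hh q z)
        have h3 := sum_union_le' (F' \ (F ∪ {z₁, g z₁})) {z₁, g z₁} (fun q => h q z)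
          (fun q => hh q z)
        have h4 : ∑ q ∈ ({z₁, g z₁} : Finset V), h q z ≤ h z₁ z + h (g z₁) z := by
          by_cases hne : z₁ = g z₁
          · rw [← hne]
            have := hh z₁ z
            simp
            linarith
          · rw [Finset.sum_pair hne]
        linarith
      rw [S1_add] at h1
      have h5 := S1_const (G := G) (g := g) (d := d) n (F ∪ {z₁, g z₁}) z₁
        (fun z => h z₁ z + h (g z₁) z)
      have h6 : ∑ z, pc G g d univ n (F ∪ {z₁, g z₁}) z₁ z * (h z₁ z + h (g z₁) z)
          ≤ ∑ z, pw G g d n z₁ z * (h z₁ z + h (g z₁) z) := by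
        apply Finset.sum_le_sum
        intro z _
        exact mul_le_mul_of_nonneg_right (pc_le_pw n _ z₁ z) (add_nonneg (hh _ _) (hh _ _))
      have h7 := ih (F ∪ {z₁, g z₁}) z₁ h hh
      rw [h5] at h1
      linarith
    refine (Finset.sum_le_sum hz).trans ?_
    rw [Finset.sum_add_distrib, Finset.sum_range_succ']
    have e3 : ∀ j, n + 1 - 1 - (j + 1) = n - 1 - j := by intro j; omega
    have e4 : n + 1 - 1 - 0 = n := by omega
    simp only [e3, e4]
    have e1 : ∑ z₁ ∈ univ \ F, pw1 G g d a z₁ * (∑ z, pw G g d n z₁ z * (h z₁ z + h (g z₁) z))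
        = ∑ q, pc G g d univ (0 + 1) F a q * ∑ z, pw G g d n q z * (h q z + h (g q) z) := by
      rw [pc_succ_sum 0 F a (fun q => ∑ z, pw G g d n q z * (h q z + h (g q) z))]
      apply Finset.sum_congr rfl
      intro z₁ _
      congr 1
      symm
      simp only [pc_zero]
      rw [Finset.sum_eq_single z₁]
      · simp
      · intro b' _ hb'; simp [Ne.symm hb']
      · intro hc; exact absurd (Finset.mem_univ z₁) hc
    have e2 : ∑ z₁ ∈ univ \ F, pw1 G g d a z₁ * ∑ i ∈ range n, ∑ q,
          pc G g d univ (i + 1) (F ∪ {z₁, g z₁}) z₁ q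
            * ∑ z, pw G g d (n - 1 - i) q z * (h q z + h (g q) z)
        = ∑ i ∈ range n, ∑ q, pc G g d univ (i + 1 + 1) F a q
            * ∑ z, pw G g d (n - 1 - i) q z * (h q z + h (g q) z) := by
      simp_rw [Finset.mul_sum (s := range n)]
      rw [Finset.sum_comm]
      apply Finset.sum_congr rfl
      intro i _
      rw [pc_succ_sum (i + 1) F a (fun q => ∑ z, pw G g d (n - 1 - i) q z * (h q z + h (g q) z))]
    rw [e1, e2]
    linarith

namespace Ctx

variable (c : Ctx G g d lam)
include c

lemma pw1_rev (y w : V) : pw1 G g d y w = pw1 G g d (g w) (g y) := by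
  unfold pw1
  rw [c.inv y]
  by_cases h : G.Adj y (g w)
  · rw [if_pos h, if_pos h.symm]
  · rw [if_neg h, if_neg (fun hc => h hc.symm)]

/-- reversing the alternating walk -/
lemma pw_rev (n : ℕ) : ∀ y w, pw G g d n y w = pw G g d n (g w) (g y) := by
  induction n with
  | zero =>
    intro y w
    rw [pw_zero, pw_zero]
    by_cases h : y = w
    · subst h; simp
    · have h' : g w ≠ g y := by
        intro hc
        have := congrArg g hc
        rw [c.inv, c.inv] at this
        exact h this.symm
      rw [if_neg h, if_neg h']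
  | succ n ih =>
    intro y w
    rw [pw_succ, pw_succ']
    have h2 := Equiv.sum_comp c.perm (fun z => pw G g d n (g w) z * pw1 G g d z (g y))
    rw [← h2]
    apply Finset.sum_congr rfl
    intro z _
    change _ = pw G g d n (g w) (g z) * pw1 G g d (g z) (g y)
    rw [c.pw1_rev y z, ih z w]
    ring

/-- two free walks whose end points are adjacent : a closed formula -/
lemma adj_kernel (A B : ℕ) (q q' : V) :
    ∑ z, ∑ z', pw G g d A q z * pw G g d B q' z' * (if G.Adj z z' then (1 : ℝ) else 0)
      = d * pw G g d (A + 1 + B) q (g q') := by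
  have hd := c.dpos'
  have h1 : ∀ z', ∑ z, pw G g d A q z * (if G.Adj z z' then (1 : ℝ) else 0)
      = d * pw G g d (A + 1) q (g z') := by
    intro z'
    rw [pw_succ', Finset.mul_sum]
    apply Finset.sum_congr rfl
    intro z _
    unfold pw1
    rw [c.inv z']
    by_cases h : G.Adj z z'
    · rw [if_pos h, if_pos h]; field_simp
    · rw [if_neg h, if_neg h]; ring
  rw [Finset.sum_comm]
  have h2 : ∀ z', ∑ z, pw G g d A q z * pw G g d B q' z' * (if G.Adj z z' then (1 : ℝ) else 0)
      = d * (pw G g d (A + 1) q (g z') * pw G g d B (g z') (g q')) := by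
    intro z'
    rw [← c.pw_rev B q' z', ← mul_assoc, ← h1 z', Finset.sum_mul]
    apply Finset.sum_congr rfl
    intro z _
    ring
  rw [Finset.sum_congr rfl (fun z' _ => h2 z'), ← Finset.mul_sum]
  congr 1
  have h3 := Equiv.sum_comp c.perm (fun w => pw G g d (A + 1) q w * pw G g d B w (g q'))
  rw [pw_add (A + 1) B q (g q'), ← h3]
  rfl

end Ctx

end Vale.Agent.Lib.P308
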