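import Vale.Agent.Lib.P308.YNum

namespace Vale.Agent.Lib.P308

open Finset

set_option linter.unusedSectionVars false
set_option linter.unusedVariables false

variable {V : Type*} [Fintype V] [DecidableEq V]
variable {G : SimpleGraph V} [DecidableRel G.Adj] {g : V → V} {d : ℕ} {lam : ℝ}

namespace Ctx

variable (c : Ctx G g d lam)
include c

/-- consequences of the chain for the second phase -/
lemma Gam_chain (F₀ : Finset V) (y y' : V) (k m : ℕ) (ρ : ℝ) (hρ : 1 ≤ ρ)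
    (hch : ∀ t, t < k + m → aY G g d k F₀ y y' t ≤ ρ * aY G g d k F₀ y y' (t + 1)) :
    (∀ l, l ≤ m → Gam G g d (S G g d k F₀ y y') univ univ l
        ≤ ρ ^ (m - l) * Gam G g d (S G g d k F₀ y y') univ univ m)
      ∧ 1 ≤ ρ ^ (k + m) * Gam G g d (S G g d k F₀ y y') univ univ m := by
  have hρ0 : (0 : ℝ) ≤ ρ := by linarith
  constructor
  · intro l hl
    have h1 := chain_from (fun t => aY G g d k F₀ y y' t) ρ hρ0 (k + l) (m - l)
      (fun i _ hi => hch i (by omega))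
    have e : k + l + (m - l) = k + m := by omega
    have h1' : aY G g d k F₀ y y' (k + l)
        ≤ ρ ^ (m - l) * aY G g d k F₀ y y' (k + l + (m - l)) := h1
    rw [e, aY_add, aY_add] at h1'
    exact h1'
  · have h1 := pow_chain (fun t => aY G g d k F₀ y y' t) ρ hρ0 (k + m) hch
    have h1' : aY G g d k F₀ y y' 0 ≤ ρ ^ (k + m) * aY G g d k F₀ y y' (k + m) := h1
    rw [aY_zero, aY_add] at h1'
    exact h1'

/-- the expected weight of the junction edge after both phases : the final lower bound -/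
lemma junctionY (F₀ : Finset V) (hF : F₀.card ≤ 2) (y y' : V) (k m Lq : ℕ)
    (ρ κ cc Gg δ r₀ : ℝ) (hρ : 1 ≤ ρ) (hκ : 0 ≤ κ) (hcc0 : 0 ≤ cc) (hcc : 1 ≤ cc * (ρ - 1))
    (hκ1 : 1 ≤ κ * (1 - ρ * (lam / d)))
    (hnum : ρ * (2 * (1 / (Fintype.card V : ℝ) + dl (1 / (d : ℝ)) (lam / d) 1)
        + (8 * cc + 4) * (1 / (Fintype.card V : ℝ)) * ρ ^ (k + m)
        + 8 * DK ρ κ (1 / (d : ℝ)) (lam / d) 1) ≤ ρ - 1)
    (hε1 : lam / d ≤ 1) (hGg0 : 0 ≤ Gg) (hGg : 1 ≤ Gg * (1 - lam / d))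
    (hδ : ρ ^ m * ((lam / d) ^ (m - Lq) * Real.sqrt (Fintype.card V : ℝ)) ≤ δ)
    (hr : (Fintype.card V : ℝ) * (∑ i ∈ range m, ∑ j ∈ range m,
        (if m ≤ i + Lq + 1 ∧ m ≤ j + Lq + 1 then 0
          else c.bs ((m - 1 - i) + 1 + (m - 1 - j))
            * (2 * c.bb (k + (i + 1) + (k + (j + 1)))))) * ρ ^ (k + m) ≤ r₀)
    (hc0 : 0 ≤ 1 - (lam / d + 2 * (DK2 ρ κ (1 / (d : ℝ)) (lam / d) 1
        + 1 / (Fintype.card V : ℝ) * (cc * ρ ^ m) ^ 2))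
          * (ρ * κ ^ 2 + 2 * Gg * δ + δ ^ 2) - r₀) :
    (d : ℝ) / (Fintype.card V : ℝ) * (1 / ρ ^ (k + m))
        * (1 - (lam / d + 2 * (DK2 ρ κ (1 / (d : ℝ)) (lam / d) 1
            + 1 / (Fintype.card V : ℝ) * (cc * ρ ^ m) ^ 2))
          * (ρ * κ ^ 2 + 2 * Gg * δ + δ ^ 2) - r₀)
      ≤ S G g d (k + m) F₀ y y' (fun _ x x' => if G.Adj x x' then 1 else 0) := by
  have hV : Nonempty V := ⟨y⟩
  have hN : (0 : ℝ) < (Fintype.card V : ℝ) := by exact_mod_cast Fintype.card_pos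
  have hd := c.dpos'
  have hε0 := c.ep_nonneg
  have hρ0 : (0 : ℝ) < ρ := by linarith
  set s : ℝ := Real.sqrt (Fintype.card V : ℝ) with hsdef
  have hs0 : 0 ≤ s := Real.sqrt_nonneg _
  have hs2 : s ^ 2 = (Fintype.card V : ℝ) := Real.sq_sqrt hN.le
  have hE := S_plf (G := G) (g := g) (d := d) k F₀ y y'
  have hj := c.agg_junction k m Lq F₀ y y' s Gg hs0 hs2.ge hGg0 hGg
  refine le_trans ?_ hj
  have hchain := c.chainY F₀ hF y y' k m ρ κ cc hρ hκ hcc0 hcc hκ1 hnum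
  obtain ⟨hΓch, hΓ1⟩ := c.Gam_chain F₀ y y' k m ρ hρ hchain
  have hΓ0 : ∀ l, 0 ≤ Gam G g d (S G g d k F₀ y y') univ univ l :=
    fun l => Gam_nonneg hE l
  have hρm : 1 ≤ ρ ^ m := one_le_pow₀ hρ
  have hes : ∀ n, 0 ≤ (lam / d) ^ n * s := fun n => mul_nonneg (pow_nonneg hε0 n) hs0
  -- the tails of the L2 majorants
  have hδn : ∀ n, m - Lq ≤ n → ρ ^ m * ((lam / d) ^ n * s) ≤ δ := by
    intro n hn
    have h1 : (lam / d) ^ n ≤ (lam / d) ^ (m - Lq) := pow_le_pow_of_le_one hε0 hε1 hn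
    have h2 : (lam / d) ^ n * s ≤ (lam / d) ^ (m - Lq) * s := mul_le_mul_of_nonneg_right h1 hs0
    exact (mul_le_mul_of_nonneg_left h2 (by linarith)).trans hδ
  have hδ0 : 0 ≤ δ := (mul_nonneg (by linarith) (hes (m - Lq))).trans hδ
  have hKm : 0 ≤ ρ * κ ^ 2 + 2 * Gg * δ + δ ^ 2 := by positivity
  have hAm : AggY G g d lam (S G g d k F₀ y y') s Gg m m
      ≤ Gam G g d (S G g d k F₀ y y') univ univ m * (ρ * κ ^ 2 + 2 * Gg * δ + δ ^ 2) := by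
    have h := agg_num (fun l => Gam G g d (S G g d k F₀ y y') univ univ l) (lam / d) ρ κ s Gg δ
      m m m hε0 hρ hκ hκ1 hs0 hGg0 (le_refl m) (le_refl m) hΓ0 hΓch
      (hδn m (Nat.sub_le m Lq)) (hδn m (Nat.sub_le m Lq))
    have e : (m - m) + (m - m) + 1 = 1 := by omega
    rw [e, pow_one] at h
    exact h
  have hX : ∀ i j, i < m → j < m → (m ≤ i + Lq + 1 ∧ m ≤ j + Lq + 1) →
      2 / (Fintype.card V : ℝ) * AggY G g d lam (S G g d k F₀ y y') s Gg (i + 1) (j + 1)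
        ≤ 2 / (Fintype.card V : ℝ) * (Gam G g d (S G g d k F₀ y y') univ univ m
          * (ρ ^ ((m - 1 - i) + (m - 1 - j)) * (ρ * κ ^ 2 + 2 * Gg * δ + δ ^ 2))) := by
    intro i j hi hj hlate
    have h := agg_num (fun l => Gam G g d (S G g d k F₀ y y') univ univ l) (lam / d) ρ κ s Gg δ
      m (i + 1) (j + 1) hε0 hρ hκ hκ1 hs0 hGg0 (by omega) (by omega) hΓ0 hΓch
      (hδn (i + 1) (by omega)) (hδn (j + 1) (by omega))
    have e : (m - (i + 1)) + (m - (j + 1)) + 1 = (m - 1 - i) + (m - 1 - j) + 1 := by omega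
    rw [e] at h
    apply mul_le_mul_of_nonneg_left _ (div_nonneg (by norm_num) hN.le)
    refine le_trans h ?_
    apply mul_le_mul_of_nonneg_left _ (hΓ0 m)
    have hp1 : 1 ≤ ρ ^ ((m - 1 - i) + (m - 1 - j)) := one_le_pow₀ hρ
    have hrest : 0 ≤ 2 * Gg * δ + δ ^ 2 := by positivity
    have e2 : ρ ^ ((m - 1 - i) + (m - 1 - j) + 1) * κ ^ 2
        = ρ ^ ((m - 1 - i) + (m - 1 - j)) * (ρ * κ ^ 2) := by
      rw [pow_succ]; ring
    rw [e2]
    nlinarith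
  have hD2 : ∑ i ∈ range m, ∑ j ∈ range m, c.bs ((m - 1 - i) + 1 + (m - 1 - j))
        * ρ ^ ((m - 1 - i) + (m - 1 - j))
      ≤ DK2 ρ κ (1 / (d : ℝ)) (lam / d) 1 + 1 / (Fintype.card V : ℝ) * (cc * ρ ^ m) ^ 2 :=
    D2_bound ρ κ cc (1 / (d : ℝ)) (lam / d) (1 / (Fintype.card V : ℝ)) hρ hκ hcc0 hcc
      (by positivity) hε0 (by positivity) hκ1 m
  have hlam : lam = (d : ℝ) * (lam / d) := by
    field_simp
  exact junc_num m Lq (Fintype.card V : ℝ) (d : ℝ) lam (lam / d) (ρ ^ (k + m))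
    (ρ * κ ^ 2 + 2 * Gg * δ + δ ^ 2)
    (DK2 ρ κ (1 / (d : ℝ)) (lam / d) 1 + 1 / (Fintype.card V : ℝ) * (cc * ρ ^ m) ^ 2) r₀
    (Gam G g d (S G g d k F₀ y y') univ univ m)
    (AggY G g d lam (S G g d k F₀ y y') s Gg m m)
    (fun i j => c.bs ((m - 1 - i) + 1 + (m - 1 - j)))
    (fun i j => ρ ^ ((m - 1 - i) + (m - 1 - j)))
    (fun i j => 2 / (Fintype.card V : ℝ)
      * AggY G g d lam (S G g d k F₀ y y') s Gg (i + 1) (j + 1))
    (fun i j => 2 * c.bb (k + (i + 1) + (k + (j + 1))))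
    hN hd.le hε0 hlam hAm hX hD2 (fun i j => c.bs_nonneg _)
    (fun i j => pow_nonneg hρ0.le _) hKm (hΓ0 m)
    (fun i j => mul_nonneg (by norm_num) (c.bb_nonneg _)) hr (pow_pos hρ0 _) hΓ1 hc0

end Ctx

end Vale.Agent.Lib.P308
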