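import Vale.Agent.Lib.P308.YLargeNum

namespace Vale.Agent.Lib.P308

open Finset

set_option linter.unusedSectionVars false
set_option linter.unusedVariables false

/-- the tail of the L2 majorant at the junction -/
lemma large_hδ (p : ℕ) (N ε : ℝ) (hε0 : 0 ≤ ε) (hε : ε ≤ 1 / 5) (hN0 : 0 ≤ N)
    (hN2 : N ≤ (64 : ℝ) ^ (p + 5)) :
    (23 / 20 : ℝ) ^ (3 * p + 24) * (ε ^ ((3 * p + 24) - (p + 12)) * Real.sqrt N) ≤ 1 / 8 := by
  have e : (3 * p + 24) - (p + 12) = 2 * p + 12 := by omega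
  rw [e]
  have hs0 : 0 ≤ Real.sqrt N := Real.sqrt_nonneg _
  have hs2 : Real.sqrt N ^ 2 = N := Real.sq_sqrt hN0
  have hsq : ((23 / 20 : ℝ) ^ (3 * p + 24) * (ε ^ (2 * p + 12) * Real.sqrt N)) ^ 2
      ≤ (1 / 8) ^ 2 := by
    have e1 : ((23 / 20 : ℝ) ^ (3 * p + 24) * (ε ^ (2 * p + 12) * Real.sqrt N)) ^ 2
        = (23 / 20 : ℝ) ^ ((3 * p + 24) + (3 * p + 24)) * (ε ^ 2) ^ (2 * p + 12)
          * Real.sqrt N ^ 2 := by
      ring
    rw [e1, hs2]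
    have h1 : ε ^ 2 ≤ 1 / 25 := by nlinarith
    have h2 : (ε ^ 2) ^ (2 * p + 12) ≤ (1 / 25 : ℝ) ^ (2 * p + 12) :=
      pow_le_pow_left₀ (sq_nonneg ε) h1 _
    have e3 : (1 / 25 : ℝ) ^ (2 * p + 12) = (1 / 625 : ℝ) ^ (p + 6) := by
      have : 2 * p + 12 = 2 * (p + 6) := by ring
      rw [this, pow_mul]
      norm_num
    rw [e3] at h2
    have h4 := delta_sq p
    have hR0 : (0 : ℝ) ≤ (23 / 20 : ℝ) ^ ((3 * p + 24) + (3 * p + 24)) := by positivity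
    calc (23 / 20 : ℝ) ^ ((3 * p + 24) + (3 * p + 24)) * (ε ^ 2) ^ (2 * p + 12) * N
        ≤ (23 / 20 : ℝ) ^ ((3 * p + 24) + (3 * p + 24)) * (1 / 625 : ℝ) ^ (p + 6)
          * (64 : ℝ) ^ (p + 5) :=
          mul_le_mul (mul_le_mul_of_nonneg_left h2 hR0) hN2 hN0 (by positivity)
      _ ≤ (1 / 8) ^ 2 := h4
  exact (abs_le_of_sq_le_sq' hsq (by norm_num)).2

/-- the remainder of the collision sum, for the concrete parameters -/
lemma large_hr (p : ℕ) (N dinv ε : ℝ) (hN1 : (64 : ℝ) ^ (p + 4) ≤ N)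
    (hN2 : N ≤ (64 : ℝ) ^ (p + 5)) (hε0 : 0 ≤ ε) (hε : ε ≤ 1 / 5) :
    N * (∑ i ∈ range (3 * p + 24), ∑ j ∈ range (3 * p + 24),
        (if 3 * p + 24 ≤ i + (p + 12) + 1 ∧ 3 * p + 24 ≤ j + (p + 12) + 1 then 0
          else (1 / N + dl dinv ε ((3 * p + 24 - 1 - i) + 1 + (3 * p + 24 - 1 - j)))
            * (2 * (1 / N + ε ^ (3 * p + 24 + (i + 1) + (3 * p + 24 + (j + 1)))))))
      * (23 / 20 : ℝ) ^ ((3 * p + 24) + (3 * p + 24)) ≤ 3 / 50 := by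
  have hNpos : 0 < N := lt_of_lt_of_le (by positivity) hN1
  have hε1 : ε ≤ 1 := by linarith
  apply hr_bound (3 * p + 24) (p + 12) N dinv ε _ hNpos hε0 hε1 (by positivity) (by omega)
    (by omega)
  · have h1 : ε ^ ((3 * p + 24) + (3 * p + 24) + 2)
        ≤ (1 / 5 : ℝ) ^ ((3 * p + 24) + (3 * p + 24) + 2) := pow_le_pow_left₀ hε0 hε _
    exact (mul_le_mul_of_nonneg_left h1 hNpos.le).trans (N_b p N hNpos.le hN2)
  · exact msq_N p N hN1
  · have h1 : ε ^ (p + 12 + 2) ≤ (1 / 5 : ℝ) ^ (p + 14) := pow_le_pow_left₀ hε0 hε _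
    have h2 := msq_a p
    have h3 : (0 : ℝ) ≤ ((3 * p + 24 : ℕ) : ℝ) ^ 2
        * (23 / 20 : ℝ) ^ ((3 * p + 24) + (3 * p + 24)) := by positivity
    have h4 := mul_le_mul_of_nonneg_left h1 h3
    linarith

/-- the chain condition, for the concrete parameters -/
lemma large_hnum (p : ℕ) (N dR ε : ℝ) (hN1 : (64 : ℝ) ^ (p + 4) ≤ N) (hd : (2048 : ℝ) ≤ dR)
    (hε0 : 0 ≤ ε) (hε : ε ≤ 1 / 5) :
    (23 / 20 : ℝ) * (2 * (1 / N + dl (1 / dR) ε 1)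
        + (8 * 7 + 4) * (1 / N) * (23 / 20 : ℝ) ^ ((3 * p + 24) + (3 * p + 24))
        + 8 * DK (23 / 20) (13 / 10) (1 / dR) ε 1) ≤ 23 / 20 - 1 := by
  have hNpos : 0 < N := lt_of_lt_of_le (by positivity) hN1
  have hN' : (16777216 : ℝ) ≤ N := by
    have h : (64 : ℝ) ^ 4 ≤ (64 : ℝ) ^ (p + 4) := pow_le_pow_right₀ (by norm_num) (by omega)
    norm_num at h
    linarith
  have e1 : dl (1 / dR) ε 1 = 1 / dR := by
    unfold dl
    rw [if_pos (by norm_num)]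
  rw [e1, DK_one]
  have h1 : (1 / N) * (23 / 20 : ℝ) ^ ((3 * p + 24) + (3 * p + 24)) ≤ 1 / 20000 := by
    have := rho_N p N hN1
    rw [one_div_mul_eq_div, div_le_iff₀ hNpos]
    linarith
  have h1' : 1 / N ≤ 1 / 16777216 := one_div_le_one_div_of_le (by norm_num) hN'
  have h3 : 1 / dR ≤ 1 / 2048 := one_div_le_one_div_of_le (by norm_num) hd
  have h4 : ε ^ 3 ≤ 1 / 125 := by
    refine (pow_le_pow_left₀ hε0 hε 3).trans (le_of_eq ?_)
    norm_num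
  have e : (8 * 7 + 4) * (1 / N) * (23 / 20 : ℝ) ^ ((3 * p + 24) + (3 * p + 24))
      = 60 * ((1 / N) * (23 / 20 : ℝ) ^ ((3 * p + 24) + (3 * p + 24))) := by ring
  rw [e]
  have e5 : (13 / 10 : ℝ) * (23 / 20) ^ 2 = 6877 / 4000 := by norm_num
  rw [e5]
  linarith

/-- the final constant, for the concrete parameters -/
lemma large_c0 (p : ℕ) (N dR ε : ℝ) (hN1 : (64 : ℝ) ^ (p + 4) ≤ N) (hd : (2048 : ℝ) ≤ dR)
    (hε0 : 0 ≤ ε) (hε : ε ≤ 1 / 5) :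
    1 / 4 ≤ 1 - (ε + 2 * (DK2 (23 / 20) (13 / 10) (1 / dR) ε 1
        + 1 / N * (7 * (23 / 20 : ℝ) ^ (3 * p + 24)) ^ 2))
          * (23 / 20 * (13 / 10) ^ 2 + 2 * (5 / 4) * (1 / 8) + (1 / 8) ^ 2) - 3 / 50 := by
  have hNpos : 0 < N := lt_of_lt_of_le (by positivity) hN1
  rw [DK2_one]
  have h1 : (1 / N) * (23 / 20 : ℝ) ^ ((3 * p + 24) + (3 * p + 24)) ≤ 1 / 20000 := by
    have := rho_N p N hN1
    rw [one_div_mul_eq_div, div_le_iff₀ hNpos]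
    linarith
  have e : 1 / N * (7 * (23 / 20 : ℝ) ^ (3 * p + 24)) ^ 2
      = 49 * ((1 / N) * (23 / 20 : ℝ) ^ ((3 * p + 24) + (3 * p + 24))) := by ring
  rw [e]
  have h3 : 1 / dR ≤ 1 / 2048 := one_div_le_one_div_of_le (by norm_num) hd
  have h4 : ε ^ 3 ≤ 1 / 125 := by
    refine (pow_le_pow_left₀ hε0 hε 3).trans (le_of_eq ?_)
    norm_num
  have e5 : ((13 / 10 : ℝ) ^ 2 + 2 * (13 / 10)) * (23 / 20) ^ 2 = 226941 / 40000 := by norm_num
  have e6 : (23 / 20 * (13 / 10) ^ 2 + 2 * (5 / 4) * (1 / 8) + (1 / 8) ^ 2 : ℝ)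
      = 18173 / 8000 := by norm_num
  have e7 : (1 + 2 * (23 / 20) : ℝ) = 33 / 10 := by norm_num
  rw [e5, e6, e7]
  linarith

/-- the constant of the counting bound against the inverse square of the size -/
lemma cst_bound (N dR R X : ℝ) (hN : 0 < N) (hR : 0 < R) (h20 : 20000 * R ≤ N)
    (hd : 2048 ≤ dR) (hX : 1 / 4 ≤ X) : 1 / N ^ 2 ≤ dR / N * (1 / R) * X := by
  have hd0 : 0 < dR := by linarith
  have h5 : dR / N * (1 / R) * (1 / 4) ≤ dR / N * (1 / R) * X :=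
    mul_le_mul_of_nonneg_left hX (by positivity)
  have h6 : 1 / N ^ 2 ≤ dR / N * (1 / R) * (1 / 4) := by
    rw [div_le_iff₀ (by positivity)]
    have e : dR / N * (1 / R) * (1 / 4) * N ^ 2 = dR * N / (4 * R) := by
      field_simp
    rw [e, le_div_iff₀ (by positivity)]
    nlinarith [mul_nonneg (sub_nonneg.2 hd) hN.le]
  exact h6.trans h5

variable {V : Type*} [Fintype V] [DecidableEq V]

/-- the large sparse case of the uniform bound for `5 * lam ≤ d` -/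
theorem near_le_large5 (G : SimpleGraph V) [DecidableRel G.Adj] (d : ℕ) (hd : 0 < d)
    (hreg : G.IsRegularOfDegree d) (lam : ℝ) (hlam : 0 ≤ lam)
    (hspec : ∀ x : V → ℝ, ∑ v, x v = 0 →
      ∑ v, ((G.adjMatrix ℝ).mulVec x v) ^ 2 ≤ lam ^ 2 * ∑ v, x v ^ 2)
    (hl : 5 * lam ≤ d) (hd2048 : (2048 : ℝ) ≤ (d : ℝ)) (hN24 : 64 ^ 4 ≤ Fintype.card V) :
    ((NearInv G).card : ℝ) ≤ (Fintype.card V : ℝ) ^ 3 * ((PMinv G).card : ℝ) := by
  have hd' : (0 : ℝ) < (d : ℝ) := by exact_mod_cast hd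
  have hNpos : (0 : ℝ) < (Fintype.card V : ℝ) := by
    have : 0 < Fintype.card V := lt_of_lt_of_le (by norm_num) hN24
    exact_mod_cast this
  have hNne : Fintype.card V ≠ 0 := by
    intro h
    rw [h] at hN24
    norm_num at hN24
  obtain ⟨q, hq⟩ : ∃ q, q = Nat.log 64 (Fintype.card V) := ⟨_, rfl⟩
  have hq1 : 64 ^ q ≤ Fintype.card V := by
    rw [hq]; exact Nat.pow_log_le_self 64 hNne
  have hq2 : Fintype.card V < 64 ^ (q + 1) := by
    rw [hq]; exact Nat.lt_pow_succ_log_self (by norm_num) _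
  have hq4 : 4 ≤ q := by
    have h1 := lt_of_le_of_lt hN24 hq2
    have h2 := (Nat.pow_lt_pow_iff_right (by norm_num : 1 < 64)).1 h1
    omega
  obtain ⟨p, rfl⟩ : ∃ p, q = p + 4 := ⟨q - 4, by omega⟩
  have hN1 : (64 : ℝ) ^ (p + 4) ≤ (Fintype.card V : ℝ) := by exact_mod_cast hq1
  have hN2 : (Fintype.card V : ℝ) ≤ (64 : ℝ) ^ (p + 5) := by
    have h : Fintype.card V ≤ 64 ^ (p + 5) := hq2.le
    exact_mod_cast h
  have hε0 : 0 ≤ lam / (d : ℝ) := div_nonneg hlam hd'.le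
  have hε : lam / (d : ℝ) ≤ 1 / 5 := by
    rw [div_le_iff₀ hd']; linarith
  have hc0 := large_c0 p (Fintype.card V : ℝ) (d : ℝ) (lam / d) hN1 hd2048 hε0 hε
  have hcount := caseY_count G d hd hreg lam hlam hspec (3 * p + 24) (3 * p + 24) (p + 12)
    (23 / 20) (13 / 10) 7 (5 / 4) (1 / 8) (3 / 50) (by norm_num) (by norm_num) (by norm_num)
    (by norm_num) (by linarith)
    (large_hnum p (Fintype.card V : ℝ) (d : ℝ) (lam / d) hN1 hd2048 hε0 hε)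
    (by linarith) (by norm_num) (by linarith)
    (large_hδ p (Fintype.card V : ℝ) (lam / d) hε0 hε hNpos.le hN2)
    (large_hr p (Fintype.card V : ℝ) (1 / (d : ℝ)) (lam / d) hN1 hN2 hε0 hε)
    (by linarith)
  have hR : (0 : ℝ) < (23 / 20 : ℝ) ^ ((3 * p + 24) + (3 * p + 24)) := by positivity
  have h20 := rho_N p (Fintype.card V : ℝ) hN1
  have hcst := cst_bound (Fintype.card V : ℝ) (d : ℝ) _ _ hNpos hR h20 hd2048 hc0
  have h1 : ((NearInv G).card : ℝ) * (1 / (Fintype.card V : ℝ) ^ 2)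
      ≤ (Fintype.card V : ℝ) * ((PMinv G).card : ℝ) :=
    (mul_le_mul_of_nonneg_left hcst (Nat.cast_nonneg _)).trans hcount
  have h2 := mul_le_mul_of_nonneg_right h1
    (by positivity : (0 : ℝ) ≤ (Fintype.card V : ℝ) ^ 2)
  have e1 : ((NearInv G).card : ℝ) * (1 / (Fintype.card V : ℝ) ^ 2)
      * (Fintype.card V : ℝ) ^ 2 = ((NearInv G).card : ℝ) := by
    field_simp
  rw [e1] at h2
  refine h2.trans (le_of_eq ?_)
  ring

end Vale.Agent.Lib.P308
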