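import Vale.Agent.Lib.P308.YMain

namespace Vale.Agent.Lib.P308

open Finset

set_option linter.unusedSectionVars false
set_option linter.unusedVariables false

/-- the square of the number of rounds against a power of two -/
lemma msq_le (p : ℕ) : ((3 * p + 24 : ℕ) : ℝ) ^ 2 ≤ 576 * 2 ^ p := by
  induction p with
  | zero => norm_num
  | succ p ih =>
    push_cast at ih ⊢
    have e : (2 : ℝ) ^ (p + 1) = 2 ^ p * 2 := pow_succ 2 p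
    rw [e]
    nlinarith [ih, (Nat.cast_nonneg p : (0 : ℝ) ≤ (p : ℝ)), sq_nonneg (p : ℝ)]

lemma rho_pow_split (p : ℕ) :
    (23 / 20 : ℝ) ^ ((3 * p + 24) + (3 * p + 24))
      = (23 / 20) ^ 48 * ((23 / 20 : ℝ) ^ 6) ^ p := by
  rw [← pow_mul, ← pow_add]
  congr 1
  ring

/-- the total growth of the chain against the number of vertices -/
lemma rho_N (p : ℕ) (N : ℝ) (hN : (64 : ℝ) ^ (p + 4) ≤ N) :
    20000 * (23 / 20 : ℝ) ^ ((3 * p + 24) + (3 * p + 24)) ≤ N := by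
  rw [rho_pow_split]
  have h1 : ((23 / 20 : ℝ) ^ 6) ^ p ≤ 64 ^ p :=
    pow_le_pow_left₀ (by positivity) (by norm_num) p
  have h2 : 20000 * (23 / 20 : ℝ) ^ 48 ≤ 64 ^ 4 := by norm_num
  have h3 : (0 : ℝ) ≤ ((23 / 20 : ℝ) ^ 6) ^ p := by positivity
  calc 20000 * ((23 / 20 : ℝ) ^ 48 * ((23 / 20 : ℝ) ^ 6) ^ p)
      = (20000 * (23 / 20 : ℝ) ^ 48) * ((23 / 20 : ℝ) ^ 6) ^ p := by ring
    _ ≤ 64 ^ 4 * 64 ^ p := mul_le_mul h2 h1 h3 (by positivity)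
    _ = 64 ^ (p + 4) := by rw [pow_add]; ring
    _ ≤ N := hN

lemma msq_N (p : ℕ) (N : ℝ) (hN : (64 : ℝ) ^ (p + 4) ≤ N) :
    2000 * (((3 * p + 24 : ℕ) : ℝ) ^ 2 * (23 / 20 : ℝ) ^ ((3 * p + 24) + (3 * p + 24)))
      ≤ 57 * N := by
  rw [rho_pow_split]
  have h0 := msq_le p
  have h1 : (2 : ℝ) ^ p * ((23 / 20 : ℝ) ^ 6) ^ p ≤ 64 ^ p := by
    rw [← mul_pow]
    exact pow_le_pow_left₀ (by positivity) (by norm_num) p
  have h2 : 2000 * (576 * (23 / 20 : ℝ) ^ 48) ≤ 57 * 64 ^ 4 := by norm_num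
  have h3 : (0 : ℝ) ≤ ((23 / 20 : ℝ) ^ 6) ^ p := by positivity
  have h4 : (0 : ℝ) ≤ (23 / 20 : ℝ) ^ 48 := by positivity
  calc 2000 * (((3 * p + 24 : ℕ) : ℝ) ^ 2 * ((23 / 20 : ℝ) ^ 48 * ((23 / 20 : ℝ) ^ 6) ^ p))
      ≤ 2000 * ((576 * 2 ^ p) * ((23 / 20 : ℝ) ^ 48 * ((23 / 20 : ℝ) ^ 6) ^ p)) := by
        apply mul_le_mul_of_nonneg_left _ (by norm_num)
        exact mul_le_mul_of_nonneg_right h0 (mul_nonneg h4 h3)
    _ = (2000 * (576 * (23 / 20 : ℝ) ^ 48)) * (2 ^ p * ((23 / 20 : ℝ) ^ 6) ^ p) := by ring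
    _ ≤ (57 * 64 ^ 4) * 64 ^ p := mul_le_mul h2 h1 (by positivity) (by positivity)
    _ = 57 * 64 ^ (p + 4) := by rw [pow_add]; ring
    _ ≤ 57 * N := by linarith

lemma msq_a (p : ℕ) :
    10000 * (((3 * p + 24 : ℕ) : ℝ) ^ 2 * (23 / 20 : ℝ) ^ ((3 * p + 24) + (3 * p + 24))
      * (1 / 5 : ℝ) ^ (p + 14)) ≤ 1 := by
  rw [rho_pow_split]
  have h0 := msq_le p
  have h1 : (2 : ℝ) ^ p * ((23 / 20 : ℝ) ^ 6) ^ p * (1 / 5 : ℝ) ^ p ≤ 1 := by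
    rw [← mul_pow, ← mul_pow]
    exact pow_le_one₀ (by positivity) (by norm_num)
  have h2 : 10000 * (576 * (23 / 20 : ℝ) ^ 48 * (1 / 5 : ℝ) ^ 14) ≤ 1 := by norm_num
  calc 10000 * (((3 * p + 24 : ℕ) : ℝ) ^ 2 * ((23 / 20 : ℝ) ^ 48 * ((23 / 20 : ℝ) ^ 6) ^ p)
        * (1 / 5 : ℝ) ^ (p + 14))
      ≤ 10000 * ((576 * 2 ^ p) * ((23 / 20 : ℝ) ^ 48 * ((23 / 20 : ℝ) ^ 6) ^ p)
        * (1 / 5 : ℝ) ^ (p + 14)) := by
        apply mul_le_mul_of_nonneg_left _ (by norm_num)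
        apply mul_le_mul_of_nonneg_right _ (by positivity)
        exact mul_le_mul_of_nonneg_right h0 (by positivity)
    _ = (10000 * (576 * (23 / 20 : ℝ) ^ 48 * (1 / 5 : ℝ) ^ 14))
        * (2 ^ p * ((23 / 20 : ℝ) ^ 6) ^ p * (1 / 5 : ℝ) ^ p) := by
        rw [pow_add]; ring
    _ ≤ 1 * 1 := mul_le_mul h2 h1 (by positivity) (by norm_num)
    _ = 1 := by norm_num

lemma delta_sq (p : ℕ) :
    (23 / 20 : ℝ) ^ ((3 * p + 24) + (3 * p + 24)) * (1 / 625 : ℝ) ^ (p + 6) * 64 ^ (p + 5)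
      ≤ (1 / 8) ^ 2 := by
  rw [rho_pow_split]
  have h1 : ((23 / 20 : ℝ) ^ 6) ^ p * (1 / 625 : ℝ) ^ p * 64 ^ p ≤ 1 := by
    rw [← mul_pow, ← mul_pow]
    exact pow_le_one₀ (by positivity) (by norm_num)
  have h2 : (23 / 20 : ℝ) ^ 48 * (1 / 625 : ℝ) ^ 6 * 64 ^ 5 ≤ (1 / 8) ^ 2 := by norm_num
  calc (23 / 20 : ℝ) ^ 48 * ((23 / 20 : ℝ) ^ 6) ^ p * (1 / 625 : ℝ) ^ (p + 6) * 64 ^ (p + 5)
      = ((23 / 20 : ℝ) ^ 48 * (1 / 625 : ℝ) ^ 6 * 64 ^ 5)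
        * (((23 / 20 : ℝ) ^ 6) ^ p * (1 / 625 : ℝ) ^ p * 64 ^ p) := by
        rw [pow_add, pow_add]; ring
    _ ≤ (1 / 8) ^ 2 * 1 := mul_le_mul h2 h1 (by positivity) (by norm_num)
    _ = (1 / 8) ^ 2 := by ring

lemma N_b (p : ℕ) (N : ℝ) (hN0 : 0 ≤ N) (hN : N ≤ (64 : ℝ) ^ (p + 5)) :
    N * (1 / 5 : ℝ) ^ ((3 * p + 24) + (3 * p + 24) + 2) ≤ 1 := by
  have e : (1 / 5 : ℝ) ^ ((3 * p + 24) + (3 * p + 24) + 2)
      = ((1 / 5 : ℝ) ^ 6) ^ (p + 5) * (1 / 5) ^ 20 := by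
    rw [← pow_mul, ← pow_add]
    congr 1
    ring
  rw [e]
  have h1 : (64 : ℝ) ^ (p + 5) * ((1 / 5 : ℝ) ^ 6) ^ (p + 5) ≤ 1 := by
    rw [← mul_pow]
    exact pow_le_one₀ (by positivity) (by norm_num)
  have h2 : (1 / 5 : ℝ) ^ 20 ≤ 1 := by norm_num
  calc N * (((1 / 5 : ℝ) ^ 6) ^ (p + 5) * (1 / 5) ^ 20)
      ≤ (64 : ℝ) ^ (p + 5) * (((1 / 5 : ℝ) ^ 6) ^ (p + 5) * (1 / 5) ^ 20) :=
        mul_le_mul_of_nonneg_right hN (by positivity)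
    _ = ((64 : ℝ) ^ (p + 5) * ((1 / 5 : ℝ) ^ 6) ^ (p + 5)) * (1 / 5) ^ 20 := by ring
    _ ≤ 1 * 1 := mul_le_mul h1 h2 (by positivity) (by norm_num)
    _ = 1 := by norm_num

/-- a uniform bound for the terms of the remainder sum -/
lemma nonlate_sum (m Lq : ℕ) (T : ℕ → ℕ → ℝ) (B : ℝ) (hB : 0 ≤ B)
    (h : ∀ i j, i < m → j < m → ¬ (m ≤ i + Lq + 1 ∧ m ≤ j + Lq + 1) → T i j ≤ B) :
    ∑ i ∈ range m, ∑ j ∈ range m, (if m ≤ i + Lq + 1 ∧ m ≤ j + Lq + 1 then 0 else T i j)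
      ≤ (m : ℝ) ^ 2 * B := by
  have hterm : ∀ i ∈ range m, ∀ j ∈ range m,
      (if m ≤ i + Lq + 1 ∧ m ≤ j + Lq + 1 then 0 else T i j) ≤ B := by
    intro i hi j hj
    split_ifs with hl
    · exact hB
    · exact h i j (Finset.mem_range.1 hi) (Finset.mem_range.1 hj) hl
  calc ∑ i ∈ range m, ∑ j ∈ range m, (if m ≤ i + Lq + 1 ∧ m ≤ j + Lq + 1 then 0 else T i j)
      ≤ ∑ i ∈ range m, ∑ j ∈ range m, B :=
        Finset.sum_le_sum (fun i hi => Finset.sum_le_sum (fun j hj => hterm i hi j hj))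
    _ = (m : ℝ) ^ 2 * B := by
        simp only [Finset.sum_const, Finset.card_range, nsmul_eq_mul]
        ring

/-- the remainder of the collision sum : pairs of early meeting times -/
lemma hr_bound (m Lq : ℕ) (N dinv ε R : ℝ) (hN : 0 < N) (hε0 : 0 ≤ ε) (hε1 : ε ≤ 1)
    (hR : 0 ≤ R) (hLq : 1 ≤ Lq) (hk : Lq ≤ m + m) (hNb : N * ε ^ (m + m + 2) ≤ 1)
    (hM1 : 2000 * ((m : ℝ) ^ 2 * R) ≤ 57 * N)
    (hM2 : 10000 * ((m : ℝ) ^ 2 * R * ε ^ (Lq + 2)) ≤ 1) :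
    N * (∑ i ∈ range m, ∑ j ∈ range m,
        (if m ≤ i + Lq + 1 ∧ m ≤ j + Lq + 1 then 0
          else (1 / N + dl dinv ε ((m - 1 - i) + 1 + (m - 1 - j)))
            * (2 * (1 / N + ε ^ (m + (i + 1) + (m + (j + 1))))))) * R ≤ 3 / 50 := by
  set a : ℝ := ε ^ (Lq + 2) with ha
  set b : ℝ := ε ^ (m + m + 2) with hb
  have ha0 : 0 ≤ a := pow_nonneg hε0 _
  have hb0 : 0 ≤ b := pow_nonneg hε0 _
  have hba : b ≤ a := pow_le_pow_of_le_one hε0 hε1 (by omega)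
  have hNi : 0 ≤ 1 / N := by positivity
  have hB0 : 0 ≤ (1 / N + a) * (2 * (1 / N + b)) := by positivity
  have hsum := nonlate_sum m Lq
    (fun i j => (1 / N + dl dinv ε ((m - 1 - i) + 1 + (m - 1 - j)))
      * (2 * (1 / N + ε ^ (m + (i + 1) + (m + (j + 1))))))
    ((1 / N + a) * (2 * (1 / N + b))) hB0 (by
      intro i j hi hj hlate
      have he : Lq + 2 ≤ (m - 1 - i) + 1 + (m - 1 - j) := by omega
      have e1 : dl dinv ε ((m - 1 - i) + 1 + (m - 1 - j))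
          = ε ^ ((m - 1 - i) + 1 + (m - 1 - j)) := by
        unfold dl
        rw [if_neg (by omega)]
      have h1 : ε ^ ((m - 1 - i) + 1 + (m - 1 - j)) ≤ a := pow_le_pow_of_le_one hε0 hε1 he
      have h2 : ε ^ (m + (i + 1) + (m + (j + 1))) ≤ b :=
        pow_le_pow_of_le_one hε0 hε1 (by omega)
      have h3 : 0 ≤ ε ^ (m + (i + 1) + (m + (j + 1))) := pow_nonneg hε0 _
      rw [e1]
      exact mul_le_mul (by linarith) (by linarith) (by positivity) (by positivity))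
  have h4 : N * (∑ i ∈ range m, ∑ j ∈ range m,
        (if m ≤ i + Lq + 1 ∧ m ≤ j + Lq + 1 then 0
          else (1 / N + dl dinv ε ((m - 1 - i) + 1 + (m - 1 - j)))
            * (2 * (1 / N + ε ^ (m + (i + 1) + (m + (j + 1))))))) * R
      ≤ N * ((m : ℝ) ^ 2 * ((1 / N + a) * (2 * (1 / N + b)))) * R :=
    mul_le_mul_of_nonneg_right (mul_le_mul_of_nonneg_left hsum hN.le) hR
  refine h4.trans ?_
  have e5 : N * ((m : ℝ) ^ 2 * ((1 / N + a) * (2 * (1 / N + b)))) * R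
      = ((m : ℝ) ^ 2 * R) * (2 / N + 2 * a + 2 * b + 2 * (a * (N * b))) := by
    field_simp
    ring
  rw [e5]
  have hM0 : 0 ≤ (m : ℝ) ^ 2 * R := by positivity
  have h6 : a * (N * b) ≤ a * 1 := mul_le_mul_of_nonneg_left hNb ha0
  have h7 : 2 / N + 2 * a + 2 * b + 2 * (a * (N * b)) ≤ 2 / N + 6 * a := by linarith
  have h8 := mul_le_mul_of_nonneg_left h7 hM0
  have h9 : (m : ℝ) ^ 2 * R * (2 / N) ≤ 57 / 1000 := by
    rw [mul_div_assoc', div_le_iff₀ hN]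
    linarith
  have e10 : (m : ℝ) ^ 2 * R * (2 / N + 6 * a)
      = (m : ℝ) ^ 2 * R * (2 / N) + 6 * ((m : ℝ) ^ 2 * R * a) := by ring
  rw [e10] at h8
  linarith

end Vale.Agent.Lib.P308
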