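import Vale.Agent.Lib.P308.YJunc

namespace Vale.Agent.Lib.P308

open Finset

set_option linter.unusedSectionVars false
set_option linter.unusedVariables false

variable {V : Type*} [Fintype V] [DecidableEq V]

/-- the counting bound obtained from the junction of two independent self-avoiding walks
after a first phase of the pair walk -/
theorem caseY_count (G : SimpleGraph V) [DecidableRel G.Adj] (d : ℕ) (hd : 0 < d)
    (hreg : G.IsRegularOfDegree d) (lam : ℝ) (hlam : 0 ≤ lam)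
    (hspec : ∀ x : V → ℝ, ∑ v, x v = 0 →
      ∑ v, ((G.adjMatrix ℝ).mulVec x v) ^ 2 ≤ lam ^ 2 * ∑ v, x v ^ 2)
    (k m Lq : ℕ) (ρ κ cc Gg δ r₀ : ℝ) (hρ : 1 ≤ ρ) (hκ : 0 ≤ κ) (hcc0 : 0 ≤ cc)
    (hcc : 1 ≤ cc * (ρ - 1)) (hκ1 : 1 ≤ κ * (1 - ρ * (lam / d)))
    (hnum : ρ * (2 * (1 / (Fintype.card V : ℝ) + dl (1 / (d : ℝ)) (lam / d) 1)
        + (8 * cc + 4) * (1 / (Fintype.card V : ℝ)) * ρ ^ (k + m)
        + 8 * DK ρ κ (1 / (d : ℝ)) (lam / d) 1) ≤ ρ - 1)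
    (hε1 : lam / d ≤ 1) (hGg0 : 0 ≤ Gg) (hGg : 1 ≤ Gg * (1 - lam / d))
    (hδ : ρ ^ m * ((lam / d) ^ (m - Lq) * Real.sqrt (Fintype.card V : ℝ)) ≤ δ)
    (hr : (Fintype.card V : ℝ) * (∑ i ∈ range m, ∑ j ∈ range m,
        (if m ≤ i + Lq + 1 ∧ m ≤ j + Lq + 1 then 0
          else (1 / (Fintype.card V : ℝ)
              + dl (1 / (d : ℝ)) (lam / d) ((m - 1 - i) + 1 + (m - 1 - j)))
            * (2 * (1 / (Fintype.card V : ℝ)
              + (lam / d) ^ (k + (i + 1) + (k + (j + 1))))))) * ρ ^ (k + m) ≤ r₀)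
    (hc0 : 0 ≤ 1 - (lam / d + 2 * (DK2 ρ κ (1 / (d : ℝ)) (lam / d) 1
        + 1 / (Fintype.card V : ℝ) * (cc * ρ ^ m) ^ 2))
          * (ρ * κ ^ 2 + 2 * Gg * δ + δ ^ 2) - r₀) :
    ((NearInv G).card : ℝ) * ((d : ℝ) / (Fintype.card V : ℝ) * (1 / ρ ^ (k + m))
        * (1 - (lam / d + 2 * (DK2 ρ κ (1 / (d : ℝ)) (lam / d) 1
            + 1 / (Fintype.card V : ℝ) * (cc * ρ ^ m) ^ 2))
          * (ρ * κ ^ 2 + 2 * Gg * δ + δ ^ 2) - r₀))
      ≤ (Fintype.card V : ℝ) * ((PMinv G).card : ℝ) := by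
  apply count_main d hd hreg (k + m)
  intro s hs
  rw [mem_St] at hs
  obtain ⟨f, u, v⟩ := s
  obtain ⟨hf, hh, huv⟩ := hs
  simp only at hf hh huv
  obtain ⟨gi, gu, gv, gag⟩ := cls_inv hf hh huv
  have c : Ctx G (cls f u v) d lam := ⟨hreg, gi, hd, hlam, hspec⟩
  have hPI : PInv G (cls f u v) f {u, v} u v := by
    refine ⟨hf, hh, huv, by simp, by simp, ?_, gag⟩
    intro x hx
    simp only [mem_insert, mem_singleton] at hx ⊢
    rcases hx with hx | hx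
    · right; rw [hx, gu]
    · left; rw [hx, gv]
  have hcard : ({u, v} : Finset V).card ≤ 2 := Finset.card_le_two
  have h1 := c.junctionY {u, v} hcard u v k m Lq ρ κ cc Gg δ r₀ hρ hκ hcc0 hcc hκ1 hnum hε1
    hGg0 hGg hδ hr hc0
  have h4 := S_le_wc c (k + m) f {u, v} u v hPI
  exact h1.trans h4

end Vale.Agent.Lib.P308
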