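import Vale.Agent.Lib.P308.YChain

namespace Vale.Agent.Lib.P308

open Finset

set_option linter.unusedSectionVars false
set_option linter.unusedVariables false

/-- weighted tails of a sequence dominated through a one-step recursion -/
lemma geo_tail (ρ : ℝ) (δ D : ℕ → ℝ) (hρ : 0 ≤ ρ) (hD0 : ∀ r, 0 ≤ D r)
    (hD : ∀ r, 1 ≤ r → ρ * D (r + 1) + δ r ≤ D r) (T : ℕ) :
    ∀ r, 1 ≤ r → ∑ t ∈ range T, ρ ^ t * δ (r + t) ≤ D r := by
  induction T with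
  | zero =>
    intro r hr
    simp only [Finset.range_zero, Finset.sum_empty]
    exact hD0 r
  | succ T ih =>
    intro r hr
    rw [Finset.sum_range_succ']
    have h1 := ih (r + 1) (by omega)
    have e : ∑ t ∈ range T, ρ ^ (t + 1) * δ (r + (t + 1))
        = ρ * ∑ t ∈ range T, ρ ^ t * δ (r + 1 + t) := by
      rw [Finset.mul_sum]
      apply Finset.sum_congr rfl
      intro t _
      have e1 : r + (t + 1) = r + 1 + t := by ring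
      rw [e1, pow_succ]
      ring
    rw [e]
    have h2 := mul_le_mul_of_nonneg_left h1 hρ
    have h3 := hD r hr
    simp only [pow_zero, one_mul, Nat.add_zero]
    linarith

/-- geometric sums with a ratio above one -/
lemma geo_rho (ρ cc : ℝ) (hρ : 1 ≤ ρ) (hcc : 1 ≤ cc * (ρ - 1)) (m : ℕ) :
    ∑ u ∈ range m, ρ ^ u ≤ cc * (ρ ^ m - 1) := by
  induction m with
  | zero => simp
  | succ m ih =>
    rw [Finset.sum_range_succ, pow_succ]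
    have h1 : 0 ≤ ρ ^ m := by positivity
    nlinarith [mul_nonneg h1 (sub_nonneg.2 hcc)]

/-- majorant of the doubly weighted sums of `dl` with ratio `ρ` -/
noncomputable def DK2 (ρ κ dinv ε : ℝ) (r : ℕ) : ℝ :=
  if r ≤ 1 then (1 + 2 * ρ) * dinv + (κ ^ 2 + 2 * κ) * ρ ^ 2 * ε ^ 3
  else if r = 2 then dinv + (κ ^ 2 + κ) * ρ * ε ^ 3 else κ ^ 2 * ε ^ r

lemma DK2_one (ρ κ dinv ε : ℝ) :
    DK2 ρ κ dinv ε 1 = (1 + 2 * ρ) * dinv + (κ ^ 2 + 2 * κ) * ρ ^ 2 * ε ^ 3 := by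
  unfold DK2
  rw [if_pos (le_refl 1)]

lemma DK2_nonneg (ρ κ dinv ε : ℝ) (h0 : 0 ≤ ρ) (hκ : 0 ≤ κ) (h1 : 0 ≤ dinv) (h2 : 0 ≤ ε)
    (r : ℕ) : 0 ≤ DK2 ρ κ dinv ε r := by
  unfold DK2
  split_ifs <;> positivity

lemma DK_two (ρ κ dinv ε : ℝ) : DK ρ κ dinv ε 2 = dinv + κ * ρ * ε ^ 3 := by
  unfold DK
  rw [if_neg (by norm_num), if_pos rfl]

lemma DK2_two (ρ κ dinv ε : ℝ) : DK2 ρ κ dinv ε 2 = dinv + (κ ^ 2 + κ) * ρ * ε ^ 3 := by
  unfold DK2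
  rw [if_neg (by norm_num), if_pos rfl]

lemma DK2_three (ρ κ dinv ε : ℝ) : DK2 ρ κ dinv ε 3 = κ ^ 2 * ε ^ 3 := by
  unfold DK2
  rw [if_neg (by norm_num), if_neg (by norm_num)]

lemma DK2_rec (ρ κ dinv ε : ℝ) (h0 : 0 ≤ ρ) (hκ : 0 ≤ κ) (h1 : 0 ≤ dinv) (h2 : 0 ≤ ε)
    (h3 : 1 ≤ κ * (1 - ρ * ε)) (r : ℕ) (hr : 1 ≤ r) :
    ρ * DK2 ρ κ dinv ε (r + 1) + DK ρ κ dinv ε r ≤ DK2 ρ κ dinv ε r := by
  rcases Nat.lt_or_ge r 3 with h | h
  · rcases Nat.lt_or_ge r 2 with h' | h'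
    · have hr1 : r = 1 := by omega
      subst hr1
      rw [DK2_two, DK_one, DK2_one]
      apply le_of_eq
      ring
    · have hr2 : r = 2 := by omega
      subst hr2
      rw [DK2_three, DK_two, DK2_two]
      apply le_of_eq
      ring
  · unfold DK2 DK
    rw [if_neg (by omega), if_neg (by omega), if_neg (by omega), if_neg (by omega),
      if_neg (by omega), if_neg (by omega)]
    have h4 : 0 ≤ ε ^ r := pow_nonneg h2 r
    have h5 := mul_nonneg (mul_nonneg hκ h4) (sub_nonneg.2 h3)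
    have e : ρ * (κ ^ 2 * ε ^ (r + 1)) = κ * ε ^ r * (κ * (ρ * ε)) := by rw [pow_succ]; ring
    rw [e]
    nlinarith

/-- the doubly weighted sum of the sharp error terms -/
lemma D2_bound (ρ κ cc dinv ε β : ℝ) (hρ : 1 ≤ ρ) (hκ : 0 ≤ κ) (hcc0 : 0 ≤ cc)
    (hcc : 1 ≤ cc * (ρ - 1)) (hdinv : 0 ≤ dinv) (hε : 0 ≤ ε) (hβ : 0 ≤ β)
    (hκ1 : 1 ≤ κ * (1 - ρ * ε)) (m : ℕ) :
    ∑ i ∈ range m, ∑ j ∈ range m, (β + dl dinv ε ((m - 1 - i) + 1 + (m - 1 - j)))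
        * ρ ^ ((m - 1 - i) + (m - 1 - j))
      ≤ DK2 ρ κ dinv ε 1 + β * (cc * ρ ^ m) ^ 2 := by
  have hρ0 : (0 : ℝ) ≤ ρ := by linarith
  have e1 : ∑ i ∈ range m, ∑ j ∈ range m, (β + dl dinv ε ((m - 1 - i) + 1 + (m - 1 - j)))
        * ρ ^ ((m - 1 - i) + (m - 1 - j))
      = ∑ u ∈ range m, ∑ v ∈ range m, (β + dl dinv ε (u + 1 + v)) * ρ ^ (u + v) := by
    have r1 := Finset.sum_range_reflect
      (fun u => ∑ v ∈ range m, (β + dl dinv ε (u + 1 + v)) * ρ ^ (u + v)) m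
    rw [← r1]
    apply Finset.sum_congr rfl
    intro i _
    exact Finset.sum_range_reflect
      (fun v => (β + dl dinv ε ((m - 1 - i) + 1 + v)) * ρ ^ ((m - 1 - i) + v)) m
  have e2 : ∑ u ∈ range m, ∑ v ∈ range m, (β + dl dinv ε (u + 1 + v)) * ρ ^ (u + v)
      = β * ((∑ u ∈ range m, ρ ^ u) * (∑ v ∈ range m, ρ ^ v))
        + ∑ u ∈ range m, ρ ^ u * ∑ v ∈ range m, ρ ^ v * dl dinv ε (u + 1 + v) := by
    rw [Finset.sum_mul_sum, Finset.mul_sum, ← Finset.sum_add_distrib]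
    apply Finset.sum_congr rfl
    intro u _
    rw [Finset.mul_sum, Finset.mul_sum, ← Finset.sum_add_distrib]
    apply Finset.sum_congr rfl
    intro v _
    rw [pow_add]
    ring
  rw [e1, e2]
  have hgeo := geo_rho ρ cc hρ hcc m
  have hgeo0 : 0 ≤ ∑ u ∈ range m, ρ ^ u := Finset.sum_nonneg (fun u _ => pow_nonneg hρ0 u)
  have hgeo' : ∑ u ∈ range m, ρ ^ u ≤ cc * ρ ^ m := by
    have e : cc * (ρ ^ m - 1) = cc * ρ ^ m - cc := by ring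
    linarith
  have hsq : (∑ u ∈ range m, ρ ^ u) * (∑ v ∈ range m, ρ ^ v) ≤ (cc * ρ ^ m) ^ 2 := by
    rw [pow_two]
    exact mul_le_mul hgeo' hgeo' hgeo0 (le_trans hgeo0 hgeo')
  have hA := mul_le_mul_of_nonneg_left hsq hβ
  have hinner : ∀ u, ∑ v ∈ range m, ρ ^ v * dl dinv ε (u + 1 + v) ≤ DK ρ κ dinv ε (u + 1) :=
    fun u => geo_tail ρ (dl dinv ε) (DK ρ κ dinv ε) hρ0
      (DK_nonneg ρ κ dinv ε hρ0 hκ hdinv hε) (DK_rec ρ κ dinv ε hρ0 hκ hdinv hε hκ1) m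
      (u + 1) (by omega)
  have houter : ∑ u ∈ range m, ρ ^ u * DK ρ κ dinv ε (1 + u) ≤ DK2 ρ κ dinv ε 1 :=
    geo_tail ρ (DK ρ κ dinv ε) (DK2 ρ κ dinv ε) hρ0
      (DK2_nonneg ρ κ dinv ε hρ0 hκ hdinv hε) (DK2_rec ρ κ dinv ε hρ0 hκ hdinv hε hκ1) m
      1 (le_refl 1)
  have hB : ∑ u ∈ range m, ρ ^ u * ∑ v ∈ range m, ρ ^ v * dl dinv ε (u + 1 + v)
      ≤ ∑ u ∈ range m, ρ ^ u * DK ρ κ dinv ε (1 + u) := by
    apply Finset.sum_le_sum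
    intro u _
    rw [add_comm 1 u]
    exact mul_le_mul_of_nonneg_left (hinner u) (pow_nonneg hρ0 u)
  linarith

/-- the aggregated majorant against the final survival weight -/
lemma agg_num (Γ : ℕ → ℝ) (ε ρ κ s Gg δ : ℝ) (m n n' : ℕ) (hε : 0 ≤ ε) (hρ : 1 ≤ ρ)
    (hκ0 : 0 ≤ κ) (hκ1 : 1 ≤ κ * (1 - ρ * ε)) (hs : 0 ≤ s) (hGg : 0 ≤ Gg) (hn : n ≤ m)
    (hn' : n' ≤ m) (hΓ : ∀ l, 0 ≤ Γ l) (hch : ∀ l, l ≤ m → Γ l ≤ ρ ^ (m - l) * Γ m)
    (hδ1 : ρ ^ m * (ε ^ n * s) ≤ δ) (hδ2 : ρ ^ m * (ε ^ n' * s) ≤ δ) :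
    ∑ l ∈ range n, ∑ l' ∈ range n', (ε ^ (n - 1 - l) * ε ^ (n' - 1 - l')) * Γ (min l l')
        + (ε ^ n * s * Gg + ε ^ n' * s * Gg + ε ^ n * s * (ε ^ n' * s)) * Γ 0
      ≤ Γ m * (ρ ^ ((m - n) + (m - n') + 1) * κ ^ 2 + 2 * Gg * δ + δ ^ 2) := by
  have hρ0 : (0 : ℝ) ≤ ρ := by linarith
  have hx0 : 0 ≤ ρ * ε := mul_nonneg hρ0 hε
  have hΓm := hΓ m
  obtain ⟨A, hA⟩ : ∃ A, A = (m - n) + (m - n') + 1 := ⟨_, rfl⟩
  rw [← hA]
  have hterm : ∀ l ∈ range n, ∀ l' ∈ range n',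
      (ε ^ (n - 1 - l) * ε ^ (n' - 1 - l')) * Γ (min l l')
        ≤ (ρ ^ A * Γ m) * ((ρ * ε) ^ (n - 1 - l) * (ρ * ε) ^ (n' - 1 - l')) := by
    intro l hl l' hl'
    have hl1 := Finset.mem_range.1 hl
    have hl1' := Finset.mem_range.1 hl'
    obtain ⟨p, hp⟩ : ∃ p, p = n - 1 - l := ⟨_, rfl⟩
    obtain ⟨p', hp'⟩ : ∃ p', p' = n' - 1 - l' := ⟨_, rfl⟩
    rw [← hp, ← hp']
    have hmin : min l l' ≤ m := (Nat.min_le_left l l').trans (by omega)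
    have h1 := hch (min l l') hmin
    have hexp : m - min l l' ≤ A + p + p' := by
      rcases Nat.le_total l l' with h | h
      · rw [Nat.min_eq_left h]; omega
      · rw [Nat.min_eq_right h]; omega
    have h2 : ρ ^ (m - min l l') ≤ ρ ^ (A + p + p') := pow_le_pow_right₀ hρ hexp
    have h3 : Γ (min l l') ≤ ρ ^ (A + p + p') * Γ m :=
      h1.trans (mul_le_mul_of_nonneg_right h2 hΓm)
    have h4 : 0 ≤ ε ^ p * ε ^ p' := mul_nonneg (pow_nonneg hε _) (pow_nonneg hε _)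
    refine (mul_le_mul_of_nonneg_left h3 h4).trans (le_of_eq ?_)
    have e1 : ρ ^ (A + p + p') = ρ ^ A * ρ ^ p * ρ ^ p' := by
      rw [pow_add ρ (A + p) p', pow_add ρ A p]
    rw [e1, mul_pow, mul_pow]
    ring
  have hgeo : ∀ k : ℕ, ∑ l ∈ range k, (ρ * ε) ^ (k - 1 - l) ≤ κ := by
    intro k
    rw [Finset.sum_range_reflect (fun a => (ρ * ε) ^ a) k]
    exact geo_gen (ρ * ε) κ hx0 hκ0 hκ1 k
  have hgeo0 : ∀ k : ℕ, 0 ≤ ∑ l ∈ range k, (ρ * ε) ^ (k - 1 - l) :=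
    fun k => Finset.sum_nonneg (fun l _ => pow_nonneg hx0 _)
  have hS1 : ∑ l ∈ range n, ∑ l' ∈ range n', (ε ^ (n - 1 - l) * ε ^ (n' - 1 - l'))
        * Γ (min l l')
      ≤ (ρ ^ A * Γ m) * κ ^ 2 := by
    refine (Finset.sum_le_sum (fun l hl => Finset.sum_le_sum
      (fun l' hl' => hterm l hl l' hl'))).trans ?_
    have e2 : ∑ l ∈ range n, ∑ l' ∈ range n',
          (ρ ^ A * Γ m) * ((ρ * ε) ^ (n - 1 - l) * (ρ * ε) ^ (n' - 1 - l'))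
        = (ρ ^ A * Γ m) * ((∑ l ∈ range n, (ρ * ε) ^ (n - 1 - l))
            * (∑ l' ∈ range n', (ρ * ε) ^ (n' - 1 - l'))) := by
      rw [Finset.sum_mul_sum, Finset.mul_sum]
      apply Finset.sum_congr rfl
      intro l _
      rw [Finset.mul_sum]
    rw [e2]
    apply mul_le_mul_of_nonneg_left _ (mul_nonneg (pow_nonneg hρ0 _) hΓm)
    rw [pow_two]
    exact mul_le_mul (hgeo n) (hgeo n') (hgeo0 n') hκ0
  have h0 := hch 0 (Nat.zero_le m)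
  rw [Nat.sub_zero] at h0
  have hρm : 1 ≤ ρ ^ m := one_le_pow₀ hρ
  have he1 : 0 ≤ ε ^ n * s := mul_nonneg (pow_nonneg hε _) hs
  have he2 : 0 ≤ ε ^ n' * s := mul_nonneg (pow_nonneg hε _) hs
  have hu1 : 0 ≤ ρ ^ m * (ε ^ n * s) := mul_nonneg (by linarith) he1
  have hδ0 : 0 ≤ δ := hu1.trans hδ1
  have he2δ : ε ^ n' * s ≤ δ := by
    have : ε ^ n' * s ≤ ρ ^ m * (ε ^ n' * s) := le_mul_of_one_le_left he2 hρm
    linarith
  have hK0 : 0 ≤ ε ^ n * s * Gg + ε ^ n' * s * Gg + ε ^ n * s * (ε ^ n' * s) := by positivity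
  have hS2 : (ε ^ n * s * Gg + ε ^ n' * s * Gg + ε ^ n * s * (ε ^ n' * s)) * Γ 0
      ≤ Γ m * (2 * Gg * δ + δ ^ 2) := by
    have h5 := mul_le_mul_of_nonneg_left h0 hK0
    refine h5.trans ?_
    have e3 : (ε ^ n * s * Gg + ε ^ n' * s * Gg + ε ^ n * s * (ε ^ n' * s)) * (ρ ^ m * Γ m)
        = Γ m * ((ρ ^ m * (ε ^ n * s)) * Gg + (ρ ^ m * (ε ^ n' * s)) * Gg
          + (ρ ^ m * (ε ^ n * s)) * (ε ^ n' * s)) := by ring
    rw [e3]
    apply mul_le_mul_of_nonneg_left _ hΓm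
    have k1 : (ρ ^ m * (ε ^ n * s)) * Gg ≤ δ * Gg := mul_le_mul_of_nonneg_right hδ1 hGg
    have k2 : (ρ ^ m * (ε ^ n' * s)) * Gg ≤ δ * Gg := mul_le_mul_of_nonneg_right hδ2 hGg
    have k3 : (ρ ^ m * (ε ^ n * s)) * (ε ^ n' * s) ≤ δ * δ := mul_le_mul hδ1 he2δ he2 hδ0
    nlinarith
  have e4 : Γ m * (ρ ^ A * κ ^ 2 + 2 * Gg * δ + δ ^ 2)
      = (ρ ^ A * Γ m) * κ ^ 2 + Γ m * (2 * Gg * δ + δ ^ 2) := by ring
  rw [e4]
  linarith

/-- the numerical heart of the junction of the two walks -/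
lemma junc_num (m Lq : ℕ) (N dR lam ε ρk Km D2 r₀ Γm Aggm : ℝ) (w pwv X Y : ℕ → ℕ → ℝ)
    (hN : 0 < N) (hd : 0 ≤ dR) (hε : 0 ≤ ε) (hlam : lam = dR * ε)
    (hAm : Aggm ≤ Γm * Km)
    (hX : ∀ i j, i < m → j < m → (m ≤ i + Lq + 1 ∧ m ≤ j + Lq + 1) →
      X i j ≤ 2 / N * (Γm * (pwv i j * Km)))
    (hD2 : ∑ i ∈ range m, ∑ j ∈ range m, w i j * pwv i j ≤ D2)
    (hw0 : ∀ i j, 0 ≤ w i j) (hpw0 : ∀ i j, 0 ≤ pwv i j) (hKm : 0 ≤ Km) (hΓm : 0 ≤ Γm)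
    (hY0 : ∀ i j, 0 ≤ Y i j)
    (hr : N * (∑ i ∈ range m, ∑ j ∈ range m,
      (if m ≤ i + Lq + 1 ∧ m ≤ j + Lq + 1 then 0 else w i j * Y i j)) * ρk ≤ r₀)
    (hρk : 0 < ρk) (h1 : 1 ≤ ρk * Γm)
    (hc0 : 0 ≤ 1 - (ε + 2 * D2) * Km - r₀) :
    dR / N * (1 / ρk) * (1 - (ε + 2 * D2) * Km - r₀)
      ≤ dR / N * Γm - lam / N * Aggm
        - dR * ∑ i ∈ range m, ∑ j ∈ range m, w i j
            * (if m ≤ i + Lq + 1 ∧ m ≤ j + Lq + 1 then X i j else Y i j) := by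
  have hA : 0 ≤ dR / N := div_nonneg hd hN.le
  set U : ℝ := Γm * Km with hU
  have hU0 : 0 ≤ U := mul_nonneg hΓm hKm
  set R : ℝ := ∑ i ∈ range m, ∑ j ∈ range m,
      (if m ≤ i + Lq + 1 ∧ m ≤ j + Lq + 1 then 0 else w i j * Y i j) with hR
  have hR0 : 0 ≤ R := by
    apply Finset.sum_nonneg
    intro i _
    apply Finset.sum_nonneg
    intro j _
    split_ifs
    · exact le_refl 0
    · exact mul_nonneg (hw0 i j) (hY0 i j)
  have hsplit : ∑ i ∈ range m, ∑ j ∈ range m, w i j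
        * (if m ≤ i + Lq + 1 ∧ m ≤ j + Lq + 1 then X i j else Y i j)
      ≤ 2 / N * U * D2 + R := by
    have hterm : ∀ i ∈ range m, ∀ j ∈ range m, w i j
          * (if m ≤ i + Lq + 1 ∧ m ≤ j + Lq + 1 then X i j else Y i j)
        ≤ 2 / N * U * (w i j * pwv i j)
          + (if m ≤ i + Lq + 1 ∧ m ≤ j + Lq + 1 then 0 else w i j * Y i j) := by
      intro i hi j hj
      have hi' := Finset.mem_range.1 hi
      have hj' := Finset.mem_range.1 hj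
      have hnn : 0 ≤ 2 / N * U * (w i j * pwv i j) :=
        mul_nonneg (mul_nonneg (div_nonneg (by norm_num) hN.le) hU0)
          (mul_nonneg (hw0 i j) (hpw0 i j))
      by_cases hlate : m ≤ i + Lq + 1 ∧ m ≤ j + Lq + 1
      · rw [if_pos hlate, if_pos hlate, add_zero]
        have h2 := mul_le_mul_of_nonneg_left (hX i j hi' hj' hlate) (hw0 i j)
        refine h2.trans (le_of_eq ?_)
        rw [hU]
        ring
      · rw [if_neg hlate, if_neg hlate]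
        linarith
    refine (Finset.sum_le_sum (fun i hi => Finset.sum_le_sum
      (fun j hj => hterm i hi j hj))).trans ?_
    have e : ∑ i ∈ range m, ∑ j ∈ range m, (2 / N * U * (w i j * pwv i j)
          + (if m ≤ i + Lq + 1 ∧ m ≤ j + Lq + 1 then 0 else w i j * Y i j))
        = 2 / N * U * (∑ i ∈ range m, ∑ j ∈ range m, w i j * pwv i j) + R := by
      rw [hR, Finset.mul_sum, ← Finset.sum_add_distrib]
      apply Finset.sum_congr rfl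
      intro i _
      rw [Finset.mul_sum, ← Finset.sum_add_distrib]
    rw [e]
    have h3 := mul_le_mul_of_nonneg_left hD2
      (mul_nonneg (div_nonneg (by norm_num : (0 : ℝ) ≤ 2) hN.le) hU0)
    linarith
  have g1 : lam / N * Aggm ≤ dR / N * (ε * U) := by
    have e : lam / N = dR / N * ε := by rw [hlam]; ring
    rw [e]
    have h4 := mul_le_mul_of_nonneg_left hAm (mul_nonneg hA hε)
    refine h4.trans (le_of_eq ?_)
    ring
  have t5 : N * R ≤ r₀ * Γm := by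
    have hNR : 0 ≤ N * R := mul_nonneg hN.le hR0
    have h5 : N * R ≤ N * R * (ρk * Γm) := le_mul_of_one_le_right hNR h1
    have h6 : N * R * ρk * Γm ≤ r₀ * Γm := mul_le_mul_of_nonneg_right hr hΓm
    have e : N * R * (ρk * Γm) = N * R * ρk * Γm := by ring
    linarith
  have g2 : dR * ∑ i ∈ range m, ∑ j ∈ range m, w i j
        * (if m ≤ i + Lq + 1 ∧ m ≤ j + Lq + 1 then X i j else Y i j)
      ≤ dR / N * (2 * D2 * U) + dR / N * (r₀ * Γm) := by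
    have h7 := mul_le_mul_of_nonneg_left hsplit hd
    have h8 := mul_le_mul_of_nonneg_left t5 hA
    have e1 : dR * (2 / N * U * D2 + R) = dR / N * (2 * D2 * U) + dR / N * (N * R) := by
      field_simp
    linarith
  have t6 : 1 / ρk ≤ Γm := by
    rw [div_le_iff₀ hρk]
    linarith
  have g3 : dR / N * (1 / ρk) * (1 - (ε + 2 * D2) * Km - r₀)
      ≤ dR / N * Γm - dR / N * (ε * U) - dR / N * (2 * D2 * U) - dR / N * (r₀ * Γm) := by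
    have h9 := mul_le_mul_of_nonneg_right (mul_le_mul_of_nonneg_left t6 hA) hc0
    refine h9.trans (le_of_eq ?_)
    rw [hU]
    ring
  linarith

end Vale.Agent.Lib.P308
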