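import Vale.Agent.Lib.P308.WChain

namespace Vale.Agent.Lib.P308

open Finset

set_option linter.unusedSectionVars false
set_option linter.unusedVariables false

variable {V : Type*} [Fintype V] [DecidableEq V]

/-- expectation over `n` rounds of a single self-avoiding walk; the set `F` collects the
blocked vertices -/
noncomputable def S1 (G : SimpleGraph V) [DecidableRel G.Adj] (g : V → V) (d : ℕ) :
    ℕ → Finset V → V → (Finset V → V → ℝ) → ℝ
  | 0, F, y, φ => φ F y
  | (n + 1), F, y, φ => ∑ z ∈ univ \ F, pw1 G g d y z * S1 G g d n (F ∪ {z, g z}) z φ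

/-- two walkers : the first makes `j` rounds, then the second makes `i` rounds avoiding the
first one; expectation of a function of the two end points -/
noncomputable def V2 (G : SimpleGraph V) [DecidableRel G.Adj] (g : V → V) (d : ℕ) (j i : ℕ)
    (F : Finset V) (a b : V) (ψ : V → V → ℝ) : ℝ :=
  S1 G g d j F a (fun F' z => ∑ z', pc G g d univ i F' b z' * ψ z z')

variable {G : SimpleGraph V} [DecidableRel G.Adj] {g : V → V} {d : ℕ} {lam : ℝ}

lemma S1_zero (F : Finset V) (y : V) (φ : Finset V → V → ℝ) : S1 G g d 0 F y φ = φ F y := rfl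

lemma S1_succ (n : ℕ) (F : Finset V) (y : V) (φ : Finset V → V → ℝ) :
    S1 G g d (n + 1) F y φ
      = ∑ z ∈ univ \ F, pw1 G g d y z * S1 G g d n (F ∪ {z, g z}) z φ := rfl

lemma S1_mono (n : ℕ) : ∀ (F : Finset V) (y : V) (φ ψ : Finset V → V → ℝ),
    (∀ F', F ⊆ F' → ∀ z, φ F' z ≤ ψ F' z) → S1 G g d n F y φ ≤ S1 G g d n F y ψ := by
  induction n with
  | zero => intro F y φ ψ h; exact h F (Finset.Subset.refl F) y
  | succ n ih =>
    intro F y φ ψ h
    rw [S1_succ, S1_succ]
    apply Finset.sum_le_sum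
    intro z _
    apply mul_le_mul_of_nonneg_left _ (pw1_nonneg _ _)
    apply ih
    intro F' hF' z'
    exact h F' (Finset.subset_union_left.trans hF') z'

lemma S1_add (n : ℕ) : ∀ (F : Finset V) (y : V) (φ ψ : Finset V → V → ℝ),
    S1 G g d n F y (fun F' z => φ F' z + ψ F' z) = S1 G g d n F y φ + S1 G g d n F y ψ := by
  induction n with
  | zero => intro F y φ ψ; rfl
  | succ n ih =>
    intro F y φ ψ
    rw [S1_succ, S1_succ, S1_succ, ← Finset.sum_add_distrib]
    apply Finset.sum_congr rfl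
    intro z _
    rw [ih]; ring

lemma S1_const (n : ℕ) : ∀ (F : Finset V) (y : V) (Φ : V → ℝ),
    S1 G g d n F y (fun _ z => Φ z) = ∑ z, pc G g d univ n F y z * Φ z := by
  induction n with
  | zero =>
    intro F y Φ
    rw [S1_zero]
    simp only [pc_zero]
    rw [Finset.sum_eq_single y]
    · simp
    · intro b _ hb; simp [Ne.symm hb]
    · intro h; exact absurd (Finset.mem_univ y) h
  | succ n ih =>
    intro F y Φ
    rw [S1_succ]
    simp_rw [pc_succ, Finset.sum_mul]
    rw [Finset.sum_comm]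
    apply Finset.sum_congr rfl
    intro z _
    rw [ih, Finset.mul_sum]
    apply Finset.sum_congr rfl
    intro w _
    ring

lemma V2_zero (i : ℕ) (F : Finset V) (a b : V) (ψ : V → V → ℝ) :
    V2 G g d 0 i F a b ψ = ∑ z', pc G g d univ i F b z' * ψ a z' := rfl

lemma V2_succ (j i : ℕ) (F : Finset V) (a b : V) (ψ : V → V → ℝ) :
    V2 G g d (j + 1) i F a b ψ
      = ∑ z ∈ univ \ F, pw1 G g d a z * V2 G g d j i (F ∪ {z, g z}) z b ψ := rfl

lemma sum_okp' (hg : ∀ x, g (g x) = x) (F : Finset V) (f : V × V → ℝ) :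
    ∑ p ∈ okp g F, f p = ∑ z₂ ∈ univ \ F, ∑ z₁ ∈ univ \ (F ∪ {z₂, g z₂}), f (z₁, z₂) := by
  unfold okp
  rw [Finset.sum_filter, Fintype.sum_prod_type_right, sum_sdiff_univ]
  apply Finset.sum_congr rfl
  intro z₂ _
  by_cases h2 : z₂ ∈ F
  · rw [if_neg (not_not.2 h2)]
    apply Finset.sum_eq_zero
    intro z₁ _
    rw [if_neg]
    simp [h2]
  · rw [if_pos h2, sum_sdiff_univ]
    apply Finset.sum_congr rfl
    intro z₁ _
    by_cases h1 : z₁ ∈ F ∪ {z₂, g z₂}
    · rw [if_neg (not_not.2 h1), if_neg]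
      simp only [mem_union, mem_insert, mem_singleton] at h1
      rintro ⟨k1, k2, k3, k4⟩
      rcases h1 with h | h | h
      · exact k1 h
      · exact k3 h.symm
      · apply k4
        change z₂ = g z₁
        rw [h, hg]
    · rw [if_pos h1, if_pos]
      simp only [mem_union, mem_insert, mem_singleton, not_or] at h1
      refine ⟨h1.1, h2, fun h => h1.2.1 h.symm, ?_⟩
      intro h
      apply h1.2.2
      change z₂ = g z₁ at h
      rw [h, hg]

/-- second recursion : the second walker makes its first round -/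
lemma V2_rec2 (hg : ∀ x, g (g x) = x) (j : ℕ) : ∀ (i : ℕ) (F : Finset V) (a b : V)
    (ψ : V → V → ℝ),
    V2 G g d j (i + 1) F a b ψ
      = ∑ z₂ ∈ univ \ F, pw1 G g d b z₂ * V2 G g d j i (F ∪ {z₂, g z₂}) a z₂ ψ := by
  induction j with
  | zero =>
    intro i F a b ψ
    rw [V2_zero]
    simp_rw [V2_zero, pc_succ, Finset.sum_mul, Finset.mul_sum]
    rw [Finset.sum_comm]
    apply Finset.sum_congr rfl
    intro z₂ _
    apply Finset.sum_congr rfl
    intro z' _
    ring
  | succ j ih =>
    intro i F a b ψ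
    rw [V2_succ]
    have h1 : ∑ z₁ ∈ univ \ F, pw1 G g d a z₁ * V2 G g d j (i + 1) (F ∪ {z₁, g z₁}) z₁ b ψ
        = ∑ p ∈ okp g F, pw1 G g d a p.1 * pw1 G g d b p.2
            * V2 G g d j i (F ∪ blk g p) p.1 p.2 ψ := by
      rw [sum_okp F (fun p => pw1 G g d a p.1 * pw1 G g d b p.2
            * V2 G g d j i (F ∪ blk g p) p.1 p.2 ψ)]
      apply Finset.sum_congr rfl
      intro z₁ _
      rw [ih, Finset.mul_sum]
      apply Finset.sum_congr rfl
      intro z₂ _
      have e : F ∪ {z₁, g z₁} ∪ {z₂, g z₂} = F ∪ blk g (z₁, z₂) := by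
        ext v
        simp only [blk, mem_union, mem_insert, mem_singleton]
        tauto
      rw [e]
      ring
    have h2 : ∑ z₂ ∈ univ \ F, pw1 G g d b z₂ * V2 G g d (j + 1) i (F ∪ {z₂, g z₂}) a z₂ ψ
        = ∑ p ∈ okp g F, pw1 G g d a p.1 * pw1 G g d b p.2
            * V2 G g d j i (F ∪ blk g p) p.1 p.2 ψ := by
      rw [sum_okp' hg F (fun p => pw1 G g d a p.1 * pw1 G g d b p.2
            * V2 G g d j i (F ∪ blk g p) p.1 p.2 ψ)]
      apply Finset.sum_congr rfl
      intro z₂ _
      rw [V2_succ, Finset.mul_sum]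
      apply Finset.sum_congr rfl
      intro z₁ _
      have e : F ∪ {z₂, g z₂} ∪ {z₁, g z₁} = F ∪ blk g (z₁, z₂) := by
        ext v
        simp only [blk, mem_union, mem_insert, mem_singleton]
        tauto
      rw [e]
      ring
    rw [h1, h2]

/-- the synchronized pair walk is the sequential pair of walks -/
lemma S_eq_V2 (hg : ∀ x, g (g x) = x) (n : ℕ) : ∀ (F : Finset V) (a b : V) (ψ : V → V → ℝ),
    S G g d n F a b (fun _ x x' => ψ x x') = V2 G g d n n F a b ψ := by
  induction n with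
  | zero =>
    intro F a b ψ
    rw [S_zero, V2_zero]
    simp only [pc_zero]
    rw [Finset.sum_eq_single b]
    · simp
    · intro z _ hz; simp [Ne.symm hz]
    · intro h; exact absurd (Finset.mem_univ b) h
  | succ n ih =>
    intro F a b ψ
    rw [S_succ, sum_okp F (fun p => pw1 G g d a p.1 * pw1 G g d b p.2
        * S G g d n (F ∪ blk g p) p.1 p.2 (fun _ x x' => ψ x x')), V2_succ]
    apply Finset.sum_congr rfl
    intro z₁ _
    rw [V2_rec2 hg n n (F ∪ {z₁, g z₁}) z₁ b ψ, Finset.mul_sum]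
    apply Finset.sum_congr rfl
    intro z₂ _
    rw [ih]
    have e : F ∪ {z₁, g z₁} ∪ {z₂, g z₂} = F ∪ blk g (z₁, z₂) := by
      ext v
      simp only [blk, mem_union, mem_insert, mem_singleton]
      tauto
    rw [e]
    ring

end Vale.Agent.Lib.P308
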